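import Vale.Agent.P249.Gluing

/-!
Summing the smoothed window maps with random signs.
-/

namespace Vale.Agent.P249

open MeasureTheory Finset

theorem sum_increment_le (φ : ℤ → ℝ) (hφ : Monotone φ) (h0 : ∀ s, 0 ≤ φ s) (S : Finset ℤ) :
    ∀ U, (∀ s ∈ S, s < U) → ∑ s ∈ S, (φ (s + 1) - φ s) ≤ φ U := by
  induction S using Finset.induction_on_max with
  | empty => intro U _; simpa using h0 U
  | insert a S hlt ih =>
    intro U hU
    rw [Finset.sum_insert (fun h => lt_irrefl a (hlt a h))]
    have h1 := ih a hlt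
    have h2 := hφ (by have := hU a (Finset.mem_insert_self _ _); omega : a + 1 ≤ U)
    linarith

theorem sum_zpow_le {A : ℝ} (hA : 2 ≤ A) (S : Finset ℤ) :
    ∀ U, (∀ s ∈ S, s ≤ U) → ∑ s ∈ S, A ^ s ≤ 2 * A ^ U := by
  have hA0 : 0 < A := by linarith
  induction S using Finset.induction_on_max with
  | empty => intro U _; simp; positivity
  | insert a S hlt ih =>
    intro U hU
    rw [Finset.sum_insert (fun h => lt_irrefl a (hlt a h))]
    have h1 := ih (a - 1) (fun s hs => by have := hlt s hs; omega)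
    have h2 : A ^ a ≤ A ^ U :=
      zpow_le_zpow_right₀ (by linarith) (hU a (Finset.mem_insert_self _ _))
    have h3 : A ^ a = A ^ (a - 1) * A := by
      rw [← zpow_add_one₀ hA0.ne', sub_add_cancel]
    have h4 : 0 ≤ A ^ (a - 1) := zpow_nonneg hA0.le _
    nlinarith

variable {X : Type*} [PseudoMetricSpace X] [Fintype X]
variable {E : Type*} [NormedAddCommGroup E] [NormedSpace ℝ E]

/-- The hypotheses on the family of single-window maps. Window `m` is `[2^(km), 2^(k(m+1))]`. -/
structure WindowMaps (k c : ℕ) (K : ℝ) (Φ : ℤ → X → E) : Prop where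
  lip : ∀ m y z, ‖Φ m y - Φ m z‖ ≤ K * max (dist y z) ((2:ℝ) ^ ((k:ℤ) * m - c - k))
  bdd : ∀ m y z, ‖Φ m y - Φ m z‖ ≤ K * (2:ℝ) ^ ((k:ℤ) * (m + 2))
  small : ∀ m y z, dist y z ≤ (2:ℝ) ^ ((k:ℤ) * m + 2 - c) →
    ‖Φ m y - Φ m z‖ ≤ (2:ℝ) ^ ((k:ℤ) * m) / 8
  low : ∀ m y z, (2:ℝ) ^ ((k:ℤ) * m) ≤ dist y z → dist y z ≤ (2:ℝ) ^ ((k:ℤ) * (m + 1)) →
    dist y z ≤ ‖Φ m y - Φ m z‖

/-- The smoothed map of one window. -/
noncomputable def windowMap (k c : ℕ) (Φ : ℤ → X → E) (m : ℤ) (x : X) : E :=
  (k:ℝ)⁻¹ • ∑ j ∈ Finset.range k, smoothMap (Φ m) ((2:ℝ) ^ ((k:ℤ) * m - c - j)) x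

theorem exists_window {k : ℕ} (hk : 1 ≤ k) {r : ℝ} (hr : 0 < r) :
    ∃ m : ℤ, (2:ℝ) ^ ((k:ℤ) * m) ≤ r ∧ r < (2:ℝ) ^ ((k:ℤ) * (m + 1)) := by
  have hA : (1:ℝ) < (2:ℝ) ^ (k:ℤ) := by
    rw [zpow_natCast]; exact one_lt_pow₀ one_lt_two (by omega)
  obtain ⟨m, hm⟩ := exists_mem_Ico_zpow hr hA
  exact ⟨m, by rw [zpow_mul]; exact hm.1, by rw [zpow_mul]; exact hm.2⟩

theorem sum_norm_windowMap_sub_le {k c : ℕ} (hk : 1 ≤ k) {K : ℝ} (hK : 0 ≤ K) {Φ : ℤ → X → E}
    (h : WindowMaps k c K Φ) (M : Finset ℤ) (x x' : X) :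
    ∑ m ∈ M, ‖windowMap k c Φ m x - windowMap k c Φ m x'‖ ≤
      K * dist x x' * (60 * Real.log (Fintype.card X) / k + (9 * (c + 3) + 2)) := by
  classical
  set r := dist x x' with hr
  have hr0 : 0 ≤ r := dist_nonneg
  have hkpos : (0:ℝ) < k := by exact_mod_cast hk
  let sc : ℤ → ℕ → ℤ := fun m j => (k:ℤ) * m - c - j
  let φ : ℤ → ℝ := fun s => logBall x ((2:ℝ) ^ s)
  have hφmono : Monotone φ := fun a b hab =>
    logBall_mono x (zpow_le_zpow_right₀ (by norm_num) hab)
  let T : ℤ → ℝ := fun m => (2:ℝ) ^ ((k:ℤ) * (m + 2))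
  let far : ℤ → ℕ → ℝ := fun m j =>
    if (2:ℝ) ^ sc m j < 2 * r then min (9 * r) (T m) else 0
  have hterm : ∀ m, ∀ j < k,
      ‖smoothMap (Φ m) ((2:ℝ) ^ sc m j) x - smoothMap (Φ m) ((2:ℝ) ^ sc m j) x'‖ ≤
        20 * K * r * (φ (sc m j + 2) - φ (sc m j - 1)) + K * far m j := by
    intro m j hj
    set ρ := (2:ℝ) ^ sc m j with hρ
    have hρ0 : 0 < ρ := zpow_pos two_pos _
    have hfl : (2:ℝ) ^ ((k:ℤ) * m - c - k) ≤ ρ :=
      zpow_le_zpow_right₀ (by norm_num) (by simp only [sc]; omega)
    have hφnn : 0 ≤ φ (sc m j + 2) - φ (sc m j - 1) := sub_nonneg.2 (hφmono (by omega))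
    by_cases hcase : ρ < 2 * r
    · simp only [far, ← hρ, if_pos hcase]
      refine le_trans ?_ (le_add_of_nonneg_left (by positivity))
      refine norm_smoothMap_sub_le_far (Φ m) hρ0 x x' (fun y z hy hz => ?_)
      rw [mul_min_of_nonneg _ _ hK]
      refine le_min ((h.lip m y z).trans (mul_le_mul_of_nonneg_left (max_le ?_ ?_) hK)) (h.bdd m y z)
      · have := dist_triangle4 y x x' z
        rw [dist_comm y x] at this
        linarith
      · linarith
    · simp only [far, ← hρ, if_neg hcase, mul_zero, add_zero]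
      push Not at hcase
      refine (norm_smoothMap_sub_le_near (Φ m) hρ0 x x' (by linarith) (w := 5 * K * ρ)
        (fun y z hy hz => ?_)).trans (le_of_eq ?_)
      · refine (h.lip m y z).trans ?_
        rw [show 5 * K * ρ = K * (5 * ρ) by ring]
        refine mul_le_mul_of_nonneg_left (max_le ?_ (by linarith)) hK
        have := dist_triangle_left y z x
        linarith
      · have e1 : 4 * ρ = (2:ℝ) ^ (sc m j + 2) := by
          rw [hρ, zpow_add₀ two_ne_zero]; norm_num; ring
        have e2 : ρ / 2 = (2:ℝ) ^ (sc m j - 1) := by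
          rw [hρ, zpow_sub_one₀ two_ne_zero]; ring
        rw [e1, e2]
        simp only [φ, ← hr]
        field_simp
        ring
  have hG : ∀ m, ‖windowMap k c Φ m x - windowMap k c Φ m x'‖ ≤
      (k:ℝ)⁻¹ * (20 * K * r * ∑ j ∈ Finset.range k, (φ (sc m j + 2) - φ (sc m j - 1)) +
        K * ∑ j ∈ Finset.range k, far m j) := by
    intro m
    simp only [windowMap, ← smul_sub, ← Finset.sum_sub_distrib, norm_smul, norm_inv,
      Real.norm_natCast]
    refine mul_le_mul_of_nonneg_left ?_ (by positivity)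
    rw [Finset.mul_sum, Finset.mul_sum, ← Finset.sum_add_distrib]
    exact norm_sum_le_of_le _ (fun j hj => hterm m j (Finset.mem_range.1 hj))
  refine (Finset.sum_le_sum (fun m _ => hG m)).trans ?_
  rw [← Finset.mul_sum, Finset.sum_add_distrib, ← Finset.mul_sum, ← Finset.mul_sum]
  -- the telescoping part
  have htel : ∑ m ∈ M, ∑ j ∈ Finset.range k, (φ (sc m j + 2) - φ (sc m j - 1)) ≤
      3 * Real.log (Fintype.card X) := by
    rw [← Finset.sum_product']
    rw [← Finset.sum_image (g := fun q : ℤ × ℕ => sc q.1 q.2)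
      (f := fun s => φ (s + 2) - φ (s - 1))]
    · set S := (M ×ˢ Finset.range k).image (fun q : ℤ × ℕ => sc q.1 q.2)
      obtain ⟨U, hU⟩ := S.bddAbove
      have hlog : ∀ s, φ s ≤ Real.log (Fintype.card X) := fun s => logBall_le x _
      have h0 : ∀ s, 0 ≤ φ s := fun s => logBall_nonneg x _
      have hone : ∀ i : ℤ, ∑ s ∈ S, (φ (s + i + 1) - φ (s + i)) ≤ Real.log (Fintype.card X) := by
        intro i
        exact (sum_increment_le (fun s => φ (s + i)) (fun a b hab => hφmono (by omega))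
          (fun s => h0 _) S (U + 1) (fun s hs => by have := hU hs; omega) |>.trans_eq' (by
            refine Finset.sum_congr rfl (fun s _ => ?_)
            rw [show s + i + 1 = s + 1 + i by ring])).trans (hlog _)
      have e : ∀ s, φ (s + 2) - φ (s - 1) = (φ (s + (-1) + 1) - φ (s + (-1))) +
          (φ (s + 0 + 1) - φ (s + 0)) + (φ (s + 1 + 1) - φ (s + 1)) := by
        intro s
        rw [show s + 1 + 1 = s + 2 by ring, show s + (-1) + 1 = s by ring, add_zero,
          show s + (-1) = s - 1 by ring]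
        ring
      simp only [e, Finset.sum_add_distrib]
      linarith [hone (-1), hone 0, hone 1]
    · rintro ⟨a, i⟩ hi ⟨b, j⟩ hj heq
      simp only [Finset.coe_product, Set.mem_prod, Finset.mem_coe, Finset.mem_range] at hi hj
      simp only [sc] at heq
      have h1 : (k:ℤ) * (a - b) = (i:ℤ) - j := by linarith
      have hab : a = b := by
        by_contra hne
        rcases lt_or_gt_of_ne hne with hlt | hlt
        · have := mul_le_mul_of_nonneg_left (by omega : a - b ≤ -1) (by omega : (0:ℤ) ≤ k)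
          omega
        · have := mul_le_mul_of_nonneg_left (by omega : (1:ℤ) ≤ a - b) (by omega : (0:ℤ) ≤ k)
          omega
      subst hab
      simp only [Prod.mk.injEq, true_and]
      omega
  -- the far part
  have hfar : ∑ m ∈ M, ∑ j ∈ Finset.range k, far m j ≤ k * (r * (9 * (c + 3) + 2)) := by
    rcases hr0.eq_or_lt with h0 | hpos
    · have : ∀ m j, far m j = 0 := fun m j => by
        simp only [far, ← h0, mul_zero]
        rw [if_neg (not_lt.2 (zpow_nonneg (by norm_num) _))]
      simp only [this, Finset.sum_const_zero, ← h0, zero_mul, mul_zero, le_refl]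
    obtain ⟨m₁, hm1, hm2⟩ := exists_window hk hpos
    have hmin : ∀ m, 0 ≤ min (9 * r) (T m) := fun m =>
      le_min (by positivity) (zpow_nonneg (by norm_num) _)
    have hbound : ∀ m ∈ M, ∑ j ∈ Finset.range k, far m j ≤
        k * (if m ≤ m₁ + c + 1 then min (9 * r) (T m) else 0) := by
      intro m _
      have hj : ∀ j ∈ Finset.range k,
          far m j ≤ (if m ≤ m₁ + c + 1 then min (9 * r) (T m) else 0) := by
        intro j hj
        simp only [far]
        split_ifs with h1 h2 h2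
        · exact le_rfl
        · exfalso
          have h3 : (2:ℝ) ^ sc m j < (2:ℝ) ^ ((k:ℤ) * (m₁ + 1) + 1) := by
            rw [zpow_add_one₀ two_ne_zero]; linarith
          have h4 := (zpow_lt_zpow_iff_right₀ (by norm_num : (1:ℝ) < 2)).1 h3
          have hjk := Finset.mem_range.1 hj
          simp only [sc] at h4
          have h5 := mul_le_mul_of_nonneg_left (by omega : (c:ℤ) + 1 ≤ m - m₁ - 1)
            (by omega : (0:ℤ) ≤ k)
          have h6 : (c:ℤ) ≤ (k:ℤ) * c := by
            exact_mod_cast Nat.le_mul_of_pos_left c (by omega)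
          have h7 : (j:ℤ) < k := by exact_mod_cast hjk
          linarith
        · exact hmin m
        · exact le_rfl
      refine (Finset.sum_le_sum hj).trans (le_of_eq ?_)
      simp [nsmul_eq_mul]
    refine (Finset.sum_le_sum hbound).trans ?_
    rw [← Finset.mul_sum, ← Finset.sum_filter]
    refine mul_le_mul_of_nonneg_left ?_ hkpos.le
    set M' := M.filter (fun m => m ≤ m₁ + c + 1)
    rw [← Finset.sum_filter_add_sum_filter_not M' (fun m => m + 2 ≤ m₁)]
    have hlow : ∑ m ∈ M'.filter (fun m => m + 2 ≤ m₁), min (9 * r) (T m) ≤ 2 * r := by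
      refine (Finset.sum_le_sum (fun m _ => min_le_right _ _)).trans ?_
      simp only [T, zpow_mul]
      rw [← Finset.sum_image (g := fun m => m + 2) (f := fun s => ((2:ℝ) ^ (k:ℤ)) ^ s)
        (fun a _ b _ hab => by simpa using hab)]
      refine (sum_zpow_le ?_ _ m₁ ?_).trans ?_
      · rw [zpow_natCast]; exact le_self_pow₀ one_le_two (by omega)
      · intro s hs
        simp only [Finset.mem_image, Finset.mem_filter] at hs
        obtain ⟨m, hm, rfl⟩ := hs
        exact hm.2
      · rw [← zpow_mul]; linarith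
    have hhigh : ∑ m ∈ M'.filter (fun m => ¬ m + 2 ≤ m₁), min (9 * r) (T m) ≤
        (c + 3) * (9 * r) := by
      refine (Finset.sum_le_sum (fun m _ => min_le_left _ _)).trans ?_
      rw [Finset.sum_const, nsmul_eq_mul]
      refine mul_le_mul_of_nonneg_right ?_ (by positivity)
      have hsub : M'.filter (fun m => ¬ m + 2 ≤ m₁) ⊆ Finset.Icc (m₁ - 1) (m₁ + c + 1) := by
        intro m hm
        simp only [M', Finset.mem_filter] at hm
        simp only [Finset.mem_Icc]
        omega
      have := Finset.card_le_card hsub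
      rw [Int.card_Icc] at this
      exact_mod_cast (by omega : (M'.filter (fun m => ¬ m + 2 ≤ m₁)).card ≤ c + 3)
    linarith
  calc (k:ℝ)⁻¹ * (20 * K * r * ∑ m ∈ M, ∑ j ∈ Finset.range k, (φ (sc m j + 2) - φ (sc m j - 1)) +
        K * ∑ m ∈ M, ∑ j ∈ Finset.range k, far m j)
      ≤ (k:ℝ)⁻¹ * (20 * K * r * (3 * Real.log (Fintype.card X)) +
          K * (k * (r * (9 * (c + 3) + 2)))) := by gcongr
    _ = _ := by field_simp; ring

theorem windowMap_low [CompleteSpace E] {k c : ℕ} (hk : 1 ≤ k) {K : ℝ} {Φ : ℤ → X → E}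
    (h : WindowMaps k c K Φ) (m : ℤ) (x x' : X) (h1 : (2:ℝ) ^ ((k:ℤ) * m) ≤ dist x x')
    (h2 : dist x x' ≤ (2:ℝ) ^ ((k:ℤ) * (m + 1))) :
    3 / 4 * dist x x' ≤ ‖windowMap k c Φ m x - windowMap k c Φ m x'‖ := by
  set R := (2:ℝ) ^ ((k:ℤ) * m)
  have hkpos : (0:ℝ) < k := by exact_mod_cast hk
  have herr : ∀ y, ‖windowMap k c Φ m y - Φ m y‖ ≤ R / 8 := by
    intro y
    have e : windowMap k c Φ m y - Φ m y = (k:ℝ)⁻¹ • ∑ j ∈ Finset.range k,
        (smoothMap (Φ m) ((2:ℝ) ^ ((k:ℤ) * m - c - j)) y - Φ m y) := by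
      rw [windowMap, Finset.sum_sub_distrib, Finset.sum_const, Finset.card_range,
        ← Nat.cast_smul_eq_nsmul ℝ, smul_sub, inv_smul_smul₀ hkpos.ne']
    rw [e, norm_smul, norm_inv, Real.norm_natCast, inv_mul_le_iff₀ hkpos]
    refine (norm_sum_le_of_le _ (fun j hj => ?_)).trans (le_of_eq (?_ :
      ∑ _j ∈ Finset.range k, R / 8 = _))
    · refine norm_smoothMap_sub_self_le (Φ m) (zpow_pos two_pos _) y (fun z hz => ?_)
      rw [norm_sub_rev]
      refine h.small m y z (hz.trans ?_)
      calc 2 * (2:ℝ) ^ ((k:ℤ) * m - c - j) = (2:ℝ) ^ ((k:ℤ) * m - c - j + 1) := by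
            rw [zpow_add_one₀ two_ne_zero]; ring
        _ ≤ _ := zpow_le_zpow_right₀ (by norm_num) (by omega)
    · simp [nsmul_eq_mul]
  have hlow := h.low m x x' h1 h2
  have e1 := herr x
  have e2 := herr x'
  have t1 := norm_sub_le_norm_sub_add_norm_sub (Φ m x) (windowMap k c Φ m x) (Φ m x')
  have t2 := norm_sub_le_norm_sub_add_norm_sub (windowMap k c Φ m x) (windowMap k c Φ m x') (Φ m x')
  have t3 := norm_sub_rev (Φ m x) (windowMap k c Φ m x)
  linarith

/-- The number of copies. -/
def copies (n : ℕ) : ℕ := 16 * (Nat.log 2 n + 1)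

/-- Gluing: `16 (log₂ n + 1)` signed sums, each Lipschitz, a quarter of which separate any
given pair. -/
theorem exists_glued [CompleteSpace E] {k c : ℕ} (hk : 1 ≤ k) {K : ℝ} (hK : 0 ≤ K)
    {Φ : ℤ → X → E} (h : WindowMaps k c K Φ) :
    ∃ F : X → Fin (copies (Fintype.card X)) → E,
      (∀ x x' i, ‖F x i - F x' i‖ ≤
        K * dist x x' * (60 * Real.log (Fintype.card X) / k + (9 * (c + 3) + 2))) ∧
      ∀ x x', (copies (Fintype.card X) : ℝ) / 4 ≤
        (Finset.univ.filter (fun i => 3 / 4 * dist x x' ≤ ‖F x i - F x' i‖)).card := by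
  classical
  have hw : ∀ q : X × X, ∃ m : ℤ, 0 < dist q.1 q.2 →
      (2:ℝ) ^ ((k:ℤ) * m) ≤ dist q.1 q.2 ∧ dist q.1 q.2 < (2:ℝ) ^ ((k:ℤ) * (m + 1)) := by
    intro q
    by_cases hq : 0 < dist q.1 q.2
    · obtain ⟨m, hm⟩ := exists_window hk hq
      exact ⟨m, fun _ => hm⟩
    · exact ⟨0, fun h => absurd h hq⟩
  choose wm hwm using hw
  set M : Finset ℤ := Finset.univ.image wm
  let G : {m // m ∈ M} → X → E := fun m => windowMap k c Φ m
  let sg : Bool → ℝ := fun b => if b then 1 else -1
  let Ω := {m // m ∈ M} → Bool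
  let f : Ω → X → E := fun e x => ∑ m, sg (e m) • G m x
  have hup : ∀ (e : Ω) x x', ‖f e x - f e x'‖ ≤
      K * dist x x' * (60 * Real.log (Fintype.card X) / k + (9 * (c + 3) + 2)) := by
    intro e x x'
    simp only [f, ← Finset.sum_sub_distrib, ← smul_sub]
    refine (norm_sum_le_of_le Finset.univ (n := fun m => ‖G m x - G m x'‖) (fun m _ => ?_)).trans ?_
    · rw [norm_smul]
      refine mul_le_of_le_one_left (norm_nonneg _) ?_
      simp only [sg]; split_ifs <;> simp
    · rw [Finset.univ_eq_attach,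
        Finset.sum_attach M (fun m => ‖windowMap k c Φ m x - windowMap k c Φ m x'‖)]
      exact sum_norm_windowMap_sub_le hk hK h M x x'
  let good : X → X → Ω → Prop := fun x x' e => 3 / 4 * dist x x' ≤ ‖f e x - f e x'‖
  have hhalf : ∀ x x', Fintype.card Ω ≤ 2 * (Finset.univ.filter (good x x')).card := by
    intro x x'
    rcases (dist_nonneg (x := x) (y := x')).eq_or_lt with h0 | hpos
    · have : Finset.univ.filter (good x x') = Finset.univ := by
        refine Finset.filter_true_of_mem (fun e _ => ?_)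
        simp only [good, ← h0, mul_zero]
        exact norm_nonneg _
      rw [this, Finset.card_univ]; omega
    set m₀ : {m // m ∈ M} := ⟨wm (x, x'), Finset.mem_image_of_mem _ (Finset.mem_univ _)⟩ with hm0
    let flip : Ω → Ω := fun e => Function.update e m₀ (!e m₀)
    have hflip : ∀ e, ¬ good x x' e → good x x' (flip e) := by
      intro e he
      simp only [good, not_le] at he ⊢
      by_contra hcon
      push Not at hcon
      have hsplit : ∀ e' : Ω, f e' x - f e' x' = sg (e' m₀) • (G m₀ x - G m₀ x') +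
          ∑ m ∈ Finset.univ.erase m₀, sg (e' m) • (G m x - G m x') := by
        intro e'
        simp only [f, ← Finset.sum_sub_distrib, ← smul_sub]
        exact (Finset.add_sum_erase _ _ (Finset.mem_univ m₀)).symm
      have hrest : ∑ m ∈ Finset.univ.erase m₀, sg (flip e m) • (G m x - G m x') =
          ∑ m ∈ Finset.univ.erase m₀, sg (e m) • (G m x - G m x') := by
        refine Finset.sum_congr rfl (fun m hm => ?_)
        simp only [flip]
        rw [Function.update_of_ne (Finset.ne_of_mem_erase hm)]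
      rw [hsplit, hrest] at hcon
      rw [hsplit] at he
      have hsg : sg (flip e m₀) = - sg (e m₀) := by
        simp only [flip, Function.update_self, sg]
        cases e m₀ <;> simp
      rw [hsg] at hcon
      set a := G m₀ x - G m₀ x'
      set v := ∑ m ∈ Finset.univ.erase m₀, sg (e m) • (G m x - G m x')
      have hw' := hwm (x, x') hpos
      have hlow := windowMap_low hk h (wm (x, x')) x x' hw'.1 hw'.2.le
      have hsub : ‖(2:ℝ) • (sg (e m₀) • a)‖ ≤
          ‖sg (e m₀) • a + v‖ + ‖-sg (e m₀) • a + v‖ := by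
        refine le_trans (le_of_eq ?_) (norm_sub_le _ _)
        congr 1
        rw [neg_smul]; module
      rw [norm_smul, norm_smul] at hsub
      have habs : ‖sg (e m₀)‖ = 1 := by simp only [sg]; split_ifs <;> simp
      rw [habs, Real.norm_two, one_mul] at hsub
      have : ‖a‖ = ‖windowMap k c Φ (wm (x, x')) x - windowMap k c Φ (wm (x, x')) x'‖ := rfl
      linarith
    have hinj : ((Finset.univ.filter (fun e => ¬ good x x' e)).image flip).card =
        (Finset.univ.filter (fun e => ¬ good x x' e)).card :=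
      Finset.card_image_of_injective _ (fun a b hab => by
        funext m
        have := congrFun hab m
        by_cases hm : m = m₀
        · subst hm
          simpa [flip] using this
        · simpa [flip, Function.update_of_ne hm] using this)
    have hsub2 : (Finset.univ.filter (fun e => ¬ good x x' e)).image flip ⊆
        Finset.univ.filter (good x x') := by
      intro e he
      simp only [Finset.mem_image, Finset.mem_filter, Finset.mem_univ, true_and] at he ⊢
      obtain ⟨e', he', rfl⟩ := he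
      exact hflip e' he'
    have h1 := Finset.card_le_card hsub2
    have h2 := Finset.card_filter_add_card_filter_not (s := (Finset.univ : Finset Ω))
      (p := good x x')
    rw [hinj] at h1
    rw [Finset.card_univ] at h2
    omega
  set N := copies (Fintype.card X) with hN
  let wt : X → X → Ω → ℝ := fun x x' e => if good x x' e then 1 / 2 else 1
  have hwt : ∀ x x', ∑ e, wt x x' e ≤ 3 / 4 * Fintype.card Ω := by
    intro x x'
    simp only [wt, Finset.sum_ite, Finset.sum_const, nsmul_eq_mul, mul_one]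
    have h2 := Finset.card_filter_add_card_filter_not (s := (Finset.univ : Finset Ω))
      (p := good x x')
    rw [Finset.card_univ] at h2
    have h1 : (Fintype.card Ω : ℝ) ≤ 2 * ((Finset.univ.filter (good x x')).card : ℝ) := by
      exact_mod_cast hhalf x x'
    have h3 : ((Finset.univ.filter (good x x')).card : ℝ) +
        ((Finset.univ.filter (fun e => ¬ good x x' e)).card : ℝ) = Fintype.card Ω := by
      exact_mod_cast h2
    linarith
  let Pot : (Fin N → Ω) → ℝ := fun E' => ∑ q : X × X, ∏ i, wt q.1 q.2 (E' i)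
  have htot : ∑ E', Pot E' ≤
      (Fintype.card X : ℝ) ^ 2 * (3 / 4 : ℝ) ^ N * Fintype.card (Fin N → Ω) := by
    simp only [Pot]
    rw [Finset.sum_comm]
    calc ∑ q : X × X, ∑ E' : Fin N → Ω, ∏ i, wt q.1 q.2 (E' i)
        ≤ ∑ _q : X × X, (3 / 4 * (Fintype.card Ω : ℝ)) ^ N := by
          refine Finset.sum_le_sum (fun q _ => ?_)
          rw [← Fintype.prod_sum (fun (_ : Fin N) (e : Ω) => wt q.1 q.2 e)]
          simp only [Finset.prod_const, Finset.card_univ, Fintype.card_fin]
          exact pow_le_pow_left₀ (Finset.sum_nonneg fun e _ => by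
            simp only [wt]; split_ifs <;> norm_num) (hwt _ _) N
      _ = _ := by
          simp [mul_pow, sq, Fintype.card_fun]
          ring
  obtain ⟨E', -, hE'⟩ := Finset.exists_le_of_sum_le (Finset.univ_nonempty (α := Fin N → Ω))
    (htot.trans (le_of_eq (show (Fintype.card X : ℝ) ^ 2 * (3 / 4 : ℝ) ^ N *
      Fintype.card (Fin N → Ω) = ∑ _E' : Fin N → Ω, (Fintype.card X : ℝ) ^ 2 * (3 / 4 : ℝ) ^ N by
        simp [mul_comm])))
  refine ⟨fun x i => f (E' i) x, fun x x' i => hup _ x x', fun x x' => ?_⟩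
  by_contra hcon
  push Not at hcon
  set s := (Finset.univ.filter (fun i => good x x' (E' i))).card with hs
  have hcon' : (s:ℝ) < (N:ℝ) / 4 := hcon
  have hle : ∏ i, wt x x' (E' i) ≤ Pot E' :=
    Finset.single_le_sum (f := fun q : X × X => ∏ i, wt q.1 q.2 (E' i))
      (fun q _ => Finset.prod_nonneg fun i _ => by simp only [wt]; split_ifs <;> norm_num)
      (Finset.mem_univ (x, x'))
  have hprod : ∏ i, wt x x' (E' i) = (1 / 2 : ℝ) ^ s := by
    simp only [wt, Finset.prod_ite, Finset.prod_const, one_pow, mul_one, hs]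
  set q := Nat.log 2 (Fintype.card X) + 1 with hq
  have hNq : N = 16 * q := rfl
  have hs4 : s ≤ 4 * q := by
    have : (s:ℝ) < ((4 * q : ℕ) : ℝ) := by rw [hNq] at hcon'; push_cast at hcon' ⊢; linarith
    exact_mod_cast this.le
  have hn : (Fintype.card X : ℝ) ≤ (2:ℝ) ^ q := by
    exact_mod_cast (Nat.lt_pow_succ_log_self (by norm_num) _).le
  have hkey : (1 / 2 : ℝ) ^ (4 * q) ≤ ((2:ℝ) ^ q) ^ 2 * (3 / 4 : ℝ) ^ N := by
    refine (pow_le_pow_of_le_one (by norm_num) (by norm_num) hs4).trans ?_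
    rw [← hprod]
    exact (hle.trans hE').trans (by gcongr)
  rw [hNq, ← pow_mul, pow_mul (3 / 4 : ℝ), pow_mul (1 / 2 : ℝ), mul_comm q 2, pow_mul, ← mul_pow]
    at hkey
  have hq0 : q ≠ 0 := by omega
  exact absurd (lt_of_lt_of_le (pow_lt_pow_left₀ (by norm_num :
    ((2:ℝ) ^ 2) * (3 / 4 : ℝ) ^ 16 < (1 / 2 : ℝ) ^ 4) (by norm_num) hq0) hkey) (lt_irrefl _)

end Vale.Agent.P249
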