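import Vale.Agent.P249.BandAll
import Vale.Agent.P249.Windows

/-!
Sampling the scalar maps into one window map. The margin of padding is `1 / (8 P)` and there are
`P k` radii, so that all constants are polynomial in `P`.
-/

namespace Vale.Agent.P249

open Finset

/-- Samples: an order, a radius index, a level and a subset. -/
abbrev BandSample (n J M K₀ : ℕ) : Type :=
  Equiv.Perm (Fin n) × Fin J × Fin (M + 1) × (Fin K₀ → Bool)

/-- Weight of a sample. -/
noncomputable def bandW {n J M K₀ : ℕ} (p : ℝ) (k : ℕ) (ω : BandSample n J M K₀) : ℝ :=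
  (Fintype.card (Equiv.Perm (Fin n)) : ℝ)⁻¹ * (J : ℝ)⁻¹ * ((M + 1 : ℕ) : ℝ)⁻¹ *
    subW (levelRho k M K₀ p ω.2.2.1) ω.2.2.2

theorem bandW_nonneg {n J M K₀ : ℕ} {p : ℝ} (hp : 0 ≤ p) (k : ℕ) (ω : BandSample n J M K₀) :
    0 ≤ bandW p k ω := by
  obtain ⟨h0, h1⟩ := levelRho_bounds k M K₀ hp (ω.2.2.1 : ℕ)
  exact mul_nonneg (by positivity) (subW_nonneg h0.le h1 _)

theorem sum_bandW_mul {n J M K₀ : ℕ} (p : ℝ) (k : ℕ) (F : BandSample n J M K₀ → ℝ) :
    ∑ ω, bandW p k ω * F ω = (Fintype.card (Equiv.Perm (Fin n)) : ℝ)⁻¹ *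
      ∑ π : Equiv.Perm (Fin n), (J : ℝ)⁻¹ * ∑ j : Fin J, ((M + 1 : ℕ) : ℝ)⁻¹ *
        ∑ i : Fin (M + 1), ∑ Q : Fin K₀ → Bool,
          subW (levelRho k M K₀ p i) Q * F (π, j, i, Q) := by
  simp only [Fintype.sum_prod_type, bandW, Finset.mul_sum]
  refine Finset.sum_congr rfl fun π _ => Finset.sum_congr rfl fun j _ =>
    Finset.sum_congr rfl fun i _ => Finset.sum_congr rfl fun Q _ => ?_
  ring

theorem sum_bandW {n J M K₀ : ℕ} (p : ℝ) (k : ℕ) (hJ : 1 ≤ J) :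
    ∑ ω : BandSample n J M K₀, bandW p k ω = 1 := by
  have h := sum_bandW_mul p k (fun _ : BandSample n J M K₀ => (1:ℝ))
  simp only [mul_one, sum_subW] at h
  rw [h]
  have hJ0 : (J:ℝ) ≠ 0 := by exact_mod_cast (by omega : J ≠ 0)
  have : ((M:ℝ) + 1) ≠ 0 := by positivity
  simp [hJ0, this, Fintype.card_ne_zero]

/-- Constant in the upper mean bound. -/
noncomputable def meanHi (p : ℝ) : ℝ := 3 * (2:ℝ) ^ p * subConst p * (32:ℝ) ^ p

/-- Constant in the lower mean bound. -/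
noncomputable def meanLo (p : ℝ) : ℝ := Real.exp (-1) / (2 * (8:ℝ) ^ p)

theorem meanLo_pos (p : ℝ) : 0 < meanLo p := by
  unfold meanLo; positivity

theorem meanHi_pos (p : ℝ) : 0 < meanHi p := by
  have := subConst_pos p
  unfold meanHi; positivity

/-- The constant, free of the parameter, in the `p`-th power Lipschitz bound. -/
noncomputable def allK (p : ℝ) : ℝ := 4 / meanLo p * (3 / 2) * (meanHi p + 1) + 1

theorem allK_ge_one (p : ℝ) : 1 ≤ allK p := by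
  have := meanLo_pos p
  have := meanHi_pos p
  have : 0 ≤ 4 / meanLo p * (3 / 2) * (meanHi p + 1) := by positivity
  unfold allK; linarith

theorem exists_allShift {p : ℝ} (hp : 1 ≤ p) :
    ∃ c₀ : ℕ, ∀ P : ℕ, 1 ≤ P →
      (32:ℝ) ^ p * (((2:ℝ) ^ (c₀ + P))⁻¹) ^ p * (allK p * (P:ℝ) ^ p) ≤ 1 ∧
      (((2:ℝ) ^ (c₀ + P))⁻¹) ^ p ≤ meanLo p / 2 := by
  have hp0 : 0 < p := by linarith
  have hl := meanLo_pos p
  have hK : 0 < allK p := lt_of_lt_of_le one_pos (allK_ge_one p)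
  have t : Filter.Tendsto (fun c : ℕ => (((2:ℝ) ^ c)⁻¹) ^ p) Filter.atTop (nhds 0) := by
    have h := (tendsto_inv_atTop_zero.comp
      (tendsto_pow_atTop_atTop_of_one_lt (one_lt_two : (1:ℝ) < 2))).rpow_const (p := p)
      (Or.inr hp0.le)
    simpa [Real.zero_rpow hp0.ne'] using h
  have e1 := t.eventually (Iic_mem_nhds (by positivity : (0:ℝ) < 1 / ((32:ℝ) ^ p * allK p)))
  have e2 := t.eventually (Iic_mem_nhds (by positivity : (0:ℝ) < meanLo p / 2))
  obtain ⟨c₀, h1, h2⟩ := (e1.and e2).exists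
  refine ⟨c₀, fun P hP => ⟨?_, ?_⟩⟩
  · have hPle : (P:ℝ) ≤ (2:ℝ) ^ P := by exact_mod_cast (Nat.lt_two_pow_self).le
    have h3 : (((2:ℝ) ^ P)⁻¹) ^ p * (P:ℝ) ^ p ≤ 1 := by
      rw [← Real.mul_rpow (by positivity) (Nat.cast_nonneg _)]
      refine Real.rpow_le_one (by positivity) ?_ hp0.le
      rw [inv_mul_le_iff₀ (by positivity)]; linarith
    rw [pow_add, mul_inv, Real.mul_rpow (by positivity) (by positivity)]
    calc (32:ℝ) ^ p * ((((2:ℝ) ^ c₀)⁻¹) ^ p * (((2:ℝ) ^ P)⁻¹) ^ p) * (allK p * (P:ℝ) ^ p)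
        = ((((2:ℝ) ^ c₀)⁻¹) ^ p * ((32:ℝ) ^ p * allK p)) *
          ((((2:ℝ) ^ P)⁻¹) ^ p * (P:ℝ) ^ p) := by ring
      _ ≤ 1 := mul_le_one₀ ((le_div_iff₀ (by positivity)).1 h1) (by positivity) h3
  · refine le_trans (Real.rpow_le_rpow (by positivity) ?_ hp0.le) h2
    gcongr
    · norm_num
    · omega

variable {n K₀ : ℕ} [PseudoMetricSpace (Fin n)] {p : ℝ}

theorem exists_window_all (hp : 1 ≤ p) {k c M P : ℕ} (hk : 1 ≤ k) (hP : 1 ≤ P)
    (hL : Real.log n ≤ P * k) (hK₀ : (K₀ : ℝ) + 1 ≤ ((2:ℝ) ^ k) ^ M)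
    (hc : (32:ℝ) ^ p * (((2:ℝ) ^ c)⁻¹) ^ p * (allK p * (P:ℝ) ^ p) ≤ 1)
    (hc₂ : (((2:ℝ) ^ c)⁻¹) ^ p ≤ meanLo p / 2)
    (a : Fin n → Fin K₀ → ℝ) (hdist : ∀ x y, dist x y ^ p = ∑ s, |a x s - a y s| ^ p) (d : ℕ)
    (hd : 16 * (((M + 1 : ℕ) : ℝ) * (4 * (2:ℝ) ^ p + 1) * (16 * P * (2:ℝ) ^ (4 * k + c)) ^ p) *
      Real.log (2 * ((n : ℝ) ^ 2 + 1)) + 1 ≤ d) :
    ∀ m : ℤ, ∃ Φ : Fin n → Fin d → ℝ, ∀ y z,
      (∑ i, |Φ y i - Φ z i| ^ p ≤ allK p * (P:ℝ) ^ p *
        (max (dist y z) ((2:ℝ) ^ ((k:ℤ) * m - c - k))) ^ p) ∧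
      (∑ i, |Φ y i - Φ z i| ^ p ≤ allK p * (P:ℝ) ^ p * ((2:ℝ) ^ ((k:ℤ) * (m + 2))) ^ p) ∧
      (dist y z ≤ (2:ℝ) ^ ((k:ℤ) * m + 2 - c) →
        ∑ i, |Φ y i - Φ z i| ^ p ≤ ((2:ℝ) ^ ((k:ℤ) * m) / 8) ^ p) ∧
      ((2:ℝ) ^ ((k:ℤ) * m) ≤ dist y z → dist y z ≤ (2:ℝ) ^ ((k:ℤ) * (m + 1)) →
        dist y z ^ p ≤ ∑ i, |Φ y i - Φ z i| ^ p) := by
  classical
  intro m
  have hp0 : 0 < p := by linarith
  have hP1 : (1:ℝ) ≤ P := by exact_mod_cast hP
  have hP0 : (0:ℝ) < P := by linarith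
  set η := (8 * (P:ℝ))⁻¹ with hη
  have hη0 : 0 < η := by positivity
  have hη8 : η ≤ 1 / 8 := by
    rw [hη, one_div]; exact inv_anti₀ (by norm_num) (by linarith)
  set q := (1 + η) / (1 - η) with hq
  have hq1 : 1 ≤ q := by rw [hq, one_le_div (by linarith)]; linarith
  have hqP : q ^ P ≤ 2 := by
    have h1 : q ≤ Real.exp (3 * η) := by
      refine le_trans ?_ (Real.add_one_le_exp _)
      rw [hq, div_le_iff₀ (by linarith)]
      have := mul_le_mul_of_nonneg_left hη8 hη0.le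
      linarith
    refine (pow_le_pow_left₀ (by linarith) h1 P).trans ?_
    rw [← Real.exp_nat_mul, ← Real.le_log_iff_exp_le two_pos]
    have : (P:ℝ) * (3 * η) = 3 / 8 := by rw [hη]; field_simp
    rw [this]
    linarith [Real.log_two_gt_d9]
  set J := P * k with hJ
  have hJ1 : 1 ≤ J := Nat.one_le_iff_ne_zero.2 (Nat.mul_ne_zero (by omega) (by omega))
  set F₀ := (2:ℝ) ^ ((k:ℤ) * m - c - k) with hF0
  set R := (2:ℝ) ^ ((k:ℤ) * m) with hR
  set T := (2:ℝ) ^ ((k:ℤ) * (m + 2)) with hT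
  set R' := (2:ℝ) ^ ((k:ℤ) * (m + 1)) with hR'
  set t₀ := 16 * (P:ℝ) * R' with ht₀
  set U := 16 * (P:ℝ) * T with hU
  let t : Fin J → ℝ := fun j => t₀ * q ^ (j:ℕ)
  have hF00 : 0 < F₀ := zpow_pos two_pos _
  have hT0 : 0 < T := zpow_pos two_pos _
  have hR'0 : 0 < R' := zpow_pos two_pos _
  have hU0 : 0 < U := by positivity
  have ht00 : 0 < t₀ := by positivity
  have ht0 : ∀ j, 0 < t j := fun j => by
    have : (0:ℝ) < q := by linarith
    positivity
  have hTR : T = R' * (2:ℝ) ^ k := by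
    rw [hT, hR', ← zpow_natCast, ← zpow_add₀ two_ne_zero]; congr 1; ring
  have htU : ∀ j, t j ≤ U := by
    intro j
    calc t j ≤ t₀ * (q ^ P) ^ k := by
          refine mul_le_mul_of_nonneg_left ?_ ht00.le
          rw [← pow_mul]
          exact pow_le_pow_right₀ hq1 j.2.le
      _ ≤ t₀ * (2:ℝ) ^ k := mul_le_mul_of_nonneg_left
          (pow_le_pow_left₀ (pow_nonneg (by linarith) _) hqP k) ht00.le
      _ = U := by rw [hU, hTR, ht₀]; ring
  have hUF : U = F₀ * (16 * P * (2:ℝ) ^ (3 * k + c)) := by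
    have e : T = F₀ * (2:ℝ) ^ (3 * k + c) := by
      rw [hT, hF0, ← zpow_natCast, ← zpow_add₀ two_ne_zero]; congr 1; push_cast; ring
    rw [hU, e]; ring
  let Y : Fin n × Fin n → BandSample n J M K₀ → ℝ := fun e ω =>
    ((M + 1 : ℕ) : ℝ) * scalarDiff k M p U η (t ω.2.1) a ω.1 ω.2.2.1 e.1 e.2 ω.2.2.2
  let EY : Fin n × Fin n → ℝ := fun e => ∑ ω, bandW p k ω * Y e ω
  have hMpos : (0:ℝ) < ((M + 1 : ℕ) : ℝ) := by positivity
  set B := ((M + 1 : ℕ) : ℝ) * (4 * (2:ℝ) ^ p + 1) * (16 * P * (2:ℝ) ^ (4 * k + c)) ^ p with hB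
  obtain ⟨z, hz⟩ := exists_empirical (fun ω : BandSample n J M K₀ => bandW p k ω)
    (fun ω => bandW_nonneg hp0.le k ω) (sum_bandW p k hJ1) Y
    (fun e ω => by simp only [Y, scalarDiff]; positivity) (c₀ := F₀ ^ p) (by positivity) (B := B)
    (fun e ω => by
      have h1 := scalarDiff_le_top hp hU0.le hη0.le (ht0 ω.2.1).le hK₀ a ω.1
        (Nat.lt_succ_iff.1 ω.2.2.1.2) e.1 e.2 ω.2.2.2
      have h3 : U ^ p * ((2:ℝ) ^ k) ^ p = F₀ ^ p * (16 * P * (2:ℝ) ^ (4 * k + c)) ^ p := by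
        rw [← Real.mul_rpow hU0.le (by positivity), ← Real.mul_rpow hF00.le (by positivity), hUF]
        congr 1
        rw [show 4 * k + c = 3 * k + c + k by ring, pow_add]; ring
      rw [h3] at h1
      simp only [Y]
      have h6 := mul_le_mul_of_nonneg_left h1 hMpos.le
      rw [hB]
      have h2 : 1 ≤ ((M + 1 : ℕ) : ℝ) := by exact_mod_cast Nat.le_add_left 1 M
      have h4 : 1 ≤ (16 * P * (2:ℝ) ^ (4 * k + c)) ^ p := Real.one_le_rpow
        (one_le_mul_of_one_le_of_one_le (by linarith) (one_le_pow₀ one_le_two)) hp0.le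
      have h5 := mul_le_mul_of_nonneg_left (one_le_mul_of_one_le_of_one_le h2 h4)
        (Real.rpow_nonneg hF00.le p)
      linarith) (by positivity) d (by
      rw [Fintype.card_prod, Fintype.card_fin, Nat.cast_mul, ← sq]
      exact hd)
  set lam := 4 / meanLo p with hlam
  have hlo := meanLo_pos p
  have hlam0 : 0 < lam := by positivity
  have hH := (meanHi_pos p).le
  refine ⟨fun y s => (lam * ((M + 1 : ℕ) : ℝ) / d) ^ p⁻¹ *
    scalarMap k M p U η (t (z s).2.1) a (z s).1 (z s).2.2.1 (z s).2.2.2 y, fun y w => ?_⟩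
  set Ym := (∑ s, Y (y, w) (z s)) / d with hYm
  have hΦ : ∑ s : Fin d, |(lam * ((M + 1 : ℕ) : ℝ) / d) ^ p⁻¹ *
        scalarMap k M p U η (t (z s).2.1) a (z s).1 (z s).2.2.1 (z s).2.2.2 y -
        (lam * ((M + 1 : ℕ) : ℝ) / d) ^ p⁻¹ *
        scalarMap k M p U η (t (z s).2.1) a (z s).1 (z s).2.2.1 (z s).2.2.2 w| ^ p = lam * Ym := by
    rw [hYm, ← mul_div_assoc, Finset.mul_sum, Finset.sum_div]
    refine Finset.sum_congr rfl fun s _ => ?_
    rw [← mul_sub, abs_mul, Real.mul_rpow (abs_nonneg _) (abs_nonneg _),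
      abs_of_nonneg (by positivity : (0:ℝ) ≤ (lam * ((M + 1 : ℕ) : ℝ) / d) ^ p⁻¹),
      Real.rpow_inv_rpow (by positivity) hp0.ne']
    simp only [Y, scalarDiff]
    ring
  obtain ⟨helo, hehi⟩ := abs_le.1 (hz (y, w))
  have hEY : EY (y, w) = ∑ ω, bandW p k ω * Y (y, w) ω := rfl
  rw [← hEY] at helo hehi
  have hN : (0:ℝ) < Fintype.card (Equiv.Perm (Fin n)) := by exact_mod_cast Fintype.card_pos
  have hJpos : (0:ℝ) < J := by exact_mod_cast hJ1
  have hupper : ∀ F : ℝ, F₀ ≤ F → (∀ j, (min (dist y w) (2 * t j)) ^ p +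
      2 * min ((2 / η) ^ p * (min (dist y w) (2 * t j)) ^ p) (t j ^ p) ≤
        3 * ((32:ℝ) ^ p * (P:ℝ) ^ p * F ^ p)) →
      lam * Ym ≤ allK p * (P:ℝ) ^ p * F ^ p := by
    intro F hF0F hF
    have hFn : 0 ≤ F := hF00.le.trans hF0F
    set e := meanHi p * (P:ℝ) ^ p * F ^ p with he
    have h1 : EY (y, w) ≤ e := by
      rw [hEY, sum_bandW_mul, inv_mul_le_iff₀ hN]
      refine (Finset.sum_le_sum (g := fun _ => e) (fun π _ => ?_)).trans (le_of_eq (by simp))
      rw [inv_mul_le_iff₀ hJpos]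
      refine (Finset.sum_le_sum (g := fun _ => e) (fun j _ => ?_)).trans (le_of_eq (by simp))
      simp only [Y, mul_left_comm (subW _ _) ((M + 1 : ℕ) : ℝ), ← Finset.mul_sum]
      rw [inv_mul_cancel_left₀ hMpos.ne']
      refine (scalarDiff_mean_le hp hU0 hη0 (by linarith) (ht0 j) (htU j) a hdist π y w).trans ?_
      refine (mul_le_mul_of_nonneg_left (hF j)
        (by have := subConst_pos p; positivity)).trans (le_of_eq ?_)
      rw [he, meanHi]; ring
    have h2 : F₀ ^ p ≤ (P:ℝ) ^ p * F ^ p := (Real.rpow_le_rpow hF00.le hF0F hp0.le).trans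
      (le_mul_of_one_le_left (Real.rpow_nonneg hFn p) (Real.one_le_rpow hP1 hp0.le))
    have hPF : 0 ≤ (P:ℝ) ^ p * F ^ p := by positivity
    have h3 : Ym ≤ 3 / 2 * (meanHi p + 1) * ((P:ℝ) ^ p * F ^ p) := by linarith
    refine (mul_le_mul_of_nonneg_left h3 hlam0.le).trans ?_
    rw [allK, hlam, mul_assoc _ ((P:ℝ) ^ p) (F ^ p)]
    linarith
  have h2η : (2:ℝ) / η = 16 * P := by rw [hη]; field_simp; norm_num
  have hnearF : ∀ F : ℝ, dist y w ≤ F → ∀ j, (min (dist y w) (2 * t j)) ^ p +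
      2 * min ((2 / η) ^ p * (min (dist y w) (2 * t j)) ^ p) (t j ^ p) ≤
        3 * ((32:ℝ) ^ p * (P:ℝ) ^ p * F ^ p) := by
    intro F hF j
    have hm0 : 0 ≤ min (dist y w) (2 * t j) := le_min dist_nonneg (by linarith [ht0 j])
    have h1 : (min (dist y w) (2 * t j)) ^ p ≤ F ^ p :=
      Real.rpow_le_rpow hm0 ((min_le_left _ _).trans hF) hp0.le
    have hF' : 0 ≤ F := dist_nonneg.trans hF
    have h2 : 1 ≤ (32:ℝ) ^ p * (P:ℝ) ^ p := one_le_mul_of_one_le_of_one_le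
      (Real.one_le_rpow (by norm_num) hp0.le) (Real.one_le_rpow hP1 hp0.le)
    have h3 : (2 / η) ^ p ≤ (32:ℝ) ^ p * (P:ℝ) ^ p := by
      rw [h2η, ← Real.mul_rpow (by norm_num) hP0.le]
      exact Real.rpow_le_rpow (by positivity) (by linarith) hp0.le
    have h4 := (min_le_left ((2 / η) ^ p * (min (dist y w) (2 * t j)) ^ p) (t j ^ p)).trans
      (mul_le_mul h3 h1 (Real.rpow_nonneg hm0 p) (by positivity))
    have h5 := h1.trans (le_mul_of_one_le_left (Real.rpow_nonneg hF' p) h2)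
    linarith
  refine ⟨?_, ?_, ?_, ?_⟩
  · rw [hΦ]
    exact hupper _ (le_max_right _ _) (hnearF _ (le_max_left _ _))
  · rw [hΦ]
    refine hupper T ?_ (fun j => ?_)
    · exact zpow_le_zpow_right₀ (by norm_num) (by linarith [(show (k:ℤ) * (m + 2) =
        (k:ℤ) * m + 2 * k by ring), (Int.natCast_nonneg c), (Int.natCast_nonneg k)])
    · have h1 : (32:ℝ) ^ p * (P:ℝ) ^ p * T ^ p = (32 * P * T) ^ p := by
        rw [Real.mul_rpow (by positivity) hT0.le, Real.mul_rpow (by norm_num) hP0.le]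
      have hm : (min (dist y w) (2 * t j)) ^ p ≤ (32 * P * T) ^ p :=
        Real.rpow_le_rpow (le_min dist_nonneg (by linarith [ht0 j]))
          ((min_le_right _ _).trans (by linarith [htU j])) hp0.le
      have h2 : min ((2 / η) ^ p * (min (dist y w) (2 * t j)) ^ p) (t j ^ p) ≤ (32 * P * T) ^ p :=
        (min_le_right _ _).trans (Real.rpow_le_rpow (ht0 j).le (by linarith [htU j]) hp0.le)
      rw [h1]
      linarith
  · intro hsmall
    rw [hΦ]
    set F := (2:ℝ) ^ ((k:ℤ) * m + 2 - c) with hF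
    have hFR : F = R / 8 * (32 * ((2:ℝ) ^ c)⁻¹) := by
      rw [hF, hR, zpow_sub₀ two_ne_zero, zpow_add₀ two_ne_zero, zpow_natCast]
      norm_num
      ring
    refine (hupper F (zpow_le_zpow_right₀ (by norm_num) (by omega)) (hnearF F hsmall)).trans ?_
    rw [hFR, Real.mul_rpow (by positivity) (by positivity), Real.mul_rpow (by norm_num)
      (by positivity)]
    calc allK p * (P:ℝ) ^ p * ((R / 8) ^ p * ((32:ℝ) ^ p * (((2:ℝ) ^ c)⁻¹) ^ p))
        = (R / 8) ^ p * ((32:ℝ) ^ p * (((2:ℝ) ^ c)⁻¹) ^ p * (allK p * (P:ℝ) ^ p)) := by ring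
      _ ≤ _ := mul_le_of_le_one_right (by positivity) hc
  · intro h1 h2
    rw [hΦ]
    set r := dist y w with hr
    set N := (Fintype.card (Equiv.Perm (Fin n)) : ℝ)
    set e := r ^ p / (2 * (8:ℝ) ^ p) with he
    have he0 : 0 ≤ e := by positivity
    have hge : r ^ p * meanLo p ≤ EY (y, w) := by
      rw [hEY, sum_bandW_mul]
      let G : Equiv.Perm (Fin n) → Fin J → ℝ := fun π j => ((M + 1 : ℕ) : ℝ)⁻¹ *
        ∑ i : Fin (M + 1), ∑ Q : Fin K₀ → Bool,
          subW (levelRho k M K₀ p i) Q * Y (y, w) (π, j, i, Q)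
      have hG : ∀ j : Fin J, e * (((fball y ((1 - η) * t j)).card : ℝ) /
          (fball y ((1 + η) * t j)).card * N) ≤ ∑ π, G π j := by
        intro j
        refine (mul_le_mul_of_nonneg_left
          (card_padded_ge hη0.le (by linarith) (t j) (ht0 j) y) he0).trans ?_
        rw [mul_comm, ← nsmul_eq_mul, ← Finset.sum_const, Finset.sum_filter]
        refine Finset.sum_le_sum fun π _ => ?_
        simp only [G, Y, mul_left_comm (subW _ _) ((M + 1 : ℕ) : ℝ), ← Finset.mul_sum]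
        rw [inv_mul_cancel_left₀ hMpos.ne']
        by_cases hpad : Padded π η (t j) y
        · rw [if_pos hpad]
          refine scalarDiff_mean_ge hp hk hU0 hη0 (ht0 j) (htU j) a hdist π y w hpad ?_
          refine h2.trans ?_
          calc R' = η * t₀ / 2 := by rw [ht₀, hη]; field_simp; norm_num
            _ ≤ _ := by
              refine div_le_div_of_nonneg_right (mul_le_mul_of_nonneg_left ?_ hη0.le) two_pos.le
              exact le_mul_of_one_le_right ht00.le (one_le_pow₀ hq1)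
        · rw [if_neg hpad]
          refine Finset.sum_nonneg fun i _ => Finset.sum_nonneg fun Q _ => ?_
          obtain ⟨a0, a1⟩ := levelRho_bounds k M K₀ hp0.le (i : ℕ)
          exact mul_nonneg (subW_nonneg a0.le a1 _) (by unfold scalarDiff; positivity)
      have havg := padded_average hη0.le (by linarith : η < 1)
        (q := q) (le_of_eq (by rw [hq, div_mul_cancel₀ _ (by linarith : (1:ℝ) - η ≠ 0)])) hJ1 y ht00
      have hexp : (J:ℝ) * Real.exp (-1) ≤ ∑ j : Fin J, ((fball y ((1 - η) * t j)).card : ℝ) /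
          (fball y ((1 + η) * t j)).card := by
        refine le_trans (mul_le_mul_of_nonneg_left (Real.exp_le_exp.2 ?_) hJpos.le) havg
        rw [neg_le_neg_iff, div_le_one hJpos, hJ]
        push_cast
        exact hL
      calc r ^ p * meanLo p = N⁻¹ * (J:ℝ)⁻¹ * (e * N * ((J:ℝ) * Real.exp (-1))) := by
            rw [he, meanLo]; field_simp
        _ ≤ N⁻¹ * (J:ℝ)⁻¹ * ∑ j : Fin J, ∑ π, G π j := by
            refine mul_le_mul_of_nonneg_left ?_ (by positivity)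
            refine (mul_le_mul_of_nonneg_left hexp (by positivity)).trans ?_
            rw [Finset.mul_sum]
            exact Finset.sum_le_sum fun j _ => le_trans (le_of_eq (by ring)) (hG j)
        _ = _ := by
            rw [Finset.sum_comm, mul_assoc, Finset.mul_sum (a := (J:ℝ)⁻¹)]
    have hcF : F₀ ^ p ≤ r ^ p * (meanLo p / 2) := by
      have hle : F₀ ≤ r * ((2:ℝ) ^ c)⁻¹ := by
        refine le_trans ?_ (mul_le_mul_of_nonneg_right h1 (by positivity))
        rw [← zpow_natCast, ← zpow_neg, ← zpow_add₀ two_ne_zero]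
        exact zpow_le_zpow_right₀ (by norm_num) (by omega)
      refine (Real.rpow_le_rpow hF00.le hle hp0.le).trans ?_
      rw [Real.mul_rpow dist_nonneg (by positivity)]
      exact mul_le_mul_of_nonneg_left hc₂ (by positivity)
    have h3 : r ^ p * (meanLo p / 4) ≤ Ym := by linarith
    refine le_trans (le_of_eq ?_) (mul_le_mul_of_nonneg_left h3 hlam0.le)
    rw [hlam]; field_simp

end Vale.Agent.P249
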