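import Vale.Agent.P249.Main
import Vale.Agent.P249.WindowAll

/-!
Gluing the window maps of a finite subset of `ℓ_p^{d₀}`, every `p ≥ 1`.
-/

namespace Vale.Agent.P249

open MeasureTheory Real

theorem embed_coords_all {p : ℝ} (hp : 1 ≤ p) {k c M P : ℕ} (hk1 : 1 ≤ k) (hP : 1 ≤ P)
    {n : ℕ} (hL : Real.log n ≤ P * k)
    (hc : (32:ℝ) ^ p * (((2:ℝ) ^ c)⁻¹) ^ p * (allK p * (P:ℝ) ^ p) ≤ 1)
    (hc₂ : (((2:ℝ) ^ c)⁻¹) ^ p ≤ meanLo p / 2)
    {d₀ : ℕ} (hd₀ : (d₀ : ℝ) + 1 ≤ ((2:ℝ) ^ k) ^ M)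
    (f₀ : Fin n → Fin d₀ → ℝ) (d : ℕ)
    (hd : 16 * (((M + 1 : ℕ) : ℝ) * (4 * (2:ℝ) ^ p + 1) * (16 * P * (2:ℝ) ^ (4 * k + c)) ^ p) *
      Real.log (2 * ((n : ℝ) ^ 2 + 1)) + 1 ≤ d) :
    ∃ f : Fin n → Fin (copies n * d) → ℝ, ∀ i j,
      (∑ s, |f₀ i s - f₀ j s| ^ p) ≤ ∑ s, |f i s - f j s| ^ p ∧
      ∑ s, |f i s - f j s| ^ p ≤ 4 * ((4 / 3) * (allK p * P *
        (60 * Real.log n / k + (9 * ((c:ℝ) + 3) + 2)))) ^ p * ∑ s, |f₀ i s - f₀ j s| ^ p := by
  have hp0 : 0 < p := by linarith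
  have : Fact (1 ≤ ENNReal.ofReal p) := ⟨ENNReal.one_le_ofReal.2 hp⟩
  set K := allK p * P with hK
  have hP1 : (1:ℝ) ≤ P := by exact_mod_cast hP
  have ha1 := allK_ge_one p
  have hKp : 1 ≤ K := one_le_mul_of_one_le_of_one_le ha1 hP1
  have hKW : 0 ≤ allK p * (P:ℝ) ^ p := by positivity
  letI : PseudoMetricSpace (Fin n) := PseudoMetricSpace.induced
    (fun i => (WithLp.toLp (ENNReal.ofReal p) (f₀ i) : PiLp (ENNReal.ofReal p) (fun _ : Fin d₀ => ℝ)))
    inferInstance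
  have hto : (ENNReal.ofReal p).toReal = p := ENNReal.toReal_ofReal hp0.le
  have hdist : ∀ i j : Fin n, dist i j = (∑ s, |f₀ i s - f₀ j s| ^ p) ^ p⁻¹ := by
    intro i j
    show dist (WithLp.toLp (ENNReal.ofReal p) (f₀ i)) (WithLp.toLp (ENNReal.ofReal p) (f₀ j)) = _
    rw [dist_eq_norm, PiLp.norm_eq_sum (by rw [hto]; exact hp0), hto, one_div]
    simp [Real.norm_eq_abs]
  have hband := exists_window_all hp hk1 hP hL hd₀ hc hc₂ f₀
    (fun i j => by rw [hdist, Real.rpow_inv_rpow (Finset.sum_nonneg fun s _ => by positivity) hp0.ne'])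
    d hd
  choose Φ hΦ using hband
  let E := PiLp (ENNReal.ofReal p) (fun _ : Fin d => ℝ)
  let Ψ : ℤ → Fin n → E := fun m i => WithLp.toLp (ENNReal.ofReal p) (Φ m i)
  have hnorm : ∀ m i j, ‖Ψ m i - Ψ m j‖ = (∑ s, |Φ m i s - Φ m j s| ^ p) ^ p⁻¹ := by
    intro m i j
    rw [PiLp.norm_eq_sum (by rw [hto]; exact hp0), hto, one_div]
    simp only [Ψ, Real.norm_eq_abs]
    rfl
  have hsum0 : ∀ m i j, 0 ≤ ∑ s, |Φ m i s - Φ m j s| ^ p := fun m i j =>
    Finset.sum_nonneg fun s _ => by positivity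
  have hKroot : (allK p * (P:ℝ) ^ p) ^ p⁻¹ ≤ K := by
    rw [Real.mul_rpow (by linarith) (by positivity), Real.rpow_rpow_inv (by linarith) hp0.ne', hK]
    exact mul_le_mul_of_nonneg_right
      (Real.rpow_le_self_of_one_le ha1 (inv_le_one_of_one_le₀ hp)) (by linarith)
  have hW : WindowMaps k c K Ψ := by
    constructor
    · intro m i j
      rw [hnorm]
      refine le_trans ?_ (mul_le_mul_of_nonneg_right hKroot (le_max_of_le_right (by positivity)))
      refine (Real.rpow_le_rpow (hsum0 m i j) (hΦ m i j).1 (by positivity)).trans (le_of_eq ?_)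
      rw [Real.mul_rpow hKW (Real.rpow_nonneg (le_max_of_le_right (by positivity)) _),
        Real.rpow_rpow_inv (le_max_of_le_right (by positivity)) hp0.ne']
    · intro m i j
      rw [hnorm]
      refine le_trans ?_ (mul_le_mul_of_nonneg_right hKroot (by positivity))
      refine (Real.rpow_le_rpow (hsum0 m i j) (hΦ m i j).2.1 (by positivity)).trans (le_of_eq ?_)
      rw [Real.mul_rpow hKW (by positivity), Real.rpow_rpow_inv (by positivity) hp0.ne']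
    · intro m i j hij
      rw [hnorm]
      refine (Real.rpow_le_rpow (hsum0 m i j) ((hΦ m i j).2.2.1 hij) (by positivity)).trans
        (le_of_eq ?_)
      rw [Real.rpow_rpow_inv (by positivity) hp0.ne']
    · intro m i j h1 h2
      rw [hnorm]
      calc dist i j = (dist i j ^ p) ^ p⁻¹ := (Real.rpow_rpow_inv dist_nonneg hp0.ne').symm
        _ ≤ _ := Real.rpow_le_rpow (by positivity) ((hΦ m i j).2.2.2 h1 h2) (by positivity)
  obtain ⟨F, hFup, hFlow⟩ := exists_glued (E := E) hk1 (by linarith) hW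
  have hcardn : Fintype.card (Fin n) = n := Fintype.card_fin n
  have hN0 : (0:ℝ) < copies n := by
    exact_mod_cast (by simp only [copies]; omega : 0 < copies n)
  set sc := (4 / (copies n : ℝ)) ^ p⁻¹ * (4 / 3) with hsc
  have hsc0 : 0 ≤ sc := by positivity
  set Lp' := K * (60 * Real.log n / k + (9 * ((c:ℝ) + 3) + 2)) with hLp'
  have hlog0 : 0 ≤ Real.log n := Real.log_natCast_nonneg n
  have hLp0 : 0 ≤ Lp' := by positivity
  have hcop : copies (Fintype.card (Fin n)) = copies n := by rw [hcardn]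
  let G : Fin n → Fin (copies n) → E := fun i t => F i (Fin.cast hcop.symm t)
  let e : Fin (copies n * d) ≃ Fin (copies n) × Fin d := finProdFinEquiv.symm
  refine ⟨fun i s => sc * (G i (e s).1).ofLp (e s).2, fun i j => ?_⟩
  have hEnorm : ∀ t, ‖G i t - G j t‖ ^ p = ∑ s, |(G i t).ofLp s - (G j t).ofLp s| ^ p := by
    intro t
    rw [PiLp.norm_eq_sum (by rw [hto]; exact hp0), hto, one_div,
      Real.rpow_inv_rpow (Finset.sum_nonneg fun s _ => by positivity) hp0.ne']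
    simp only [Real.norm_eq_abs]
    rfl
  have hsum : ∑ s, |sc * (G i (e s).1).ofLp (e s).2 - sc * (G j (e s).1).ofLp (e s).2| ^ p =
      ∑ t, sc ^ p * ‖G i t - G j t‖ ^ p := by
    simp only [hEnorm, Finset.mul_sum]
    rw [← Fintype.sum_prod_type']
    refine Fintype.sum_equiv e _ _ (fun s => ?_)
    rw [← mul_sub, abs_mul, abs_of_nonneg hsc0, Real.mul_rpow hsc0 (abs_nonneg _)]
  rw [hsum]
  have hr0 : 0 ≤ ∑ s, |f₀ i s - f₀ j s| ^ p := Finset.sum_nonneg fun s _ => by positivity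
  have hdp : dist i j ^ p = ∑ s, |f₀ i s - f₀ j s| ^ p := by
    rw [hdist, Real.rpow_inv_rpow hr0 hp0.ne']
  rw [← hdp]
  have hd0 : 0 ≤ dist i j := dist_nonneg
  have hscp : sc ^ p = 4 / (copies n : ℝ) * (4 / 3 : ℝ) ^ p := by
    rw [hsc, Real.mul_rpow (by positivity) (by norm_num),
      Real.rpow_inv_rpow (by positivity) hp0.ne']
  constructor
  · have hlow : (copies n : ℝ) / 4 ≤
        (Finset.univ.filter (fun t => 3 / 4 * dist i j ≤ ‖G i t - G j t‖)).card := by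
      have h := hFlow i j
      have hmap : (Finset.univ.filter (fun t => 3 / 4 * dist i j ≤ ‖F i t - F j t‖)).card =
          (Finset.univ.filter (fun t => 3 / 4 * dist i j ≤ ‖G i t - G j t‖)).card := by
        refine Finset.card_equiv (finCongr hcop) (fun t => ?_)
        simp only [Finset.mem_filter, Finset.mem_univ, true_and, G]
        rfl
      rw [hmap] at h
      rw [hcardn] at h
      exact h
    set S := Finset.univ.filter (fun t => 3 / 4 * dist i j ≤ ‖G i t - G j t‖)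
    calc dist i j ^ p = ((copies n : ℝ) / 4) * (sc ^ p * (3 / 4 * dist i j) ^ p) := by
          rw [hscp, Real.mul_rpow (by norm_num) hd0]
          have : (4 / 3 : ℝ) ^ p * (3 / 4 : ℝ) ^ p = 1 := by
            rw [← Real.mul_rpow (by norm_num) (by norm_num)]; norm_num
          field_simp
          linear_combination (-(dist i j ^ p)) * this
      _ ≤ (S.card : ℝ) * (sc ^ p * (3 / 4 * dist i j) ^ p) := by gcongr
      _ = ∑ _t ∈ S, sc ^ p * (3 / 4 * dist i j) ^ p := by simp [nsmul_eq_mul]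
      _ ≤ ∑ t ∈ S, sc ^ p * ‖G i t - G j t‖ ^ p := by
          refine Finset.sum_le_sum fun t ht => ?_
          have := (Finset.mem_filter.1 ht).2
          gcongr
      _ ≤ _ := Finset.sum_le_sum_of_subset_of_nonneg (Finset.subset_univ _)
          (fun t _ _ => by positivity)
  · calc ∑ t, sc ^ p * ‖G i t - G j t‖ ^ p
        ≤ ∑ _t : Fin (copies n), sc ^ p * (Lp' * dist i j) ^ p := by
          refine Finset.sum_le_sum fun t _ => ?_
          have h := hFup i j (Fin.cast hcop.symm t)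
          simp only [hcardn] at h
          have h' : ‖G i t - G j t‖ ≤ Lp' * dist i j := by
            refine h.trans (le_of_eq ?_)
            rw [hLp']; ring
          gcongr
      _ = 4 * (4 / 3 * Lp') ^ p * dist i j ^ p := by
          simp only [Finset.sum_const, Finset.card_univ, Fintype.card_fin, nsmul_eq_mul]
          rw [hscp, Real.mul_rpow hLp0 hd0, Real.mul_rpow (by norm_num) hLp0]
          field_simp

theorem dim_bound_all {p δ : ℝ} (hp : 1 ≤ p) (hδ : 0 < δ) {c n M P : ℕ} (hn : 2 ≤ n) (hP : 1 ≤ P)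
    {S₀ : ℝ}
    (hS0 : S₀ = ((M + 1 : ℕ) : ℝ) * (4 * (2:ℝ) ^ p + 1) * (16 * P * (2:ℝ) ^ (c + 4)) ^ p) :
    ((copies n * ⌈16 * (((M + 1 : ℕ) : ℝ) * (4 * (2:ℝ) ^ p + 1) *
      (16 * P * (2:ℝ) ^ (4 * (⌊δ / (8 * p) * Real.log n⌋₊ + 1) + c)) ^ p) *
      Real.log (2 * ((n : ℝ) ^ 2 + 1)) + 1⌉₊ : ℕ) : ℝ) ≤
      64 * (16 * S₀ * 6 + 2) * (4 / δ + 1) ^ 2 * (n : ℝ) ^ δ := by
  have hp0 : 0 < p := by linarith
  have hP0 : (0:ℝ) < P := by exact_mod_cast hP
  have hS00 : 0 < S₀ := by rw [hS0]; positivity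
  have hn2 : (2:ℝ) ≤ n := by exact_mod_cast hn
  set L := Real.log n with hL
  have hL0 : 0 ≤ L := Real.log_natCast_nonneg n
  set δ' := δ / (8 * p) with hδ'
  have hδ'0 : 0 < δ' := by positivity
  set k := ⌊δ' * L⌋₊ + 1 with hk
  set d := ⌈16 * (((M + 1 : ℕ) : ℝ) * (4 * (2:ℝ) ^ p + 1) * (16 * P * (2:ℝ) ^ (4 * k + c)) ^ p) *
      Real.log (2 * ((n : ℝ) ^ 2 + 1)) + 1⌉₊ with hd
  set N := copies n with hN
  have hlog : Real.log (2 * ((n:ℝ) ^ 2 + 1)) ≤ 6 * (L + 1) := by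
    have h1 : 2 * ((n:ℝ) ^ 2 + 1) ≤ (n:ℝ) ^ 4 := by nlinarith [mul_le_mul hn2 hn2 (by norm_num) (by linarith)]
    have h2 := Real.log_le_log (by positivity) h1
    rw [Real.log_pow] at h2
    push_cast at h2
    linarith
  have hpow : (16 * P * (2:ℝ) ^ (4 * k + c)) ^ p ≤
      (16 * P * (2:ℝ) ^ (c + 4)) ^ p * (n:ℝ) ^ (δ / 2) := by
    rw [show 4 * k + c = (c + 4) + 4 * ⌊δ' * L⌋₊ by omega, pow_add _ (c + 4), ← mul_assoc,
      Real.mul_rpow (by positivity) (by positivity)]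
    refine mul_le_mul_of_nonneg_left ?_ (by positivity)
    rw [← Real.rpow_natCast, ← Real.rpow_mul (by norm_num), Real.rpow_def_of_pos (by norm_num),
      Real.rpow_def_of_pos (by linarith)]
    refine Real.exp_le_exp.2 ?_
    have hfl := Nat.floor_le (mul_nonneg hδ'0.le hL0)
    have hln2 : Real.log 2 ≤ 1 := by linarith [Real.log_two_lt_d9]
    have hln0 : 0 ≤ Real.log 2 := Real.log_nonneg (by norm_num)
    calc Real.log 2 * (((4 * ⌊δ' * L⌋₊ : ℕ) : ℝ) * p) ≤ 1 * (4 * (δ' * L) * p) := by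
          refine mul_le_mul hln2 ?_ (by positivity) zero_le_one
          push_cast
          exact mul_le_mul_of_nonneg_right (by linarith) hp0.le
      _ = L * (δ / 2) := by rw [hδ']; field_simp; ring
  have hd' : (d:ℝ) ≤ (16 * S₀ * 6 + 2) * ((L + 1) * (n:ℝ) ^ (δ / 2)) := by
    have hA : 0 ≤ 16 * (((M + 1 : ℕ) : ℝ) * (4 * (2:ℝ) ^ p + 1) * (16 * P * (2:ℝ) ^ (4 * k + c)) ^ p) *
        Real.log (2 * ((n:ℝ) ^ 2 + 1)) :=
      mul_nonneg (by positivity) (Real.log_nonneg (by nlinarith))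
    have h1 : 16 * (((M + 1 : ℕ) : ℝ) * (4 * (2:ℝ) ^ p + 1) * (16 * P * (2:ℝ) ^ (4 * k + c)) ^ p) *
        Real.log (2 * ((n:ℝ) ^ 2 + 1)) ≤ 16 * (S₀ * (n:ℝ) ^ (δ / 2)) * (6 * (L + 1)) := by
      refine mul_le_mul (mul_le_mul_of_nonneg_left ?_ (by norm_num)) hlog
        (Real.log_nonneg (by nlinarith)) (by positivity)
      rw [hS0, mul_assoc _ ((16 * P * (2:ℝ) ^ (c + 4)) ^ p)]
      exact mul_le_mul_of_nonneg_left hpow (by positivity)
    have h2 : (1:ℝ) ≤ (L + 1) * (n:ℝ) ^ (δ / 2) :=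
      one_le_mul_of_one_le_of_one_le (by linarith) (Real.one_le_rpow (by linarith) (by positivity))
    have h3 := Nat.ceil_lt_add_one (add_nonneg hA zero_le_one)
    rw [← hd] at h3
    linarith
  have hN' : (N:ℝ) ≤ 64 * (L + 1) := by
    have h1 : ((2:ℝ)) ^ (Nat.log 2 n) ≤ n := by
      exact_mod_cast Nat.pow_log_le_self 2 (by omega)
    have h2 := Real.log_le_log (by positivity) h1
    rw [Real.log_pow] at h2
    have h3 : (0.69:ℝ) ≤ Real.log 2 := le_of_lt (lt_of_le_of_lt (by norm_num) Real.log_two_gt_d9)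
    have h4 : (Nat.log 2 n : ℝ) * 0.69 ≤ L :=
      le_trans (mul_le_mul_of_nonneg_left h3 (Nat.cast_nonneg _)) h2
    simp only [hN, copies]
    push_cast
    linarith
  have hL1 : L + 1 ≤ (4 / δ + 1) * (n:ℝ) ^ (δ / 4) := by
    have h1 := Real.log_le_rpow_div (Nat.cast_nonneg n : (0:ℝ) ≤ n) (by positivity : (0:ℝ) < δ / 4)
    have h2 : (1:ℝ) ≤ (n:ℝ) ^ (δ / 4) := Real.one_le_rpow (by linarith) (by positivity)
    have h3 : (n:ℝ) ^ (δ / 4) / (δ / 4) = 4 / δ * (n:ℝ) ^ (δ / 4) := by field_simp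
    rw [h3, ← hL] at h1
    linarith
  push_cast
  calc (N:ℝ) * (d:ℝ)
      ≤ 64 * (L + 1) * ((16 * S₀ * 6 + 2) * ((L + 1) * (n:ℝ) ^ (δ / 2))) := by gcongr
    _ = 64 * (16 * S₀ * 6 + 2) * ((L + 1) ^ 2 * (n:ℝ) ^ (δ / 2)) := by ring
    _ ≤ 64 * (16 * S₀ * 6 + 2) *
          (((4 / δ + 1) * (n:ℝ) ^ (δ / 4)) ^ 2 * (n:ℝ) ^ (δ / 2)) := by gcongr
    _ = _ := by
        have e : (n:ℝ) ^ δ = (n:ℝ) ^ (δ / 4 * 2) * (n:ℝ) ^ (δ / 2) := by
          rw [← Real.rpow_add (by linarith)]; congr 1; ring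
        rw [mul_pow, ← Real.rpow_two ((n:ℝ) ^ _), ← Real.rpow_mul (by linarith), e]
        ring

/-- The number of first-stage coordinates is at most `(2 ^ k) ^ M`. -/
theorem dim_first_le {p δ' : ℝ} (hp : 1 ≤ p) (hδ' : 0 < δ') {n k M : ℕ} (hn : 2 ≤ n)
    (hk1 : (1:ℝ) ≤ k) (hkL : δ' * Real.log n ≤ k)
    (hM : 2 * (Real.log (110 * (2:ℝ) ^ p) + (p + 5) / δ') ≤ M)
    {I : ℝ} (hI0 : 0 ≤ I) (hI : I ≤ ((2 * (Nat.log 3 n + 1) : ℕ) : ℝ) ^ p * (3 * n)) :
    ((⌈4 * I * Real.log (2 * ((n : ℝ) * n + 1)) / (1 / 3) ^ 2⌉₊ : ℕ) : ℝ) + 1 ≤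
      ((2:ℝ) ^ k) ^ M := by
  have hp0 : 0 < p := by linarith
  have hn2 : (2:ℝ) ≤ n := by exact_mod_cast hn
  set A := Real.log (110 * (2:ℝ) ^ p) with hA
  set L := Real.log n with hL
  have hk' : ((2 * (Nat.log 3 n + 1) : ℕ) : ℝ) ≤ 2 * n := by
    have : Nat.log 3 n + 1 ≤ n := Nat.log_lt_self 3 (by omega)
    exact_mod_cast Nat.mul_le_mul_left 2 this
  have hint : I ≤ (2 * (n:ℝ)) ^ p * (3 * n) := hI.trans (mul_le_mul_of_nonneg_right
    (Real.rpow_le_rpow (Nat.cast_nonneg _) hk' hp0.le) (by positivity))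
  have hlog : Real.log (2 * ((n : ℝ) * n + 1)) ≤ (n:ℝ) ^ (4:ℕ) := by
    refine (Real.log_le_self (by positivity)).trans ?_
    nlinarith [mul_le_mul hn2 hn2 (by norm_num) (by linarith)]
  have hlog0 : 0 ≤ Real.log (2 * ((n : ℝ) * n + 1)) := Real.log_nonneg (by nlinarith)
  set J := Real.log (2 * ((n : ℝ) * n + 1)) with hJ
  have hd1 : ((⌈4 * I * J / (1 / 3) ^ 2⌉₊ : ℕ) : ℝ) + 1 ≤
      110 * (2:ℝ) ^ p * (n:ℝ) ^ (p + 5) := by
    have h1 := Nat.ceil_lt_add_one (a := 4 * I * J / (1 / 3) ^ 2) (by positivity)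
    have h2 : I * J ≤ (2 * (n:ℝ)) ^ p * (3 * n) * (n:ℝ) ^ (4:ℕ) :=
      mul_le_mul hint hlog hlog0 (by positivity)
    have h3 : (2 * (n:ℝ)) ^ p * (3 * n) * (n:ℝ) ^ (4:ℕ) = 3 * ((2:ℝ) ^ p * (n:ℝ) ^ (p + 5)) := by
      rw [Real.mul_rpow (by norm_num) (by positivity), Real.rpow_add (by linarith)]
      norm_num; ring
    have h4 : (1:ℝ) ≤ (2:ℝ) ^ p * (n:ℝ) ^ (p + 5) := one_le_mul_of_one_le_of_one_le
      (Real.one_le_rpow (by norm_num) hp0.le) (Real.one_le_rpow (by linarith) (by linarith))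
    have h5 : 4 * I * J / (1 / 3) ^ 2 = 36 * (I * J) := by ring
    rw [h5] at h1 ⊢
    rw [h3] at h2
    rw [mul_assoc]
    linarith
  rw [← pow_mul]
  refine (Real.log_le_log_iff (by positivity) (by positivity)).1 ?_
  refine (Real.log_le_log (by positivity) hd1).trans ?_
  rw [Real.log_mul (by positivity) (by positivity), Real.log_rpow (by linarith), Real.log_pow,
    ← hA, ← hL]
  have hA0 : 0 ≤ A := by
    rw [hA]
    exact Real.log_nonneg (by linarith [Real.one_le_rpow (one_le_two : (1:ℝ) ≤ 2) hp0.le])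
  have h2 : (0.5:ℝ) ≤ Real.log 2 := le_of_lt (lt_of_le_of_lt (by norm_num) Real.log_two_gt_d9)
  have h3 : (p + 5) * L ≤ (p + 5) / δ' * k := by
    rw [div_mul_eq_mul_div, le_div_iff₀ hδ', mul_assoc, mul_comm L]
    exact mul_le_mul_of_nonneg_left hkL (by linarith)
  push_cast
  calc A + (p + 5) * L ≤ A * k + (p + 5) / δ' * k :=
        add_le_add (le_mul_of_one_le_right hA0 hk1) h3
    _ = (k:ℝ) * (2 * (A + (p + 5) / δ')) * 0.5 := by ring
    _ ≤ (k:ℝ) * M * 0.5 := by gcongr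
    _ ≤ _ := mul_le_mul_of_nonneg_left h2 (by positivity)

end Vale.Agent.P249
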