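import Vale.Agent.P249.Sampling

/-!
Derandomised empirical means over a finite probability space.
-/

namespace Vale.Agent.P249

open Finset MeasureTheory

/-- Derandomised sampling for a finite probability space. -/
theorem exists_empirical {Ω κ : Type*} [Fintype Ω] [Fintype κ] (w : Ω → ℝ) (hw0 : ∀ ω, 0 ≤ w ω)
    (hw1 : ∑ ω, w ω = 1) (Y : κ → Ω → ℝ) (hY0 : ∀ q ω, 0 ≤ Y q ω) {B c₀ : ℝ} (hc₀ : 0 < c₀)
    (hB : ∀ q ω, Y q ω + c₀ ≤ B * c₀) (hB0 : 0 < B) (d : ℕ)
    (hd : 16 * B * Real.log (2 * ((Fintype.card κ : ℝ) + 1)) + 1 ≤ d) :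
    ∃ z : Fin d → Ω, ∀ q,
      |(∑ s, Y q (z s)) / d - ∑ ω, w ω * Y q ω| ≤ (∑ ω, w ω * Y q ω + c₀) / 2 := by
  classical
  letI : MeasurableSpace Ω := ⊤
  let EY : κ → ℝ := fun q => ∑ ω, w ω * Y q ω
  have hEY0 : ∀ q, 0 ≤ EY q := fun q => Finset.sum_nonneg fun ω _ => mul_nonneg (hw0 ω) (hY0 q ω)
  have hden : ∀ q, 0 < EY q + c₀ := fun q => by linarith [hEY0 q]
  let u : κ → Ω → ℝ := fun q ω => w ω * ((Y q ω + c₀) / (EY q + c₀))
  have hint : ∀ g : Ω → ℝ, ∫ ω, g ω ∂Measure.count = ∑ ω, g ω := fun g => by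
    rw [integral_fintype Integrable.of_finite]; simp
  have hu1 : ∀ q, ∫ ω, u q ω ∂Measure.count = 1 := by
    intro q
    rw [hint]
    simp only [u, ← mul_div_assoc, ← Finset.sum_div, mul_add, Finset.sum_add_distrib,
      ← Finset.sum_mul, hw1, one_mul]
    exact div_self (hden q).ne'
  have hSint : ∫ ω, w ω * B ∂(Measure.count : Measure Ω) = B := by
    rw [hint, ← Finset.sum_mul, hw1, one_mul]
  obtain ⟨z, hz, hsum⟩ := exists_samples (μ := (Measure.count : Measure Ω))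
    (fun ω => w ω * B) Integrable.of_finite (fun ω => mul_nonneg (hw0 ω) hB0.le)
    (by rw [hSint]; exact hB0) (fun _ => True)
    (Filter.Eventually.of_forall fun _ => trivial) u (fun q => Integrable.of_finite) hu1
    (fun ω _ q => ⟨mul_nonneg (hw0 ω) (div_nonneg (by linarith [hY0 q ω]) (hden q).le),
      mul_le_mul_of_nonneg_left ((div_le_iff₀ (hden q)).2 ((hB q ω).trans
        (mul_le_mul_of_nonneg_left (le_add_of_nonneg_left (hEY0 q)) hB0.le))) (hw0 ω)⟩)
    (η := 1 / 2) (by norm_num) (by norm_num) d (by rw [hSint]; linarith)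
  rw [hSint] at hsum
  have hd0 : (0:ℝ) < d := by
    have : 0 ≤ Real.log (2 * ((Fintype.card κ : ℝ) + 1)) :=
      Real.log_nonneg (by linarith [(Nat.cast_nonneg (Fintype.card κ) : (0:ℝ) ≤ _)])
    nlinarith [mul_nonneg hB0.le this]
  refine ⟨z, fun q => ?_⟩
  have hzs : ∀ s, u q (z s) / (w (z s) * B) = (Y q (z s) + c₀) / ((EY q + c₀) * B) := by
    intro s
    have hwpos : 0 < w (z s) := pos_of_mul_pos_left (hz s).2 hB0.le
    simp only [u]; field_simp
  have h := hsum q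
  simp only [hzs, ← Finset.sum_div] at h
  have := hden q
  have e : (∑ s, (Y q (z s) + c₀)) / ((EY q + c₀) * B) - (d:ℝ) / B =
      ((∑ s, Y q (z s)) / d - EY q) * ((d:ℝ) / ((EY q + c₀) * B)) := by
    rw [Finset.sum_add_distrib, Finset.sum_const, Finset.card_univ, Fintype.card_fin, nsmul_eq_mul]
    field_simp
    ring
  rw [e, abs_mul, abs_of_pos (a := (d:ℝ) / ((EY q + c₀) * B)) (by positivity)] at h
  have e2 : 1 / 2 * ((d:ℝ) / B) = ((EY q + c₀) / 2) * ((d:ℝ) / ((EY q + c₀) * B)) := by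
    field_simp
  rw [e2] at h
  exact le_of_mul_le_mul_right h (by positivity)

end Vale.Agent.P249
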