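import Mathlib

/-!
Amplitude bands and sparse subsampling.
-/

namespace Vale.Agent.P249

open Finset

/-- Clip to `[-u, u]`. -/
def clipTo (u v : ℝ) : ℝ := max (-u) (min u v)

theorem clipTo_mono {u : ℝ} : Monotone (clipTo u) := fun a b h =>
  max_le_max le_rfl (min_le_min le_rfl h)

theorem abs_clipTo_le {u : ℝ} (hu : 0 ≤ u) (v : ℝ) : |clipTo u v| ≤ u := by
  rw [abs_le]
  exact ⟨le_max_left _ _, max_le (by linarith) (min_le_left _ _)⟩

theorem clipTo_eq_self {u v : ℝ} (h : |v| ≤ u) : clipTo u v = v := by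
  rw [abs_le] at h
  simp [clipTo, min_eq_right h.2, max_eq_right h.1]

theorem abs_clipTo_sub_le (u a b : ℝ) : |clipTo u a - clipTo u b| ≤ |a - b| :=
  (abs_max_sub_max_le_max _ _ _ _).trans (max_le (by simp) ((abs_min_sub_min_le_max _ _ _ _).trans
    (max_le (by simp) le_rfl)))

theorem abs_clipTo_le_abs {u : ℝ} (hu : 0 ≤ u) (v : ℝ) : |clipTo u v| ≤ |v| := by
  simpa [clipTo, hu] using abs_clipTo_sub_le u v 0

/-- The part of `v` with amplitude between `l` and `u`. -/
def bandPart (l u v : ℝ) : ℝ := clipTo u v - clipTo l v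

theorem bandPart_mono {l u : ℝ} (hl : 0 ≤ l) (hlu : l ≤ u) : Monotone (bandPart l u) := by
  intro a b hab
  simp only [bandPart, clipTo]
  grind

theorem bandPart_zero_of_le {l u v : ℝ} (hlu : l ≤ u) (h : |v| ≤ l) : bandPart l u v = 0 := by
  rw [bandPart, clipTo_eq_self h, clipTo_eq_self (h.trans hlu), sub_self]

theorem abs_bandPart_le_cap {l u : ℝ} (hl : 0 ≤ l) (hlu : l ≤ u) (v : ℝ) :
    |bandPart l u v| ≤ u := by
  simp only [bandPart, clipTo]
  grind

theorem sum_bandPart {M : ℕ} (τ : ℕ → ℝ) (hτ : τ (M + 1) = 0) (v : ℝ) :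
    ∑ i ∈ Finset.range (M + 1), bandPart (τ (i + 1)) (τ i) v = clipTo (τ 0) v := by
  simp only [bandPart]
  rw [Finset.sum_range_sub' (fun i => clipTo (τ i) v), hτ]
  simp [clipTo]

theorem rpow_sum_nonneg_ge {ι : Type*} (s : Finset ι) {p : ℝ} (hp : 1 ≤ p) (f : ι → ℝ)
    (hf : ∀ i ∈ s, 0 ≤ f i) : ∑ i ∈ s, f i ^ p ≤ (∑ i ∈ s, f i) ^ p := by
  classical
  induction s using Finset.induction_on with
  | empty => simp [Real.zero_rpow (by linarith : p ≠ 0)]
  | insert a s ha ih =>
    rw [Finset.sum_insert ha, Finset.sum_insert ha]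
    have h0 := hf a (Finset.mem_insert_self _ _)
    have hs : 0 ≤ ∑ i ∈ s, f i := Finset.sum_nonneg fun i hi => hf i (Finset.mem_insert_of_mem hi)
    refine (add_le_add le_rfl (ih fun i hi => hf i (Finset.mem_insert_of_mem hi))).trans ?_
    exact Real.add_rpow_le_rpow_add h0 hs hp

/-- Band decomposition of a difference. -/
theorem bandPart_sandwich {p : ℝ} (hp : 1 ≤ p) {M : ℕ} (τ : ℕ → ℝ) (hτ0 : τ (M + 1) = 0)
    (hτn : ∀ i ≤ M, 0 ≤ τ (i + 1) ∧ τ (i + 1) ≤ τ i) (a b : ℝ) :
    ∑ i ∈ Finset.range (M + 1),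
        |bandPart (τ (i + 1)) (τ i) a - bandPart (τ (i + 1)) (τ i) b| ^ p ≤ |a - b| ^ p ∧
      (|a| ≤ τ 0 → |b| ≤ τ 0 → |a - b| ^ p ≤ ((M + 1 : ℕ) : ℝ) ^ (p - 1) *
        ∑ i ∈ Finset.range (M + 1),
          |bandPart (τ (i + 1)) (τ i) a - bandPart (τ (i + 1)) (τ i) b| ^ p) := by
  set D : ℕ → ℝ := fun i => |bandPart (τ (i + 1)) (τ i) a - bandPart (τ (i + 1)) (τ i) b|
  have hsum : ∑ i ∈ Finset.range (M + 1), D i = |clipTo (τ 0) a - clipTo (τ 0) b| := by
    rw [← sum_bandPart τ hτ0 a, ← sum_bandPart τ hτ0 b, ← Finset.sum_sub_distrib]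
    rcases le_total a b with h | h
    · have hneg : ∀ i ∈ Finset.range (M + 1),
          bandPart (τ (i + 1)) (τ i) a - bandPart (τ (i + 1)) (τ i) b ≤ 0 := fun i hi => by
        have hi' := hτn i (Nat.lt_succ_iff.1 (Finset.mem_range.1 hi))
        exact sub_nonpos.2 (bandPart_mono hi'.1 hi'.2 h)
      rw [abs_of_nonpos (Finset.sum_nonpos hneg), ← Finset.sum_neg_distrib]
      exact Finset.sum_congr rfl fun i hi => abs_of_nonpos (hneg i hi)
    · have hpos : ∀ i ∈ Finset.range (M + 1),
          0 ≤ bandPart (τ (i + 1)) (τ i) a - bandPart (τ (i + 1)) (τ i) b := fun i hi => by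
        have hi' := hτn i (Nat.lt_succ_iff.1 (Finset.mem_range.1 hi))
        exact sub_nonneg.2 (bandPart_mono hi'.1 hi'.2 h)
      rw [abs_of_nonneg (Finset.sum_nonneg hpos)]
      exact Finset.sum_congr rfl fun i hi => abs_of_nonneg (hpos i hi)
  constructor
  · refine (rpow_sum_nonneg_ge _ hp D fun i _ => abs_nonneg _).trans ?_
    rw [hsum]
    exact Real.rpow_le_rpow (abs_nonneg _) (abs_clipTo_sub_le _ _ _) (by linarith)
  · intro ha hb
    rw [clipTo_eq_self ha, clipTo_eq_self hb] at hsum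
    have h := Real.rpow_sum_le_const_mul_sum_rpow (Finset.range (M + 1)) D hp
    simp only [Finset.card_range] at h
    have hD : ∀ i, |D i| = D i := fun i => abs_abs _
    simp only [hD] at h
    rw [hsum] at h
    exact h

theorem clipTo_eq_of_ge {u v : ℝ} (hu : 0 ≤ u) (h : u ≤ v) : clipTo u v = u := by
  simp [clipTo, min_eq_left h, hu]

theorem clipTo_eq_of_le {u v : ℝ} (hu : 0 ≤ u) (h : v ≤ -u) : clipTo u v = -u := by
  rw [clipTo, min_eq_right (by linarith), max_eq_left h]

/-- For thresholds that at least halve, boundedly many bands carry half of a difference. -/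
theorem bandPart_sum_ge {p : ℝ} (hp : 1 ≤ p) {M : ℕ} (τ : ℕ → ℝ) (hτ0 : τ (M + 1) = 0)
    (hτn : ∀ i ≤ M, 0 ≤ τ (i + 1) ∧ τ (i + 1) ≤ τ i) (hhalf : ∀ i ≤ M, 2 * τ (i + 1) ≤ τ i)
    (a b : ℝ) (ha : |a| ≤ τ 0) (hb : |b| ≤ τ 0) :
    |a - b| ^ p ≤ (8:ℝ) ^ p * ∑ i ∈ Finset.range (M + 1),
      |bandPart (τ (i + 1)) (τ i) a - bandPart (τ (i + 1)) (τ i) b| ^ p := by
  classical
  set D : ℕ → ℝ := fun i => |bandPart (τ (i + 1)) (τ i) a - bandPart (τ (i + 1)) (τ i) b| with hD
  set S := |a - b| with hS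
  have hD0 : ∀ i, 0 ≤ D i := fun i => abs_nonneg _
  have hsum : ∀ j ≤ M + 1, ∑ i ∈ Finset.Ico j (M + 1), D i =
      |clipTo (τ j) a - clipTo (τ j) b| := by
    intro j hj
    have htel : ∀ v, ∑ i ∈ Finset.Ico j (M + 1), bandPart (τ (i + 1)) (τ i) v = clipTo (τ j) v := by
      intro v
      simp only [bandPart]
      rw [← neg_inj, ← Finset.sum_neg_distrib]
      simp only [neg_sub]
      rw [Finset.sum_Ico_sub (fun i => clipTo (τ i) v) hj, hτ0]
      simp [clipTo]
    rw [← htel a, ← htel b, ← Finset.sum_sub_distrib]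
    have hmono : ∀ i ∈ Finset.Ico j (M + 1), Monotone (bandPart (τ (i + 1)) (τ i)) := fun i hi => by
      have hi' := hτn i (Nat.lt_succ_iff.1 (Finset.mem_Ico.1 hi).2)
      exact bandPart_mono hi'.1 hi'.2
    rcases le_total a b with h | h
    · rw [abs_of_nonpos (Finset.sum_nonpos fun i hi => sub_nonpos.2 (hmono i hi h)),
        ← Finset.sum_neg_distrib]
      exact Finset.sum_congr rfl fun i hi => abs_of_nonpos (sub_nonpos.2 (hmono i hi h))
    · rw [abs_of_nonneg (Finset.sum_nonneg fun i hi => sub_nonneg.2 (hmono i hi h))]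
      exact Finset.sum_congr rfl fun i hi => abs_of_nonneg (sub_nonneg.2 (hmono i hi h))
  have hτnn : ∀ i ≤ M + 1, 0 ≤ τ i := fun i hi => by
    rcases Nat.lt_or_ge i (M + 1) with h | h
    · exact (hτn i (by omega)).1.trans (hτn i (by omega)).2
    · rw [le_antisymm hi h, hτ0]
  have hS0 : 0 ≤ S := abs_nonneg _
  have hex : ∃ j, j ≤ M + 1 ∧ τ j ≤ S / 4 := ⟨M + 1, le_rfl, by rw [hτ0]; positivity⟩
  set j := Nat.find hex
  obtain ⟨hjM, hjS⟩ := Nat.find_spec hex
  set T := (Finset.range j).filter (fun i => D i ≠ 0) with hT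
  have hhead : S / 2 ≤ ∑ i ∈ T, D i := by
    have h0 : ∑ i ∈ Finset.range (M + 1), D i = S := by
      rw [Finset.range_eq_Ico, hsum 0 (Nat.zero_le _), clipTo_eq_self ha, clipTo_eq_self hb]
    have h1 : ∑ i ∈ Finset.Ico j (M + 1), D i ≤ S / 2 := by
      rw [hsum j hjM]
      have := abs_sub (clipTo (τ j) a) (clipTo (τ j) b)
      linarith [abs_clipTo_le (hτnn j hjM) a, abs_clipTo_le (hτnn j hjM) b]
    rw [← Finset.sum_range_add_sum_Ico D hjM] at h0
    rw [hT, Finset.sum_filter_ne_zero]
    linarith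
  set X := max (max |a| |b| - S) (S / 4) with hX
  have habs : max |a| |b| ≤ 5 * X := by
    linarith [le_max_left (max |a| |b| - S) (S / 4), le_max_right (max |a| |b| - S) (S / 4)]
  have hband : ∀ i ∈ T, X < τ i ∧ τ (i + 1) < 5 * X := by
    intro i hi
    obtain ⟨hij, hne⟩ := Finset.mem_filter.1 hi
    rw [Finset.mem_range] at hij
    have hst := hτn i (by omega)
    have hSi : S / 4 < τ i := by
      by_contra h
      exact Nat.find_min hex hij ⟨by omega, not_lt.1 h⟩
    constructor
    · refine max_lt ?_ hSi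
      by_contra h
      rw [not_lt] at h
      have hA := abs_sub_abs_le_abs_sub a b
      have hB := abs_sub_abs_le_abs_sub b a
      rw [abs_sub_comm b a, ← hS] at hB
      rw [← hS] at hA
      have hlo : τ i ≤ |a| ∧ τ i ≤ |b| := by
        rcases max_choice |a| |b| with hm | hm <;> rw [hm] at h <;> constructor <;> linarith
      apply hne
      have h0 : 0 ≤ τ i := hst.1.trans hst.2
      have hval : ∀ v, τ i ≤ v → bandPart (τ (i + 1)) (τ i) v = τ i - τ (i + 1) := fun v hv => by
        rw [bandPart, clipTo_eq_of_ge h0 hv, clipTo_eq_of_ge hst.1 (hst.2.trans hv)]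
      have hval' : ∀ v, v ≤ -τ i → bandPart (τ (i + 1)) (τ i) v = -(τ i - τ (i + 1)) := fun v hv => by
        rw [bandPart, clipTo_eq_of_le h0 hv, clipTo_eq_of_le hst.1 (by linarith)]
        ring
      rcases le_abs.1 hlo.1 with h1 | h1 <;> rcases le_abs.1 hlo.2 with h2 | h2
      · simp [D, hval a h1, hval b h2]
      · exfalso
        rcases max_choice |a| |b| with hm | hm <;> rw [hm] at h <;>
          rw [abs_of_nonneg (by linarith : 0 ≤ a - b)] at hS <;>
          [rw [abs_of_nonneg (by linarith : 0 ≤ a)] at h; rw [abs_of_nonpos (by linarith : b ≤ 0)] at h] <;>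
          linarith
      · exfalso
        rcases max_choice |a| |b| with hm | hm <;> rw [hm] at h <;>
          rw [abs_of_nonpos (by linarith : a - b ≤ 0)] at hS <;>
          [rw [abs_of_nonpos (by linarith : a ≤ 0)] at h; rw [abs_of_nonneg (by linarith : 0 ≤ b)] at h] <;>
          linarith
      · simp [D, hval' a (by linarith), hval' b (by linarith)]
    · by_contra h
      rw [not_lt] at h
      apply hne
      simp [D, bandPart_zero_of_le hst.2 ((le_max_left _ _).trans (habs.trans h)),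
        bandPart_zero_of_le hst.2 ((le_max_right _ _).trans (habs.trans h))]
  have hcard : T.card ≤ 4 := by
    rcases T.eq_empty_or_nonempty with he | he
    · simp [he]
    have hsub : T ⊆ Finset.Ico (T.min' he) (T.min' he + 4) := by
      intro i hi
      rw [Finset.mem_Ico]
      refine ⟨T.min'_le i hi, ?_⟩
      by_contra hlt
      set u := T.min' he with hu
      have h1 := (hband u (T.min'_mem he)).2
      have h2 := (hband i hi).1
      have hiM : i ≤ M := by
        have := Finset.mem_range.1 (Finset.mem_filter.1 hi).1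
        omega
      have hanti : ∀ l e, l + e ≤ M + 1 → τ (l + e) ≤ τ l := by
        intro l e
        induction e with
        | zero => intro _; exact le_rfl
        | succ e ih => intro he'; exact ((hτn (l + e) (by omega)).2).trans (ih (by omega))
      have h3 := hhalf (u + 1) (by omega)
      have h4 := hhalf (u + 2) (by omega)
      have h5 := hhalf (u + 3) (by omega)
      have h6 := hanti (u + 4) (i - (u + 4)) (by omega)
      rw [Nat.add_sub_cancel' (by omega : u + 4 ≤ i)] at h6
      linarith [le_max_right (max |a| |b| - S) (S / 4)]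
    exact (Finset.card_le_card hsub).trans (by simp)
  have hpow := Real.rpow_le_rpow (by positivity) hhead (by linarith : 0 ≤ p)
  have hmean := Real.rpow_sum_le_const_mul_sum_rpow T D hp
  simp only [abs_of_nonneg (hD0 _)] at hmean
  calc S ^ p = (2:ℝ) ^ p * (S / 2) ^ p := by
        rw [← Real.mul_rpow zero_le_two (by positivity)]; congr 1; ring
    _ ≤ (2:ℝ) ^ p * ((4:ℝ) ^ p * ∑ i ∈ Finset.range (M + 1), D i ^ p) := by
        refine mul_le_mul_of_nonneg_left (hpow.trans (hmean.trans ?_)) (by positivity)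
        refine mul_le_mul ?_ (Finset.sum_le_sum_of_subset_of_nonneg ?_ fun i _ _ => by positivity)
          (Finset.sum_nonneg fun i _ => by positivity) (by positivity)
        · calc ((T.card : ℕ) : ℝ) ^ (p - 1) ≤ (4:ℝ) ^ (p - 1) :=
                Real.rpow_le_rpow (Nat.cast_nonneg _) (by exact_mod_cast hcard) (by linarith)
            _ ≤ _ := Real.rpow_le_rpow_of_exponent_le (by norm_num) (by linarith)
        · exact (Finset.filter_subset _ _).trans (Finset.range_mono hjM)
    _ = _ := by rw [← mul_assoc, ← Real.mul_rpow (by norm_num) (by norm_num)]; norm_num [D]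

variable {ι : Type*} [Fintype ι]

/-- Weight of a random subset of density `ρ`. -/
def subW (ρ : ℝ) (Q : ι → Bool) : ℝ := ∏ i, if Q i then ρ else 1 - ρ

theorem subW_nonneg {ρ : ℝ} (h0 : 0 ≤ ρ) (h1 : ρ ≤ 1) (Q : ι → Bool) : 0 ≤ subW ρ Q :=
  Finset.prod_nonneg fun i _ => by split_ifs <;> linarith

theorem sum_subW_prod [DecidableEq ι] (ρ : ℝ) (g : ι → Bool → ℝ) :
    ∑ Q : ι → Bool, subW ρ Q * ∏ i, g i (Q i) = ∏ i, (ρ * g i true + (1 - ρ) * g i false) := by
  have h := Fintype.prod_sum (fun i (b : Bool) => (if b then ρ else 1 - ρ) * g i b)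
  simp only [Fintype.sum_bool, if_true, Bool.false_eq_true, if_false] at h
  rw [h]
  exact Finset.sum_congr rfl fun Q _ => by rw [subW, Finset.prod_mul_distrib]

theorem sum_subW [DecidableEq ι] (ρ : ℝ) : ∑ Q : ι → Bool, subW ρ Q = 1 := by
  simpa using sum_subW_prod (ι := ι) ρ (fun _ _ => 1)

/-- The selected sum. -/
def subSum (Q : ι → Bool) (a : ι → ℝ) : ℝ := ∑ i, if Q i then a i else 0

theorem subSum_sub (Q : ι → Bool) (a b : ι → ℝ) :
    subSum Q (fun i => a i - b i) = subSum Q a - subSum Q b := by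
  simp only [subSum, ← Finset.sum_sub_distrib]
  exact Finset.sum_congr rfl fun i _ => by split_ifs <;> ring

/-- Constant of the sparse-subsampling upper bound. -/
noncomputable def subConst (p : ℝ) : ℝ := (⌈p⌉₊.factorial : ℝ) * Real.exp 2

theorem subConst_pos (p : ℝ) : 0 < subConst p := by
  have : (0:ℝ) < (⌈p⌉₊.factorial : ℝ) := by exact_mod_cast Nat.factorial_pos _
  unfold subConst; positivity

/-- At density at most `1/(2|S|)`, selected sums are as small as single terms. -/
theorem subSum_moment_le [DecidableEq ι] {p ρ : ℝ} (hp : 1 ≤ p) (hρ0 : 0 ≤ ρ) (hρ1 : ρ ≤ 1)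
    (S : Finset ι) (hρ : ρ * S.card ≤ 1 / 2) (a : ι → ℝ) (ha : ∀ i, i ∉ S → a i = 0) :
    ∑ Q : ι → Bool, subW ρ Q * |subSum Q a| ^ p ≤ subConst p * ρ * ∑ i, |a i| ^ p := by
  set K := (⌈p⌉₊.factorial : ℝ) with hK
  have hK0 : 0 < K := by simp only [hK]; exact_mod_cast Nat.factorial_pos _
  let g : ι → ι → Bool → ℝ := fun i j b =>
    if j = i then (if b then 1 else 0) else (if j ∈ S ∧ b = true then Real.exp 1 else 1)
  have hpt : ∀ Q : ι → Bool, |subSum Q a| ^ p ≤
      K * Real.exp 1 * ∑ i, |a i| ^ p * ∏ j, g i j (Q j) := by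
    intro Q
    set U := S.filter (fun i => Q i = true) with hU
    have hsum : subSum Q a = ∑ i ∈ U, a i := by
      rw [subSum, hU, Finset.sum_filter]
      refine (Finset.sum_subset (Finset.subset_univ S) ?_).symm
      intro i _ hi
      simp [ha i hi]
    have hpow := Real.rpow_sum_le_const_mul_sum_rpow U a hp
    have hfac : ((U.card : ℕ) : ℝ) ^ (p - 1) * ∑ i ∈ U, |a i| ^ p ≤
        ∑ i ∈ U, |a i| ^ p * (K * Real.exp 1 * Real.exp ((U.card : ℝ) - 1)) := by
      rw [Finset.mul_sum]
      refine Finset.sum_le_sum fun i hi => ?_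
      rw [mul_comm]
      refine mul_le_mul_of_nonneg_left ?_ (by positivity)
      have h1 : (1:ℝ) ≤ U.card := by exact_mod_cast Finset.card_pos.2 ⟨i, hi⟩
      have h2 : ((U.card : ℕ) : ℝ) ^ (p - 1) ≤ ((U.card : ℕ) : ℝ) ^ (⌈p⌉₊ : ℕ) := by
        rw [← Real.rpow_natCast]
        exact Real.rpow_le_rpow_of_exponent_le h1 (by linarith [Nat.le_ceil p])
      have h3 := Real.pow_div_factorial_le_exp (U.card : ℝ) (by linarith) ⌈p⌉₊
      rw [div_le_iff₀ hK0] at h3
      refine h2.trans (h3.trans (le_of_eq ?_))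
      rw [mul_assoc K, ← Real.exp_add]; ring_nf
    rw [hsum]
    refine (Real.rpow_le_rpow (abs_nonneg _) (Finset.abs_sum_le_sum_abs _ _) (by linarith)).trans
      (hpow.trans (hfac.trans ?_))
    rw [Finset.mul_sum]
    refine le_trans (le_of_eq ?_) (Finset.sum_le_sum_of_subset_of_nonneg (Finset.subset_univ U) ?_)
    · refine Finset.sum_congr rfl fun i hi => ?_
      obtain ⟨hiS, hiQ⟩ := Finset.mem_filter.1 hi
      have hprod : ∏ j, g i j (Q j) = Real.exp ((U.card : ℝ) - 1) := by
        rw [← Finset.mul_prod_erase _ _ (Finset.mem_univ i)]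
        have h1 : g i i (Q i) = 1 := by simp [g, hiQ]
        rw [h1, one_mul]
        calc ∏ j ∈ Finset.univ.erase i, g i j (Q j)
            = ∏ j ∈ Finset.univ.erase i, (if j ∈ U then Real.exp 1 else 1) := by
              refine Finset.prod_congr rfl fun j hj => ?_
              simp only [g, if_neg (Finset.ne_of_mem_erase hj), hU, Finset.mem_filter]
          _ = Real.exp 1 ^ (U.erase i).card := by
              rw [Finset.prod_ite, Finset.prod_const, Finset.prod_const_one, mul_one]
              congr 2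
              ext j
              simp only [Finset.mem_filter, Finset.mem_erase, Finset.mem_univ, and_true]
          _ = _ := by
              rw [← Real.exp_nat_mul, mul_one, Finset.card_erase_of_mem hi]
              congr 1
              have : 1 ≤ U.card := Finset.card_pos.2 ⟨i, hi⟩
              push_cast [this]
              ring
      rw [hprod]; ring
    · intro i _ _
      refine mul_nonneg (by positivity) (mul_nonneg (by positivity) (Finset.prod_nonneg fun j _ => ?_))
      simp only [g]; split_ifs <;> positivity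
  refine (Finset.sum_le_sum fun Q _ => mul_le_mul_of_nonneg_left (hpt Q)
    (subW_nonneg hρ0 hρ1 Q)).trans ?_
  have hterm : ∀ i, ∑ Q : ι → Bool, subW ρ Q * ∏ j, g i j (Q j) ≤ ρ * Real.exp 1 := by
    intro i
    rw [sum_subW_prod, ← Finset.mul_prod_erase _ _ (Finset.mem_univ i)]
    have h1 : ρ * g i i true + (1 - ρ) * g i i false = ρ := by simp [g]
    rw [h1]
    refine mul_le_mul_of_nonneg_left ?_ hρ0
    calc ∏ j ∈ Finset.univ.erase i, (ρ * g i j true + (1 - ρ) * g i j false)
        ≤ ∏ j ∈ Finset.univ.erase i, Real.exp (if j ∈ S then 2 * ρ else 0) := by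
          refine Finset.prod_le_prod (fun j _ => ?_) (fun j hj => ?_)
          · refine add_nonneg (mul_nonneg hρ0 ?_) (mul_nonneg (by linarith) ?_) <;>
              simp only [g] <;> split_ifs <;> positivity
          · simp only [g, if_neg (Finset.ne_of_mem_erase hj)]
            by_cases hjS : j ∈ S
            · simp only [hjS, true_and, if_true, Bool.false_eq_true, if_false, mul_one]
              have := Real.add_one_le_exp (2 * ρ)
              nlinarith [Real.exp_one_lt_d9, Real.exp_pos (2 * ρ)]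
            · simp [hjS]
      _ ≤ Real.exp 1 := by
          rw [← Real.exp_sum]
          refine Real.exp_le_exp.2 ?_
          calc ∑ j ∈ Finset.univ.erase i, (if j ∈ S then 2 * ρ else 0)
              ≤ ∑ j, (if j ∈ S then 2 * ρ else 0) :=
                Finset.sum_le_sum_of_subset_of_nonneg (Finset.erase_subset _ _)
                  (fun j _ _ => by split_ifs <;> linarith)
            _ = 2 * (ρ * S.card) := by
                rw [Finset.sum_ite_mem, Finset.univ_inter, Finset.sum_const, nsmul_eq_mul]; ring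
            _ ≤ 1 := by linarith
  calc ∑ Q : ι → Bool, subW ρ Q * (K * Real.exp 1 * ∑ i, |a i| ^ p * ∏ j, g i j (Q j))
      = K * Real.exp 1 * ∑ i, |a i| ^ p * ∑ Q : ι → Bool, subW ρ Q * ∏ j, g i j (Q j) := by
        simp only [Finset.mul_sum]
        rw [Finset.sum_comm]
        exact Finset.sum_congr rfl fun i _ => Finset.sum_congr rfl fun Q _ => by ring
    _ ≤ K * Real.exp 1 * ∑ i, |a i| ^ p * (ρ * Real.exp 1) := by
        refine mul_le_mul_of_nonneg_left (Finset.sum_le_sum fun i _ =>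
          mul_le_mul_of_nonneg_left (hterm i) (by positivity)) (by positivity)
    _ = _ := by
        rw [← Finset.sum_mul, subConst, ← hK, show (2:ℝ) = 1 + 1 by norm_num, Real.exp_add]
        ring

/-- Lower bound: one selected index alone. -/
theorem subSum_single_ge [DecidableEq ι] {ρ : ℝ} (hρ0 : 0 ≤ ρ) (hρ1 : ρ ≤ 1)
    (S : Finset ι) (hρ : ρ * S.card ≤ 1 / 2) (F : (ι → Bool) → ℝ) (hF : ∀ Q, 0 ≤ F Q)
    (v : ι → ℝ) (hv : ∀ i, 0 ≤ v i)
    (hsingle : ∀ i ∈ S, ∀ Q : ι → Bool, Q i = true → (∀ j ∈ S, j ≠ i → Q j = false) → v i ≤ F Q) :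
    ρ / 2 * ∑ i ∈ S, v i ≤ ∑ Q : ι → Bool, subW ρ Q * F Q := by
  let g : ι → ι → Bool → ℝ := fun i j b =>
    if j = i then (if b then 1 else 0) else (if j ∈ S ∧ b = true then 0 else 1)
  have hpt : ∀ Q : ι → Bool, ∑ i ∈ S, v i * ∏ j, g i j (Q j) ≤ F Q := by
    intro Q
    have hzero : ∀ i ∈ S, ¬ (Q i = true ∧ ∀ j ∈ S, j ≠ i → Q j = false) →
        v i * ∏ j, g i j (Q j) = 0 := by
      intro i _ hi
      refine mul_eq_zero_of_right _ (Finset.prod_eq_zero_iff.2 ?_)
      by_cases hQi : Q i = true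
      · simp only [hQi, true_and, not_forall] at hi
        obtain ⟨j, hjS, hji, hQj⟩ := hi
        exact ⟨j, Finset.mem_univ j, by
          simp only [g, if_neg hji, hjS, true_and]
          rw [Bool.not_eq_false] at hQj
          rw [if_pos hQj]⟩
      · exact ⟨i, Finset.mem_univ i, by simp [g, Bool.not_eq_true] at hQi ⊢; simp [hQi]⟩
    by_cases h : ∃ i ∈ S, Q i = true ∧ ∀ j ∈ S, j ≠ i → Q j = false
    · obtain ⟨i, hiS, hQi, hothers⟩ := h
      rw [Finset.sum_eq_single_of_mem i hiS (fun j hj hne => hzero j hj (fun hc => by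
        rw [hothers j hj hne] at hc; exact Bool.false_ne_true hc.1))]
      refine le_trans ?_ (hsingle i hiS Q hQi hothers)
      refine mul_le_of_le_one_right (hv i) (Finset.prod_le_one (fun j _ => ?_) (fun j _ => ?_)) <;>
        simp only [g] <;> split_ifs <;> norm_num
    · push Not at h
      rw [Finset.sum_eq_zero fun i hi => hzero i hi (fun hc => by
        obtain ⟨j, hj, hne, hQ⟩ := h i hi hc.1
        exact absurd (hc.2 j hj hne) hQ)]
      exact hF Q
  refine le_trans ?_ (Finset.sum_le_sum fun Q _ => mul_le_mul_of_nonneg_left (hpt Q)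
    (subW_nonneg hρ0 hρ1 Q))
  simp only [Finset.mul_sum]
  rw [Finset.sum_comm]
  refine Finset.sum_le_sum fun i hi => ?_
  simp only [mul_left_comm (subW ρ _) (v i), ← Finset.mul_sum]
  rw [mul_comm (ρ / 2)]
  refine mul_le_mul_of_nonneg_left ?_ (hv i)
  rw [sum_subW_prod, ← Finset.mul_prod_erase _ _ (Finset.mem_univ i)]
  have h1 : ρ * g i i true + (1 - ρ) * g i i false = ρ := by simp [g]
  rw [h1, div_eq_mul_inv]
  refine mul_le_mul_of_nonneg_left ?_ hρ0
  calc (2:ℝ)⁻¹ ≤ 1 + (S.card : ℝ) * (-ρ) := by linarith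
    _ ≤ (1 + -ρ) ^ S.card := one_add_mul_le_pow (by linarith) _
    _ = ∏ j, (if j ∈ S then 1 - ρ else 1) := by
        rw [Finset.prod_ite_mem, Finset.univ_inter, Finset.prod_const, ← sub_eq_add_neg]
    _ ≤ _ := by
        rw [← Finset.mul_prod_erase _ _ (Finset.mem_univ i), if_pos hi]
        refine (mul_le_of_le_one_left (Finset.prod_nonneg fun j _ => by split_ifs <;> linarith)
          (by linarith)).trans (le_of_eq ?_)
        refine Finset.prod_congr rfl fun j hj => ?_
        simp only [g, if_neg (Finset.ne_of_mem_erase hj)]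
        by_cases hjS : j ∈ S <;> simp [hjS]

end Vale.Agent.P249
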