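import Vale.Agent.P249.Partition
import Vale.Agent.P249.Levels
import Vale.Agent.P249.Empirical

/-!
Window maps for every `p ≥ 1`: amplitude bands of the vector to a random centre, sparsely
subsampled and cut off at the cluster boundary.
-/

namespace Vale.Agent.P249

open Finset

variable {n K₀ : ℕ} {p : ℝ}

/-- Amplitude thresholds: `U 2^{-ki}` for `i ≤ M`, then `0`. -/
noncomputable def levelTau (k M : ℕ) (U : ℝ) (i : ℕ) : ℝ :=
  if i ≤ M then U / ((2:ℝ) ^ k) ^ i else 0

/-- Support bound of a level. -/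
noncomputable def levelN (k M K₀ : ℕ) (p : ℝ) (i : ℕ) : ℝ :=
  if i < M then (((2:ℝ) ^ k) ^ (i + 1)) ^ p else (K₀ : ℝ) + 1

/-- Sampling density of a level. -/
noncomputable def levelRho (k M K₀ : ℕ) (p : ℝ) (i : ℕ) : ℝ := (4 * levelN k M K₀ p i)⁻¹

/-- The band vector of `x` relative to a centre `z`. -/
noncomputable def bandVec (k M : ℕ) (U : ℝ) (a : Fin n → Fin K₀ → ℝ) (i : ℕ) (z x : Fin n)
    (s : Fin K₀) : ℝ :=
  bandPart (levelTau k M U (i + 1)) (levelTau k M U i) (a x s - a z s)

theorem levelTau_zero (k M : ℕ) (U : ℝ) : levelTau k M U 0 = U := by simp [levelTau]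

theorem levelTau_last (k M : ℕ) (U : ℝ) : levelTau k M U (M + 1) = 0 := by simp [levelTau]

theorem levelTau_step {k M : ℕ} {U : ℝ} (hU : 0 ≤ U) (i : ℕ) (hi : i ≤ M) :
    0 ≤ levelTau k M U (i + 1) ∧ levelTau k M U (i + 1) ≤ levelTau k M U i := by
  unfold levelTau
  rw [if_pos hi]
  split_ifs with h
  · refine ⟨by positivity, div_le_div_of_nonneg_left hU (by positivity) ?_⟩
    exact pow_le_pow_right₀ (one_le_pow₀ one_le_two) (Nat.le_succ i)
  · exact ⟨le_rfl, by positivity⟩

theorem levelTau_half {k M : ℕ} (hk : 1 ≤ k) {U : ℝ} (hU : 0 ≤ U) (i : ℕ) (hi : i ≤ M) :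
    2 * levelTau k M U (i + 1) ≤ levelTau k M U i := by
  unfold levelTau
  rw [if_pos hi]
  split_ifs with h
  · rw [pow_succ, ← div_div, ← mul_div_assoc, div_le_iff₀ (by positivity), mul_comm]
    exact mul_le_mul_of_nonneg_left (le_self_pow₀ one_le_two (by omega)) (by positivity)
  · rw [mul_zero]; positivity

theorem levelN_ge_one (k M K₀ : ℕ) (hp : 0 ≤ p) (i : ℕ) : 1 ≤ levelN k M K₀ p i := by
  unfold levelN
  split_ifs
  · exact Real.one_le_rpow (one_le_pow₀ (one_le_pow₀ one_le_two)) hp
  · linarith [(Nat.cast_nonneg K₀ : (0:ℝ) ≤ K₀)]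

theorem levelRho_bounds (k M K₀ : ℕ) (hp : 0 ≤ p) (i : ℕ) :
    0 < levelRho k M K₀ p i ∧ levelRho k M K₀ p i ≤ 1 := by
  have h := levelN_ge_one k M K₀ hp i
  exact ⟨inv_pos.2 (by linarith), inv_le_one_of_one_le₀ (by linarith)⟩

/-- The support of a band vector. -/
noncomputable def bandSupp (k M : ℕ) (U : ℝ) (a : Fin n → Fin K₀ → ℝ) (i : ℕ) (z x : Fin n) :
    Finset (Fin K₀) := by
  classical
  exact Finset.univ.filter (fun s => bandVec k M U a i z x s ≠ 0)

theorem bandVec_eq_zero_of_notMem {k M : ℕ} {U : ℝ} {a : Fin n → Fin K₀ → ℝ} {i : ℕ}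
    {z x : Fin n} {s : Fin K₀} (h : s ∉ bandSupp k M U a i z x) :
    bandVec k M U a i z x s = 0 := by
  simpa [bandSupp] using h

theorem bandSupp_card (hp : 1 ≤ p) {k M : ℕ} {U : ℝ} (hU : 0 < U) (a : Fin n → Fin K₀ → ℝ)
    {i : ℕ} (hi : i ≤ M) {z x : Fin n} (hx : ∑ s, |a x s - a z s| ^ p ≤ U ^ p) :
    ((bandSupp k M U a i z x).card : ℝ) ≤ levelN k M K₀ p i := by
  classical
  have hp0 : 0 < p := by linarith
  unfold levelN
  split_ifs with hiM
  · set l := levelTau k M U (i + 1)
    have hl : l = U / ((2:ℝ) ^ k) ^ (i + 1) := by simp [l, levelTau, (by omega : i + 1 ≤ M)]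
    have hl0 : 0 < l := by rw [hl]; positivity
    have hstep := levelTau_step (k := k) hU.le i hi
    have h1 : ((bandSupp k M U a i z x).card : ℝ) * l ^ p ≤ U ^ p := by
      refine le_trans ?_ hx
      calc ((bandSupp k M U a i z x).card : ℝ) * l ^ p
          = ∑ _s ∈ bandSupp k M U a i z x, l ^ p := by simp [nsmul_eq_mul]
        _ ≤ ∑ s ∈ bandSupp k M U a i z x, |a x s - a z s| ^ p := by
            refine Finset.sum_le_sum fun s hs => ?_
            simp only [bandSupp, Finset.mem_filter, Finset.mem_univ, true_and] at hs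
            refine Real.rpow_le_rpow hl0.le ?_ hp0.le
            by_contra hlt
            push Not at hlt
            exact hs (bandPart_zero_of_le hstep.2 hlt.le)
        _ ≤ _ := Finset.sum_le_sum_of_subset_of_nonneg (Finset.subset_univ _)
            (fun s _ _ => by positivity)
    rw [← le_div_iff₀ (Real.rpow_pos_of_pos hl0 p), ← Real.div_rpow hU.le hl0.le, hl,
      div_div_cancel₀ hU.ne'] at h1
    exact h1
  · have := Finset.card_le_univ (bandSupp k M U a i z x)
    rw [Fintype.card_fin] at this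
    have h : ((bandSupp k M U a i z x).card : ℝ) ≤ K₀ := by exact_mod_cast this
    linarith

variable [PseudoMetricSpace (Fin n)]

/-- One random scalar coordinate. -/
noncomputable def scalarMap (k M : ℕ) (p U η t : ℝ) (a : Fin n → Fin K₀ → ℝ)
    (π : Equiv.Perm (Fin n)) (i : ℕ) (Q : Fin K₀ → Bool) (x : Fin n) : ℝ :=
  ((levelRho k M K₀ p i)⁻¹) ^ p⁻¹ * (cutoff π η t x *
    clipTo (levelTau k M U i) (subSum Q (bandVec k M U a i (centre π t x) x)))

/-- The `p`-th power of a difference of one scalar coordinate. -/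
noncomputable def scalarDiff (k M : ℕ) (p U η t : ℝ) (a : Fin n → Fin K₀ → ℝ)
    (π : Equiv.Perm (Fin n)) (i : ℕ) (x y : Fin n) (Q : Fin K₀ → Bool) : ℝ :=
  |scalarMap k M p U η t a π i Q x - scalarMap k M p U η t a π i Q y| ^ p

theorem scalarDiff_le_top (hp : 1 ≤ p) {k M : ℕ} {U η t : ℝ} (hU : 0 ≤ U) (hη : 0 ≤ η)
    (ht : 0 ≤ t)
    (hK : (K₀ : ℝ) + 1 ≤ ((2:ℝ) ^ k) ^ M) (a : Fin n → Fin K₀ → ℝ) (π : Equiv.Perm (Fin n))
    {i : ℕ} (hi : i ≤ M) (x y : Fin n) (Q : Fin K₀ → Bool) :
    scalarDiff k M p U η t a π i x y Q ≤ 4 * (2:ℝ) ^ p * (U ^ p * ((2:ℝ) ^ k) ^ p) := by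
  have hp0 : 0 < p := by linarith
  set τ := levelTau k M U i with hτ
  have hτi : τ = U / ((2:ℝ) ^ k) ^ i := by simp [hτ, levelTau, hi]
  have hτ0 : 0 ≤ τ := by rw [hτi]; positivity
  obtain ⟨hρ0, -⟩ := levelRho_bounds k M K₀ hp0.le i
  have hb : ∀ z, |scalarMap k M p U η t a π i Q z| ≤ ((levelRho k M K₀ p i)⁻¹) ^ p⁻¹ * τ := by
    intro z
    rw [scalarMap, abs_mul, abs_of_nonneg (by positivity : (0:ℝ) ≤ ((levelRho k M K₀ p i)⁻¹) ^ p⁻¹)]
    refine mul_le_mul_of_nonneg_left ?_ (by positivity)
    rw [abs_mul, abs_of_nonneg (cutoff_nonneg π hη ht z)]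
    exact (mul_le_of_le_one_left (abs_nonneg _) (cutoff_le_one π η t z)).trans (abs_clipTo_le hτ0 _)
  refine (Real.rpow_le_rpow (abs_nonneg _) ((abs_sub _ _).trans (add_le_add (hb x) (hb y)))
    hp0.le).trans ?_
  rw [← two_mul, Real.mul_rpow zero_le_two (by positivity), Real.mul_rpow (by positivity) hτ0,
    Real.rpow_inv_rpow (by positivity) hp0.ne', levelRho, inv_inv]
  calc (2:ℝ) ^ p * (4 * levelN k M K₀ p i * τ ^ p)
      = 4 * (2:ℝ) ^ p * (levelN k M K₀ p i * τ ^ p) := by ring
    _ ≤ _ := by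
        refine mul_le_mul_of_nonneg_left ?_ (by positivity)
        have hq : (1:ℝ) ≤ (2:ℝ) ^ k := one_le_pow₀ one_le_two
        unfold levelN
        split_ifs with hiM
        · rw [hτi, pow_succ, Real.mul_rpow (by positivity) (by positivity),
            Real.div_rpow hU (by positivity)]
          have : (((2:ℝ) ^ k) ^ i) ^ p ≠ 0 := (Real.rpow_pos_of_pos (by positivity) p).ne'
          field_simp
          exact le_rfl
        · have : i = M := by omega
          subst this
          rw [hτi, Real.div_rpow hU (by positivity)]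
          have h1 : (K₀:ℝ) + 1 ≤ (((2:ℝ) ^ k) ^ i) ^ p :=
            hK.trans (Real.self_le_rpow_of_one_le (one_le_pow₀ hq) hp)
          have h2 : 0 < (((2:ℝ) ^ k) ^ i) ^ p := Real.rpow_pos_of_pos (by positivity) p
          have h3 : (1:ℝ) ≤ ((2:ℝ) ^ k) ^ p := Real.one_le_rpow hq hp0.le
          calc ((K₀:ℝ) + 1) * (U ^ p / (((2:ℝ) ^ k) ^ i) ^ p)
              ≤ (((2:ℝ) ^ k) ^ i) ^ p * (U ^ p / (((2:ℝ) ^ k) ^ i) ^ p) := by gcongr
            _ = U ^ p := by field_simp
            _ ≤ _ := le_mul_of_one_le_right (by positivity) h3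

theorem scalarDiff_mean_le (hp : 1 ≤ p) {k M : ℕ} {U η t : ℝ} (hU : 0 < U) (hη : 0 < η) (hη1 : η ≤ 1)
    (ht : 0 < t)
    (htU : t ≤ U) (a : Fin n → Fin K₀ → ℝ)
    (hdist : ∀ x y, dist x y ^ p = ∑ s, |a x s - a y s| ^ p)
    (π : Equiv.Perm (Fin n)) (x y : Fin n) :
    ∑ i : Fin (M + 1), ∑ Q : Fin K₀ → Bool,
        subW (levelRho k M K₀ p i) Q * scalarDiff k M p U η t a π i x y Q ≤
      (2:ℝ) ^ p * subConst p * ((min (dist x y) (2 * t)) ^ p +
        2 * min ((2 / η) ^ p * (min (dist x y) (2 * t)) ^ p) (t ^ p)) := by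
  classical
  have hp0 : 0 < p := by linarith
  set cx := centre π t x with hcx
  set cy := centre π t y with hcy
  set r := dist x y with hr
  have hr0 : 0 ≤ r := dist_nonneg
  have hC := subConst_pos p
  set G := (min 1 (2 * r / (η * t))) ^ p with hG
  have hG0 : 0 ≤ G := by positivity
  let Ψ : Fin n → ℕ → ℝ := fun w i => ∑ s, |bandVec k M U a i (centre π t w) w s| ^ p
  let Δ : ℕ → ℝ := fun i =>
    if cy = cx then ∑ s, |bandVec k M U a i cx x s - bandVec k M U a i cx y s| ^ p else 0
  have hnear : ∀ w, ∑ s, |a w s - a (centre π t w) s| ^ p ≤ t ^ p := fun w => by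
    rw [← hdist]; exact Real.rpow_le_rpow dist_nonneg (dist_centre_le π ht.le w) hp0.le
  have htUp : t ^ p ≤ U ^ p := Real.rpow_le_rpow ht.le htU hp0.le
  have hone : ∀ i : Fin (M + 1), ∑ Q : Fin K₀ → Bool,
      subW (levelRho k M K₀ p i) Q * scalarDiff k M p U η t a π i x y Q ≤
        (2:ℝ) ^ p * subConst p * (Δ i + G * (Ψ x i + Ψ y i)) := by
    intro i
    have hiM : (i : ℕ) ≤ M := Nat.lt_succ_iff.1 i.2
    obtain ⟨hρ0, hρ1⟩ := levelRho_bounds k M K₀ hp0.le (i : ℕ)
    set ρ := levelRho k M K₀ p i with hρdef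
    set τ := levelTau k M U i
    have hτ0 : 0 ≤ τ := le_trans (levelTau_step (k := k) hU.le (i:ℕ) hiM).1
      (levelTau_step (k := k) hU.le (i:ℕ) hiM).2
    have hN := levelN_ge_one k M K₀ hp0.le (i : ℕ)
    have hsupp : ∀ S : Finset (Fin K₀), (S.card : ℝ) ≤ 2 * levelN k M K₀ p i →
        ρ * S.card ≤ 1 / 2 := by
      intro S hS
      rw [hρdef, levelRho, inv_mul_le_iff₀ (by linarith)]
      linarith
    have hsolo : ∀ w, ∑ Q : Fin K₀ → Bool,
        subW ρ Q * |clipTo τ (subSum Q (bandVec k M U a i (centre π t w) w))| ^ p ≤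
          subConst p * ρ * Ψ w i := by
      intro w
      refine le_trans (Finset.sum_le_sum fun Q _ => mul_le_mul_of_nonneg_left
        (Real.rpow_le_rpow (abs_nonneg _) (abs_clipTo_le_abs hτ0 _) hp0.le)
        (subW_nonneg hρ0.le hρ1 Q)) ?_
      exact subSum_moment_le hp hρ0.le hρ1 (bandSupp k M U a i (centre π t w) w)
        (hsupp _ (by
          have := bandSupp_card (k := k) hp hU a hiM ((hnear w).trans htUp)
          linarith))
        _ (fun s hs => bandVec_eq_zero_of_notMem hs)
    set A : Fin n → (Fin K₀ → Bool) → ℝ :=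
      fun w Q => clipTo τ (subSum Q (bandVec k M U a i (centre π t w) w))
    have hscale : ∀ Q, scalarDiff k M p U η t a π i x y Q =
        ρ⁻¹ * |cutoff π η t x * A x Q - cutoff π η t y * A y Q| ^ p := by
      intro Q
      simp only [scalarDiff, scalarMap, A, τ, ← hρdef]
      rw [← mul_sub, abs_mul, Real.mul_rpow (abs_nonneg _) (abs_nonneg _),
        abs_of_nonneg (by positivity : (0:ℝ) ≤ (ρ⁻¹) ^ p⁻¹),
        Real.rpow_inv_rpow (by positivity) hp0.ne']
    have hpow2 : ∀ u v : ℝ, 0 ≤ u → 0 ≤ v → (u + v) ^ p ≤ (2:ℝ) ^ p * (u ^ p + v ^ p) := by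
      intro u v hu hv
      have h := Real.rpow_le_rpow (by linarith) (add_le_add (le_max_left u v) (le_max_right u v))
        hp0.le
      rw [← two_mul, Real.mul_rpow zero_le_two (le_max_of_le_left hu)] at h
      refine h.trans (mul_le_mul_of_nonneg_left ?_ (by positivity))
      rcases le_total u v with huv | huv
      · rw [max_eq_right huv]; linarith [Real.rpow_nonneg hu p]
      · rw [max_eq_left huv]; linarith [Real.rpow_nonneg hv p]
    have hcut1 : ∀ w, |cutoff π η t w| ≤ 1 := fun w => by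
      rw [abs_of_nonneg (cutoff_nonneg π hη.le ht.le w)]; exact cutoff_le_one π η t w
    simp only [hscale, mul_left_comm _ ρ⁻¹ _, ← Finset.mul_sum]
    rw [inv_mul_le_iff₀ hρ0]
    by_cases hsame : cy = cx
    · have hθ : |cutoff π η t x - cutoff π η t y| ≤ min 1 (2 * r / (η * t)) := by
        refine le_min ?_ ?_
        · rw [abs_le]
          have := cutoff_le_one π η t x; have := cutoff_le_one π η t y
          have := cutoff_nonneg π hη.le ht.le x; have := cutoff_nonneg π hη.le ht.le y
          constructor <;> linarith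
        · rw [abs_le]
          have h1 := cutoff_sub_le π hη ht hsame
          have h2 := cutoff_sub_le π hη ht (x := y) (y := x) hsame.symm
          rw [dist_comm y x] at h2
          constructor <;> linarith
      have hpt : ∀ Q, |cutoff π η t x * A x Q - cutoff π η t y * A y Q| ^ p ≤ (2:ℝ) ^ p *
          (|subSum Q (fun s => bandVec k M U a i cx x s - bandVec k M U a i cx y s)| ^ p +
            G * |A y Q| ^ p) := by
        intro Q
        have e : cutoff π η t x * A x Q - cutoff π η t y * A y Q =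
            cutoff π η t x * (A x Q - A y Q) + (cutoff π η t x - cutoff π η t y) * A y Q := by ring
        rw [e]
        refine (Real.rpow_le_rpow (abs_nonneg _) (abs_add_le _ _) hp0.le).trans
          ((hpow2 _ _ (abs_nonneg _) (abs_nonneg _)).trans ?_)
        refine mul_le_mul_of_nonneg_left (add_le_add ?_ ?_) (by positivity)
        · refine Real.rpow_le_rpow (abs_nonneg _) ?_ hp0.le
          rw [abs_mul]
          refine (mul_le_of_le_one_left (abs_nonneg _) (hcut1 x)).trans
            ((abs_clipTo_sub_le _ _ _).trans (le_of_eq ?_))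
          rw [subSum_sub, ← hcy, hsame, ← hcx]
        · rw [abs_mul, Real.mul_rpow (abs_nonneg _) (abs_nonneg _)]
          exact mul_le_mul_of_nonneg_right (Real.rpow_le_rpow (abs_nonneg _) hθ hp0.le)
            (by positivity)
      refine (Finset.sum_le_sum fun Q _ => mul_le_mul_of_nonneg_left (hpt Q)
        (subW_nonneg hρ0.le hρ1 Q)).trans ?_
      have hdiff : ∑ Q : Fin K₀ → Bool, subW ρ Q *
          |subSum Q (fun s => bandVec k M U a i cx x s - bandVec k M U a i cx y s)| ^ p ≤
          subConst p * ρ * Δ i := by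
        simp only [Δ, if_pos hsame]
        refine subSum_moment_le hp hρ0.le hρ1
          (bandSupp k M U a i cx x ∪ bandSupp k M U a i cx y) (hsupp _ ?_) _ ?_
        · have h1 := bandSupp_card (k := k) hp hU a hiM ((hnear x).trans htUp)
          have h2 := bandSupp_card (k := k) hp hU a hiM ((hnear y).trans htUp)
          rw [← hcx] at h1
          rw [← hcy, hsame] at h2
          have h3 : (((bandSupp k M U a i cx x ∪ bandSupp k M U a i cx y).card : ℕ) : ℝ) ≤
              (((bandSupp k M U a i cx x).card + (bandSupp k M U a i cx y).card : ℕ) : ℝ) := by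
            exact_mod_cast Finset.card_union_le _ _
          push_cast at h3
          linarith
        · intro s hs
          rw [Finset.mem_union, not_or] at hs
          rw [bandVec_eq_zero_of_notMem hs.1, bandVec_eq_zero_of_notMem hs.2, sub_zero]
      have h2 := hsolo y
      simp only [mul_add, Finset.sum_add_distrib, mul_left_comm (subW ρ _) ((2:ℝ) ^ p),
        ← Finset.mul_sum, mul_left_comm (subW ρ _) G]
      have hΨx : 0 ≤ Ψ x i := Finset.sum_nonneg fun s _ => by positivity
      calc _ ≤ (2:ℝ) ^ p * (subConst p * ρ * Δ i) +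
            (2:ℝ) ^ p * (G * (subConst p * ρ * Ψ y i)) := by
            exact add_le_add (mul_le_mul_of_nonneg_left hdiff (by positivity))
              (mul_le_mul_of_nonneg_left (mul_le_mul_of_nonneg_left h2 hG0) (by positivity))
        _ ≤ _ := by
            have : 0 ≤ (2:ℝ) ^ p * (G * (subConst p * ρ * Ψ x i)) := by positivity
            linarith
    · have hθ : ∀ w w', centre π t w' ≠ centre π t w → dist w w' = r →
          |cutoff π η t w| ≤ min 1 (2 * r / (η * t)) := by
        intro w w' hne hd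
        refine le_min (hcut1 w) ?_
        rw [abs_of_nonneg (cutoff_nonneg π hη.le ht.le w), ← hd]
        exact cutoff_le_of_ne π η t hne
      have hpt : ∀ Q, |cutoff π η t x * A x Q - cutoff π η t y * A y Q| ^ p ≤ (2:ℝ) ^ p *
          (G * |A x Q| ^ p + G * |A y Q| ^ p) := by
        intro Q
        refine (Real.rpow_le_rpow (abs_nonneg _) (abs_sub _ _) hp0.le).trans
          ((hpow2 _ _ (abs_nonneg _) (abs_nonneg _)).trans ?_)
        refine mul_le_mul_of_nonneg_left (add_le_add ?_ ?_) (by positivity) <;>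
          rw [abs_mul, Real.mul_rpow (abs_nonneg _) (abs_nonneg _)] <;>
          refine mul_le_mul_of_nonneg_right (Real.rpow_le_rpow (abs_nonneg _) ?_ hp0.le)
            (by positivity)
        · exact hθ x y hsame rfl
        · exact hθ y x (Ne.symm hsame) (dist_comm y x)
      refine (Finset.sum_le_sum fun Q _ => mul_le_mul_of_nonneg_left (hpt Q)
        (subW_nonneg hρ0.le hρ1 Q)).trans ?_
      simp only [mul_add, Finset.sum_add_distrib, mul_left_comm (subW ρ _) ((2:ℝ) ^ p),
        ← Finset.mul_sum, mul_left_comm (subW ρ _) G]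
      have hΔ : Δ i = 0 := by simp only [Δ, if_neg hsame]
      calc _ ≤ (2:ℝ) ^ p * (G * (subConst p * ρ * Ψ x i)) +
            (2:ℝ) ^ p * (G * (subConst p * ρ * Ψ y i)) := by
            exact add_le_add
              (mul_le_mul_of_nonneg_left (mul_le_mul_of_nonneg_left (hsolo x) hG0) (by positivity))
              (mul_le_mul_of_nonneg_left (mul_le_mul_of_nonneg_left (hsolo y) hG0) (by positivity))
        _ = _ := by rw [hΔ]; ring
  refine (Finset.sum_le_sum fun i _ => hone i).trans ?_
  rw [← Finset.mul_sum]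
  refine mul_le_mul_of_nonneg_left ?_ (by positivity)
  have hΨ : ∀ w, ∑ i : Fin (M + 1), Ψ w i ≤ t ^ p := by
    intro w
    rw [Fin.sum_univ_eq_sum_range (fun i => Ψ w i), Finset.sum_comm]
    refine le_trans (Finset.sum_le_sum fun s _ => ?_) (hnear w)
    have := (bandPart_sandwich hp (levelTau k M U) (levelTau_last k M U)
      (fun i hi => levelTau_step hU.le i hi) (a w s - a (centre π t w) s) 0).1
    rw [sub_zero] at this
    refine le_trans (le_of_eq (Finset.sum_congr rfl fun i hi => ?_)) this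
    have hi' := levelTau_step (k := k) hU.le i (Nat.lt_succ_iff.1 (Finset.mem_range.1 hi))
    simp only [bandVec, bandPart_zero_of_le hi'.2 (v := 0) (by simpa using hi'.1), sub_zero]
  set q := min r (2 * t) with hq
  have hΔsum : ∑ i : Fin (M + 1), Δ i ≤ q ^ p := by
    by_cases hsame : cy = cx
    · have hrt : r ≤ 2 * t := by
        have h1 := dist_centre_le π ht.le x
        have h2 := dist_centre_le π ht.le y
        rw [← hcy, hsame] at h2
        rw [← hcx] at h1
        have := dist_triangle_right x y cx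
        linarith
      rw [hq, min_eq_left hrt, hr, hdist]
      simp only [Δ, if_pos hsame]
      rw [Fin.sum_univ_eq_sum_range
        (fun i => ∑ s, |bandVec k M U a i cx x s - bandVec k M U a i cx y s| ^ p), Finset.sum_comm]
      refine Finset.sum_le_sum fun s _ => ?_
      have := (bandPart_sandwich hp (levelTau k M U) (levelTau_last k M U)
        (fun i hi => levelTau_step hU.le i hi) (a x s - a cx s) (a y s - a cx s)).1
      rw [sub_sub_sub_cancel_right] at this
      exact this
    · simp only [Δ, if_neg hsame, Finset.sum_const_zero]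
      positivity
  have hGt : G * t ^ p ≤ (2 / η) ^ p * q ^ p := by
    rw [hG, ← Real.mul_rpow (by positivity) ht.le,
      ← Real.mul_rpow (by positivity) (le_min hr0 (by linarith))]
    refine Real.rpow_le_rpow (by positivity) ?_ hp0.le
    rw [min_mul_of_nonneg _ _ ht.le, one_mul, mul_min_of_nonneg _ _ (by positivity)]
    refine le_min ((min_le_right _ _).trans (le_of_eq ?_)) ((min_le_left _ _).trans ?_)
    · field_simp
    · rw [← mul_assoc]
      refine le_mul_of_one_le_left ht.le ?_
      rw [div_mul_eq_mul_div, one_le_div hη]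
      linarith
  rw [Finset.sum_add_distrib, ← Finset.mul_sum, Finset.sum_add_distrib]
  have h4 := mul_le_mul_of_nonneg_left (add_le_add (hΨ x) (hΨ y)) hG0
  have h5 : G * t ^ p ≤ t ^ p := mul_le_of_le_one_left (by positivity)
    (hG ▸ Real.rpow_le_one (by positivity) (min_le_left _ _) hp0.le)
  have h6 := le_min hGt h5
  linarith

theorem scalarDiff_mean_ge (hp : 1 ≤ p) {k M : ℕ} {U η t : ℝ} (hk : 1 ≤ k) (hU : 0 < U) (hη : 0 < η)
    (ht : 0 < t)
    (htU : t ≤ U) (a : Fin n → Fin K₀ → ℝ)
    (hdist : ∀ x y, dist x y ^ p = ∑ s, |a x s - a y s| ^ p)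
    (π : Equiv.Perm (Fin n)) (x y : Fin n) (hpad : Padded π η t x) (hxy : dist x y ≤ η * t / 2) :
    dist x y ^ p / (2 * (8:ℝ) ^ p) ≤
      ∑ i : Fin (M + 1), ∑ Q : Fin K₀ → Bool,
        subW (levelRho k M K₀ p i) Q * scalarDiff k M p U η t a π i x y Q := by
  classical
  have hp0 : 0 < p := by linarith
  obtain ⟨hcen, hθy⟩ := hpad.cutoff_eq_one hη ht hxy
  obtain ⟨-, hθx⟩ := hpad.cutoff_eq_one hη ht (y := x) (by rw [dist_self]; positivity)
  set cx := centre π t x with hcx
  have hnear : ∀ w, centre π t w = cx → ∑ s, |a w s - a cx s| ^ p ≤ t ^ p := fun w hw => by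
    rw [← hdist, ← hw]; exact Real.rpow_le_rpow dist_nonneg (dist_centre_le π ht.le w) hp0.le
  have hcoord : ∀ w, centre π t w = cx → ∀ s, |a w s - a cx s| ≤ U := fun w hw s => by
    refine le_trans ((Real.rpow_le_rpow_iff (abs_nonneg _) ht.le hp0).1 ?_) htU
    exact le_trans (Finset.single_le_sum (f := fun s => |a w s - a cx s| ^ p)
      (fun s _ => by positivity) (Finset.mem_univ s)) (hnear w hw)
  let Δ : ℕ → Fin K₀ → ℝ := fun i s =>
    |bandVec k M U a i cx x s - bandVec k M U a i cx y s| ^ p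
  have hone : ∀ i : Fin (M + 1), (∑ s, Δ i s) / 2 ≤ ∑ Q : Fin K₀ → Bool,
      subW (levelRho k M K₀ p i) Q * scalarDiff k M p U η t a π i x y Q := by
    intro i
    have hiM : (i : ℕ) ≤ M := Nat.lt_succ_iff.1 i.2
    obtain ⟨hρ0, hρ1⟩ := levelRho_bounds k M K₀ hp0.le (i : ℕ)
    set ρ := levelRho k M K₀ p i with hρdef
    have htUp : t ^ p ≤ U ^ p := Real.rpow_le_rpow ht.le htU hp0.le
    set S := bandSupp k M U a i cx x ∪ bandSupp k M U a i cx y
    have hS : ρ * S.card ≤ 1 / 2 := by
      have h1 := bandSupp_card (k := k) hp hU a hiM ((hnear x rfl).trans htUp)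
      have h2 := bandSupp_card (k := k) hp hU a hiM ((hnear y hcen).trans htUp)
      have h3 : ((S.card : ℕ) : ℝ) ≤
          (((bandSupp k M U a i cx x).card + (bandSupp k M U a i cx y).card : ℕ) : ℝ) := by
        exact_mod_cast Finset.card_union_le _ _
      push_cast at h3
      have hN := levelN_ge_one k M K₀ hp0.le (i : ℕ)
      rw [hρdef, levelRho, inv_mul_le_iff₀ (by linarith)]
      linarith
    have hrest : ∑ s, Δ i s = ∑ s ∈ S, Δ i s := by
      refine (Finset.sum_subset (Finset.subset_univ S) fun s _ hs => ?_).symm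
      rw [Finset.mem_union, not_or] at hs
      simp only [Δ, bandVec_eq_zero_of_notMem hs.1, bandVec_eq_zero_of_notMem hs.2, sub_zero,
        abs_zero, Real.zero_rpow hp0.ne']
    have h := subSum_single_ge hρ0.le hρ1 S hS
      (fun Q => scalarDiff k M p U η t a π i x y Q) (fun Q => by unfold scalarDiff; positivity)
      (fun s => ρ⁻¹ * Δ i s) (fun s => by positivity) ?_
    · rw [← Finset.mul_sum] at h
      rw [hrest]
      refine le_trans (le_of_eq ?_) h
      field_simp
    · intro s hs Q hQs hothers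
      have hsel : ∀ w, (∀ j, j ∉ S → bandVec k M U a i cx w j = 0) →
          subSum Q (bandVec k M U a i cx w) = bandVec k M U a i cx w s := by
        intro w hw
        rw [subSum, Finset.sum_eq_single s]
        · rw [if_pos hQs]
        · intro j _ hj
          by_cases hjS : j ∈ S
          · simp [hothers j hjS hj]
          · simp [hw j hjS]
        · intro h; exact absurd (Finset.mem_univ s) h
      have hstep := levelTau_step (k := k) hU.le (i : ℕ) hiM
      have hcap : ∀ w, clipTo (levelTau k M U i) (bandVec k M U a i cx w s) =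
          bandVec k M U a i cx w s :=
        fun w => clipTo_eq_self (abs_bandPart_le_cap hstep.1 hstep.2 _)
      simp only [scalarDiff, scalarMap, hθx, hθy, one_mul, hcen, ← hcx, ← hρdef]
      rw [hsel x (fun j hj => bandVec_eq_zero_of_notMem
          (fun h => hj (Finset.mem_union_left _ h))),
        hsel y (fun j hj => bandVec_eq_zero_of_notMem
          (fun h => hj (Finset.mem_union_right _ h))), hcap, hcap, ← mul_sub, abs_mul,
        Real.mul_rpow (abs_nonneg _) (abs_nonneg _),
        abs_of_nonneg (by positivity : (0:ℝ) ≤ (ρ⁻¹) ^ p⁻¹),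
        Real.rpow_inv_rpow (by positivity) hp0.ne']
  refine le_trans ?_ (Finset.sum_le_sum fun i _ => hone i)
  rw [← Finset.sum_div, Fin.sum_univ_eq_sum_range (fun i => ∑ s, Δ i s), Finset.sum_comm, hdist,
    div_le_div_iff₀ (by positivity) (by norm_num)]
  calc (∑ s, |a x s - a y s| ^ p) * 2
      ≤ (∑ s, (8:ℝ) ^ p * ∑ i ∈ Finset.range (M + 1), Δ i s) * 2 := by
        refine mul_le_mul_of_nonneg_right (Finset.sum_le_sum fun s _ => ?_) (by norm_num)
        have h := bandPart_sum_ge hp (levelTau k M U) (levelTau_last k M U)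
          (fun i hi => levelTau_step hU.le i hi) (fun i hi => levelTau_half hk hU.le i hi)
          (a x s - a cx s) (a y s - a cx s)
          (by rw [levelTau_zero]; exact hcoord x rfl s)
          (by rw [levelTau_zero]; exact hcoord y hcen s)
        rw [sub_sub_sub_cancel_right] at h
        exact h
    _ = _ := by rw [← Finset.mul_sum]; ring

theorem padded_average {η q : ℝ} (hη : 0 ≤ η) (hη1 : η < 1) (hq : 1 + η ≤ q * (1 - η))
    {J : ℕ} (hJ : 1 ≤ J) (x : Fin n) {t₀ : ℝ} (ht : 0 < t₀) :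
    (J : ℝ) * Real.exp (-(Real.log n / J)) ≤
      ∑ j : Fin J, ((fball x ((1 - η) * (t₀ * q ^ (j:ℕ)))).card : ℝ) /
        (fball x ((1 + η) * (t₀ * q ^ (j:ℕ)))).card := by
  have hq0 : 0 ≤ q := nonneg_of_mul_nonneg_left (by linarith) (by linarith : (0:ℝ) < 1 - η)
  let φ : ℕ → ℝ := fun i => logBall x ((1 - η) * (t₀ * q ^ i))
  set A := Real.log n / J with hA
  have hterm : ∀ j : Fin J, Real.exp (-A) * (1 + A - (φ ((j:ℕ) + 1) - φ j)) ≤
      ((fball x ((1 - η) * (t₀ * q ^ (j:ℕ)))).card : ℝ) /
        (fball x ((1 + η) * (t₀ * q ^ (j:ℕ)))).card := by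
    intro j
    have hu : ∀ u : ℝ, 0 ≤ u → 0 ≤ u * (t₀ * q ^ (j:ℕ)) := fun u hu => by positivity
    have hpos : ∀ u : ℝ, 0 ≤ u → (0:ℝ) < (fball x u).card := fun u hu => by
      exact_mod_cast Finset.card_pos.2 ⟨x, self_mem_fball x hu⟩
    have h1 := hpos _ (hu (1 - η) (by linarith))
    have h2 := hpos _ (hu (1 + η) (by linarith))
    have hD : logBall x ((1 + η) * (t₀ * q ^ (j:ℕ))) - φ j ≤ φ ((j:ℕ) + 1) - φ j := by
      refine sub_le_sub_right (logBall_mono x ?_) _
      rw [pow_succ']
      calc (1 + η) * (t₀ * q ^ (j:ℕ)) ≤ q * (1 - η) * (t₀ * q ^ (j:ℕ)) :=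
            mul_le_mul_of_nonneg_right hq (by positivity)
        _ = _ := by ring
    rw [← Real.exp_log h1, ← Real.exp_log h2, ← Real.exp_sub]
    have e := Real.add_one_le_exp (A - (logBall x ((1 + η) * (t₀ * q ^ (j:ℕ))) - φ j))
    calc Real.exp (-A) * (1 + A - (φ ((j:ℕ) + 1) - φ j))
        ≤ Real.exp (-A) * Real.exp (A - (logBall x ((1 + η) * (t₀ * q ^ (j:ℕ))) - φ j)) :=
          mul_le_mul_of_nonneg_left (by linarith) (Real.exp_pos _).le
      _ = _ := by
          rw [← Real.exp_add]; congr 1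
          simp only [φ, logBall]; ring
  refine le_trans ?_ (Finset.sum_le_sum fun j _ => hterm j)
  rw [← Finset.mul_sum, mul_comm (J:ℝ)]
  refine mul_le_mul_of_nonneg_left ?_ (Real.exp_pos _).le
  rw [Finset.sum_sub_distrib, Finset.sum_const, Finset.card_univ, Fintype.card_fin, nsmul_eq_mul,
    Fin.sum_univ_eq_sum_range (fun j => φ (j + 1) - φ j), Finset.sum_range_sub φ]
  have hle : φ J ≤ Real.log n := by
    have := logBall_le x ((1 - η) * (t₀ * q ^ J))
    rwa [Fintype.card_fin] at this
  have hge : 0 ≤ φ 0 := logBall_nonneg x _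
  have hJ0 : (0:ℝ) < J := by exact_mod_cast hJ
  have e : (J:ℝ) * (1 + A) = J + Real.log n := by rw [hA]; field_simp
  rw [e]
  linarith

end Vale.Agent.P249
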