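import Mathlib

/-!
Sampling coordinates against a dominating density, derandomised by an exponential potential.
-/

namespace Vale.Agent.P249

open MeasureTheory Real

variable {α : Type*} [MeasurableSpace α] {μ : Measure α} {κ : Type*} [Fintype κ]

/-- One step of the method of conditional expectations. -/
theorem exists_sample_point (h : α → ℝ) (hhi : Integrable h μ) (hh0 : ∀ z, 0 ≤ h z)
    (hS : 0 < ∫ z, h z ∂μ) (good : α → Prop) (hgood : ∀ᵐ z ∂μ, good z)
    (u : κ → α → ℝ) (hu : ∀ a, Integrable (u a) μ) (hu1 : ∀ a, ∫ z, u a z ∂μ = 1)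
    (hdom : ∀ z, good z → h z = 0 → ∀ a, u a z = 0) (c : κ → ℝ) :
    ∃ z, good z ∧ 0 < h z ∧
      ∑ a, c a * (u a z / h z) ≤ (∑ a, c a) / ∫ z, h z ∂μ := by
  by_contra hcon
  push Not at hcon
  set S := ∫ z, h z ∂μ with hSdef
  have hint : Integrable (fun z => (∑ a, c a * u a z) - ((∑ a, c a) / S) * h z) μ :=
    (integrable_finsetSum _ (fun a _ => (hu a).const_mul (c a))).sub (hhi.const_mul _)
  have hzero : ∫ z, ((∑ a, c a * u a z) - ((∑ a, c a) / S) * h z) ∂μ = 0 := by
    rw [integral_sub (integrable_finsetSum _ (fun a _ => (hu a).const_mul (c a)))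
      (hhi.const_mul _), integral_finsetSum _ (fun a _ => (hu a).const_mul (c a)),
      integral_const_mul, ← hSdef]
    simp only [integral_const_mul, hu1, mul_one]
    rw [div_mul_cancel₀ _ hS.ne', sub_self]
  -- the integrand is positive where `h` is
  have hpos : ∀ᵐ z ∂μ, 0 < h z → 0 < (∑ a, c a * u a z) - ((∑ a, c a) / S) * h z := by
    filter_upwards [hgood] with z hz hzpos
    have := hcon z hz hzpos
    have e : (∑ a, c a * u a z) = (∑ a, c a * (u a z / h z)) * h z := by
      rw [Finset.sum_mul]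
      exact Finset.sum_congr rfl (fun a _ => by field_simp)
    rw [e, ← sub_mul]
    exact mul_pos (by linarith) hzpos
  set T := {z | 0 < h z} with hT
  have hTn : NullMeasurableSet T μ :=
    nullMeasurableSet_lt aemeasurable_const hhi.aemeasurable
  have hres := hint.integrableOn (s := T)
  have hTz : μ T ≠ 0 := by
    intro h0
    have : h =ᵐ[μ] 0 := by
      rw [Filter.EventuallyEq, ae_iff]
      refine measure_mono_null ?_ h0
      intro z hz
      exact lt_of_le_of_ne (hh0 z) (Ne.symm hz)
    rw [hSdef, integral_congr_ae this] at hS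
    simp at hS
  have hpos' : ∀ᵐ z ∂(μ.restrict T), 0 < (∑ a, c a * u a z) - ((∑ a, c a) / S) * h z := by
    filter_upwards [ae_restrict_of_ae hpos, ae_restrict_mem₀ hTn] with z hz hzT
    exact hz hzT
  have hnn : 0 ≤ᵐ[μ] fun z => (∑ a, c a * u a z) - ((∑ a, c a) / S) * h z := by
    filter_upwards [hpos, hgood] with z hz hg
    rcases (hh0 z).lt_or_eq with hlt | heq
    · exact (hz hlt).le
    · simp [← heq, hdom z hg heq.symm]
  have hae := (integral_eq_zero_iff_of_nonneg_ae hnn hint).1 hzero
  have : ∀ᵐ z ∂(μ.restrict T), False := by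
    filter_upwards [hpos', ae_restrict_of_ae hae] with z h1 h2
    simp only [Pi.zero_apply] at h2
    linarith
  rw [Filter.eventually_false_iff_eq_bot, ae_eq_bot, Measure.restrict_eq_zero] at this
  exact hTz this

/-- Chernoff bound, derandomised: `d` points such that all `P` empirical sums are within a
factor `1 ± η` of their means. -/
theorem exists_samples (h : α → ℝ) (hhi : Integrable h μ) (hh0 : ∀ z, 0 ≤ h z)
    (hS : 0 < ∫ z, h z ∂μ) (good : α → Prop) (hgood : ∀ᵐ z ∂μ, good z)
    (u : κ → α → ℝ) (hu : ∀ a, Integrable (u a) μ) (hu1 : ∀ a, ∫ z, u a z ∂μ = 1)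
    (hdom : ∀ z, good z → ∀ a, 0 ≤ u a z ∧ u a z ≤ h z)
    {η : ℝ} (hη0 : 0 < η) (hη1 : η ≤ 1) (d : ℕ)
    (hd : 4 * (∫ z, h z ∂μ) * Real.log (2 * (Fintype.card κ + 1)) ≤ d * η ^ 2) :
    ∃ z : Fin d → α, (∀ s, good (z s) ∧ 0 < h (z s)) ∧
      ∀ a, |∑ s, u a (z s) / h (z s) - d / ∫ w, h w ∂μ| ≤ η * (d / ∫ w, h w ∂μ) := by
  set S := ∫ w, h w ∂μ with hSdef
  set lam := η / 2 with hlam
  have hlam0 : 0 < lam := by positivity
  have hlam1 : |lam| ≤ 1 := by rw [abs_of_pos hlam0]; simp only [hlam]; linarith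
  have hlamn : |(-lam)| ≤ 1 := by rw [abs_neg]; exact hlam1
  set up := exp ((exp lam - 1) / S) with hup
  set dn := exp ((exp (-lam) - 1) / S) with hdn
  let Φ : (m : ℕ) → (Fin m → α) → (κ → ℝ) × (κ → ℝ) := fun m z =>
    (fun a => exp (lam * ∑ s, u a (z s) / h (z s)) / up ^ m,
     fun a => exp (-lam * ∑ s, u a (z s) / h (z s)) / dn ^ m)
  have key : ∀ m : ℕ, ∃ z : Fin m → α, (∀ s, good (z s) ∧ 0 < h (z s)) ∧
      ∑ a, ((Φ m z).1 a + (Φ m z).2 a) ≤ 2 * Fintype.card κ := by
    intro m
    induction m with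
    | zero =>
      refine ⟨Fin.elim0, fun s => s.elim0, le_of_eq ?_⟩
      simp [Φ, Finset.sum_add_distrib]
      ring
    | succ m ih =>
      obtain ⟨z, hz, hle⟩ := ih
      set A := (Φ m z).1 with hA
      set B := (Φ m z).2 with hB
      have hA0 : ∀ a, 0 ≤ A a := fun a => by simp only [hA, Φ, hup]; positivity
      have hB0 : ∀ a, 0 ≤ B a := fun a => by simp only [hB, Φ, hdn]; positivity
      obtain ⟨w, hwg, hwh, hw⟩ := exists_sample_point h hhi hh0 hS good hgood u hu hu1
        (fun z hg h0 a => le_antisymm (h0 ▸ (hdom z hg a).2) (hdom z hg a).1)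
        (fun a => A a * (exp lam - 1) / up + B a * (exp (-lam) - 1) / dn)
      refine ⟨Fin.snoc z w, ?_, ?_⟩
      · intro s
        induction s using Fin.lastCases with
        | last => simp [hwg, hwh]
        | cast s => simpa using hz s
      set y : κ → ℝ := fun a => u a w / h w with hy
      have hy01 : ∀ a, 0 ≤ y a ∧ y a ≤ 1 := fun a =>
        ⟨div_nonneg (hdom w hwg a).1 hwh.le, (div_le_one hwh).2 (hdom w hwg a).2⟩
      have hlin : ∀ c : ℝ, ∀ a, exp (c * y a) ≤ 1 + (exp c - 1) * y a := by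
        intro c a
        have := convexOn_exp.2 (Set.mem_univ (0:ℝ)) (Set.mem_univ c)
          (show 0 ≤ 1 - y a by linarith [(hy01 a).2]) (hy01 a).1 (by ring)
        simp only [smul_eq_mul, mul_zero, zero_add, exp_zero, mul_one] at this
        rw [mul_comm c]; linarith
      have hsum : ∀ a, ∑ s, u a ((Fin.snoc z w : Fin (m + 1) → α) s) /
          h ((Fin.snoc z w : Fin (m + 1) → α) s)
          = (∑ s, u a (z s) / h (z s)) + y a := by
        intro a; rw [Fin.sum_univ_castSucc]; simp [hy]
      have hupp : 0 < up := exp_pos _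
      have hdnp : 0 < dn := exp_pos _
      have e1 : ∀ a, (Φ (m + 1) (Fin.snoc z w)).1 a = A a * (exp (lam * y a) / up) := by
        intro a; simp only [hA, Φ, hsum, pow_succ, mul_add, exp_add]; field_simp
      have e2 : ∀ a, (Φ (m + 1) (Fin.snoc z w)).2 a = B a * (exp (-lam * y a) / dn) := by
        intro a; simp only [hB, Φ, hsum, pow_succ, mul_add, exp_add]; field_simp
      have hu' : ∀ c : ℝ, (1 + (exp c - 1) / S) / exp ((exp c - 1) / S) ≤ 1 := by
        intro c; rw [div_le_one (exp_pos _)]; linarith [add_one_le_exp ((exp c - 1) / S)]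
      calc ∑ a, ((Φ (m + 1) (Fin.snoc z w)).1 a + (Φ (m + 1) (Fin.snoc z w)).2 a)
          ≤ ∑ a, ((A a / up + B a / dn) +
              (A a * (exp lam - 1) / up + B a * (exp (-lam) - 1) / dn) * y a) := by
            refine Finset.sum_le_sum (fun a _ => ?_)
            rw [e1, e2]
            have i1 := mul_le_mul_of_nonneg_left (hlin lam a) (div_nonneg (hA0 a) hupp.le)
            have i2 := mul_le_mul_of_nonneg_left (hlin (-lam) a) (div_nonneg (hB0 a) hdnp.le)
            calc _ = A a / up * exp (lam * y a) + B a / dn * exp (-lam * y a) := by ring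
              _ ≤ _ := le_trans (add_le_add i1 i2) (le_of_eq (by ring))
        _ ≤ ∑ a, (A a / up + B a / dn) +
            (∑ a, (A a * (exp lam - 1) / up + B a * (exp (-lam) - 1) / dn)) / S := by
            rw [Finset.sum_add_distrib]; linarith [hw]
        _ = ∑ a, (A a * ((1 + (exp lam - 1) / S) / up) +
            B a * ((1 + (exp (-lam) - 1) / S) / dn)) := by
            rw [Finset.sum_div, ← Finset.sum_add_distrib]
            exact Finset.sum_congr rfl (fun a _ => by ring)
        _ ≤ ∑ a, (A a + B a) := by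
            refine Finset.sum_le_sum (fun a _ => ?_)
            exact add_le_add (mul_le_of_le_one_right (hA0 a) (hu' lam))
              (mul_le_of_le_one_right (hB0 a) (hu' (-lam)))
        _ ≤ _ := hle
  obtain ⟨z, hz, hle⟩ := key d
  refine ⟨z, hz, fun a => ?_⟩
  set Y := ∑ s, u a (z s) / h (z s) with hY
  set q := (d : ℝ) / S with hq
  set N := (2 * ((Fintype.card κ : ℝ) + 1)) with hN
  have hN0 : 0 < N := by positivity
  have hterm : exp (lam * Y) / up ^ d ≤ N ∧ exp (-lam * Y) / dn ^ d ≤ N := by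
    have hnn : ∀ b ∈ (Finset.univ : Finset κ), 0 ≤ (Φ d z).1 b + (Φ d z).2 b := fun b _ => by
      simp only [Φ, hup, hdn]; positivity
    have hle' := (Finset.single_le_sum hnn (Finset.mem_univ a)).trans hle
    simp only [Φ, ← hY] at hle'
    have h1 : 0 ≤ exp (lam * Y) / up ^ d := by simp only [hup]; positivity
    have h2 : 0 ≤ exp (-lam * Y) / dn ^ d := by simp only [hdn]; positivity
    constructor <;> linarith
  have hlog : Real.log N ≤ q * η ^ 2 / 4 := by
    rw [hq, div_mul_eq_mul_div, div_div, le_div_iff₀ (by positivity)]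
    linarith
  have hq0 : 0 ≤ q := div_nonneg (Nat.cast_nonneg d) hS.le
  rw [abs_le]
  constructor
  · have h2 := hterm.2
    rw [hdn, ← exp_nat_mul, ← exp_sub, ← le_log_iff_exp_le hN0] at h2
    have he : (d : ℝ) * ((exp (-lam) - 1) / S) ≤ q * (-lam + lam ^ 2) := by
      have := (abs_le.1 (abs_exp_sub_one_sub_id_le hlamn)).2
      have e : (d : ℝ) * ((exp (-lam) - 1) / S) = q * (exp (-lam) - 1) := by rw [hq]; ring
      rw [e]
      exact mul_le_mul_of_nonneg_left (by nlinarith) hq0
    have : lam * (q - Y) ≤ lam * (η * q) := by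
      rw [hlam] at *
      nlinarith
    nlinarith [le_of_mul_le_mul_left this hlam0]
  · have h1 := hterm.1
    rw [hup, ← exp_nat_mul, ← exp_sub, ← le_log_iff_exp_le hN0] at h1
    have he : (d : ℝ) * ((exp lam - 1) / S) ≤ q * (lam + lam ^ 2) := by
      have := (abs_le.1 (abs_exp_sub_one_sub_id_le hlam1)).2
      have e : (d : ℝ) * ((exp lam - 1) / S) = q * (exp lam - 1) := by rw [hq]; ring
      rw [e]
      exact mul_le_mul_of_nonneg_left (by nlinarith) hq0
    have : lam * (Y - q) ≤ lam * (η * q) := by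
      rw [hlam] at *
      nlinarith
    exact le_of_mul_le_mul_left this hlam0

end Vale.Agent.P249
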