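import Mathlib

/-!
Pisier's rotation argument: Lipschitz functions of a standard Gaussian vector have
`L^p`-oscillation independent of the dimension.
-/

namespace Vale.Agent.P249

open MeasureTheory ProbabilityTheory Filter Topology
open scoped NNReal

/-- The `p`-th absolute moment of a standard normal variable. -/
noncomputable def gaussMoment (p : ℝ) : ℝ := ∫ t, |t| ^ p ∂(gaussianReal 0 1)

theorem gaussMoment_nonneg (p : ℝ) : 0 ≤ gaussMoment p :=
  integral_nonneg (fun _ => Real.rpow_nonneg (abs_nonneg _) _)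

theorem integrable_abs_rpow_gaussianReal {p : ℝ} (hp : 0 < p) :
    Integrable (fun t => |t| ^ p) (gaussianReal 0 1) := by
  have h := (memLp_id_gaussianReal' (μ := 0) (v := 1) (ENNReal.ofReal p)
    ENNReal.ofReal_ne_top).integrable_norm_rpow (ENNReal.ofReal_pos.2 hp).ne' ENNReal.ofReal_ne_top
  simpa [ENNReal.toReal_ofReal hp.le, Real.norm_eq_abs] using h

theorem gaussMoment_pos {p : ℝ} (hp : 0 < p) : 0 < gaussMoment p := by
  refine lt_of_le_of_ne (gaussMoment_nonneg p) (fun h => ?_)
  have hz := (integral_eq_zero_iff_of_nonneg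
    (fun t => Real.rpow_nonneg (abs_nonneg t) p) (integrable_abs_rpow_gaussianReal hp)).1 h.symm
  have h0 : ∀ᵐ t ∂(gaussianReal 0 1), t = 0 := by
    filter_upwards [hz] with t ht
    by_contra hne
    exact (Real.rpow_pos_of_pos (abs_pos.2 hne) p).ne' ht
  have := nullSingletonClass_gaussianReal (μ := 0) (v := 1) one_ne_zero
  have h1 : (gaussianReal 0 1) Set.univ ≤ (gaussianReal 0 1) {0} := by
    refine measure_mono_ae ?_
    filter_upwards [h0] with t ht _
    exact ht
  simp at h1

variable {E : Type*} [NormedAddCommGroup E] [InnerProductSpace ℝ E] [FiniteDimensional ℝ E]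
  [MeasurableSpace E] [BorelSpace E]

theorem integral_abs_apply_rpow (L : StrongDual ℝ E) {p : ℝ} (hp : 0 < p) :
    Integrable (fun y => |L y| ^ p) (stdGaussian E) ∧
      ∫ y, |L y| ^ p ∂(stdGaussian E) = ‖L‖ ^ p * gaussMoment p := by
  have hcont : Continuous (fun t : ℝ => |t| ^ p) := continuous_abs.rpow_const (fun _ => Or.inr hp.le)
  have hmap : (stdGaussian E).map L = (gaussianReal 0 1).map (fun t => ‖L‖ * t) := by
    rw [IsGaussian.map_eq_gaussianReal L, integral_strongDual_stdGaussian,
      variance_dual_stdGaussian, gaussianReal_map_const_mul]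
    simp only [mul_zero, mul_one]
    congr 1
    ext
    simp
  have e : (fun t : ℝ => |‖L‖ * t| ^ p) = fun t => ‖L‖ ^ p * |t| ^ p := by
    funext t
    rw [abs_mul, abs_norm, Real.mul_rpow (norm_nonneg _) (abs_nonneg _)]
  constructor
  · have h2 : Integrable (fun t : ℝ => |t| ^ p) ((stdGaussian E).map L) := by
      rw [hmap, integrable_map_measure hcont.aestronglyMeasurable (by fun_prop)]
      simp only [Function.comp_def, e]
      exact (integrable_abs_rpow_gaussianReal hp).const_mul _
    exact h2.comp_measurable L.continuous.measurable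
  · rw [← integral_map (φ := L) L.continuous.aemeasurable hcont.aestronglyMeasurable, hmap,
      integral_map (by fun_prop) hcont.aestronglyMeasurable, e, integral_const_mul]
    rfl

theorem integrable_norm_pair_rpow (A : ℝ) (hA : 0 ≤ A) {p : ℝ} (hp : 0 < p) :
    Integrable (fun q : E × E => (A * (‖q.1‖ + ‖q.2‖)) ^ p)
      ((stdGaussian E).prod (stdGaussian E)) := by
  set γ := stdGaussian E
  have hid := IsGaussian.memLp_id γ (ENNReal.ofReal p) ENNReal.ofReal_ne_top
  have h1 : MemLp (fun q : E × E => ‖q.1‖) (ENNReal.ofReal p) (γ.prod γ) := (hid.comp_fst γ).norm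
  have h2 : MemLp (fun q : E × E => ‖q.2‖) (ENNReal.ofReal p) (γ.prod γ) := (hid.comp_snd γ).norm
  have h := ((h1.add h2).const_mul A).integrable_norm_rpow (ENNReal.ofReal_pos.2 hp).ne'
    ENNReal.ofReal_ne_top
  simp only [ENNReal.toReal_ofReal hp.le, Pi.add_apply, Real.norm_eq_abs] at h
  refine h.congr (Eventually.of_forall (fun q => ?_))
  show |A * (‖q.1‖ + ‖q.2‖)| ^ p = _
  rw [abs_of_nonneg (by positivity)]

theorem integrable_lipschitz_comp {F : E → ℝ} {K : ℝ≥0} (hF : LipschitzWith K F) {p : ℝ}
    (hp : 0 < p) :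
    Integrable (fun q : E × E => |F q.1 - F q.2| ^ p) ((stdGaussian E).prod (stdGaussian E)) := by
  refine (integrable_norm_pair_rpow (K : ℝ) K.2 hp).mono' ?_ (Eventually.of_forall fun q => ?_)
  · exact (((hF.continuous.comp continuous_fst).sub (hF.continuous.comp continuous_snd)).abs.rpow_const
      (fun _ => Or.inr hp.le)).aestronglyMeasurable
  · rw [Real.norm_eq_abs, abs_of_nonneg (by positivity)]
    refine Real.rpow_le_rpow (abs_nonneg _) ?_ hp.le
    refine (hF.dist_le_mul q.1 q.2).trans ?_
    rw [dist_eq_norm]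
    exact mul_le_mul_of_nonneg_left (norm_sub_le _ _) K.2

/-- One rotation step. -/
noncomputable def rot (θ : ℝ) (q : E × E) : E × E :=
  (Real.cos θ • q.1 + Real.sin θ • q.2, -Real.sin θ • q.1 + Real.cos θ • q.2)

theorem continuous_rot (θ : ℝ) : Continuous (rot (E := E) θ) := by
  unfold rot; fun_prop

theorem map_rot (θ : ℝ) : ((stdGaussian E).prod (stdGaussian E)).map (rot θ)
    = (stdGaussian E).prod (stdGaussian E) := by
  convert IsGaussian.map_rotation_eq_self_of_forall_strongDual_eq_zero
    (μ := stdGaussian E) (fun L => integral_strongDual_stdGaussian L) θ using 2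
  funext q
  simp [rot, ContinuousLinearMap.rotation_apply]

theorem rot_rot (a b : ℝ) (q : E × E) : rot a (rot b q) = rot (b + a) q := by
  simp only [rot, Real.cos_add, Real.sin_add]
  ext <;> module

theorem oscillation_le_step {F : E → ℝ} {K : ℝ≥0} (hF : LipschitzWith K F) {p : ℝ} (hp : 1 ≤ p)
    (L : ℕ) (hL : 0 < L) :
    ∫ q : E × E, |F q.1 - F q.2| ^ p ∂((stdGaussian E).prod (stdGaussian E)) ≤
      (Real.pi / 2) ^ p * ∫ q : E × E, (|F (rot (Real.pi / (2 * L)) q).1 - F q.1| /
        (Real.pi / (2 * L))) ^ p ∂((stdGaussian E).prod (stdGaussian E)) := by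
  set ν := (stdGaussian E).prod (stdGaussian E)
  set h := Real.pi / (2 * L) with hh
  have hp0 : 0 < p := by linarith
  have hLr : (0:ℝ) < L := by exact_mod_cast hL
  have hh0 : 0 < h := by rw [hh]; positivity
  let Δ : E × E → ℝ := fun q => |F (rot h q).1 - F q.1| ^ p
  have hΔc : Continuous Δ :=
    (((hF.continuous.comp ((continuous_fst.comp (continuous_rot h)))).sub
      (hF.continuous.comp continuous_fst)).abs.rpow_const (fun _ => Or.inr hp0.le))
  have hmp : ∀ θ : ℝ, MeasurePreserving (rot (E := E) θ) ν ν := fun θ =>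
    ⟨(continuous_rot θ).measurable, map_rot θ⟩
  have hpath : ∀ q : E × E, |F q.1 - F q.2| ^ p ≤
      (L:ℝ) ^ (p - 1) * ∑ l ∈ Finset.range L, Δ (rot (l * h) q) := by
    intro q
    let P : ℕ → ℝ := fun l => F (rot ((l:ℝ) * h) q).1
    have h0 : P 0 = F q.1 := by simp [P, rot]
    have hend : P L = F q.2 := by
      have : (L:ℝ) * h = Real.pi / 2 := by rw [hh]; field_simp
      simp [P, this, rot]
    have htel : |F q.1 - F q.2| ≤ ∑ l ∈ Finset.range L, |P (l + 1) - P l| := by
      rw [← h0, ← hend, abs_sub_comm, ← Finset.sum_range_sub P L]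
      exact Finset.abs_sum_le_sum_abs _ _
    refine (Real.rpow_le_rpow (abs_nonneg _) htel hp0.le).trans ?_
    refine (Real.rpow_sum_le_const_mul_sum_rpow _ (fun l => P (l + 1) - P l) hp).trans
      (le_of_eq ?_)
    rw [Finset.card_range]
    congr 1
    refine Finset.sum_congr rfl (fun l _ => ?_)
    simp only [P, Δ, rot_rot]
    congr 4
    push_cast
    ring
  have hΔi : Integrable Δ ν := by
    refine (integrable_norm_pair_rpow (3 * (K:ℝ)) (by positivity) hp0).mono'
      hΔc.aestronglyMeasurable (Eventually.of_forall fun q => ?_)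
    rw [Real.norm_eq_abs, abs_of_nonneg (by positivity)]
    refine Real.rpow_le_rpow (abs_nonneg _) ((hF.dist_le_mul _ _).trans ?_) hp0.le
    rw [dist_eq_norm, mul_assoc, mul_left_comm]
    refine mul_le_mul_of_nonneg_left ?_ K.2
    refine (norm_sub_le _ _).trans ?_
    have hsum : ‖(rot h q).1‖ ≤ ‖q.1‖ + ‖q.2‖ := by
      refine (norm_add_le _ _).trans (add_le_add ?_ ?_) <;> rw [norm_smul, Real.norm_eq_abs]
      · exact mul_le_of_le_one_left (norm_nonneg _) (Real.abs_cos_le_one _)
      · exact mul_le_of_le_one_left (norm_nonneg _) (Real.abs_sin_le_one _)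
    linarith [norm_nonneg q.1, norm_nonneg q.2]
  have hΔrot : ∀ θ, Integrable (fun q => Δ (rot θ q)) ν ∧ ∫ q, Δ (rot θ q) ∂ν = ∫ q, Δ q ∂ν := by
    intro θ
    refine ⟨(hmp θ).integrable_comp_of_integrable hΔi, ?_⟩
    conv_rhs => rw [← (hmp θ).map_eq]
    exact (integral_map (hmp θ).measurable.aemeasurable
      ((hmp θ).map_eq.symm ▸ hΔc.aestronglyMeasurable)).symm
  calc ∫ q, |F q.1 - F q.2| ^ p ∂ν
      ≤ ∫ q, (L:ℝ) ^ (p - 1) * ∑ l ∈ Finset.range L, Δ (rot (l * h) q) ∂ν :=
        integral_mono (integrable_lipschitz_comp hF hp0)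
          ((integrable_finsetSum _ (fun l _ => (hΔrot _).1)).const_mul _) hpath
    _ = (L:ℝ) ^ p * ∫ q, Δ q ∂ν := by
        rw [integral_const_mul, integral_finsetSum _ (fun l _ => (hΔrot _).1)]
        simp only [(hΔrot _).2, Finset.sum_const, Finset.card_range, nsmul_eq_mul]
        rw [← mul_assoc, ← Real.rpow_add_one hLr.ne', sub_add_cancel]
    _ = _ := by
        rw [← integral_const_mul, ← integral_const_mul]
        refine integral_congr_ae (Eventually.of_forall fun q => ?_)
        show (L:ℝ) ^ p * |F (rot h q).1 - F q.1| ^ p =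
          (Real.pi / 2) ^ p * (|F (rot h q).1 - F q.1| / h) ^ p
        rw [Real.div_rpow (abs_nonneg _) hh0.le, mul_div_assoc', eq_div_iff
          (Real.rpow_pos_of_pos hh0 p).ne', mul_right_comm, ← Real.mul_rpow hLr.le hh0.le,
          show (L:ℝ) * h = Real.pi / 2 by rw [hh]; field_simp]

theorem oscillation_le_of_ae_diff {F : E → ℝ} {K : ℝ≥0} (hF : LipschitzWith K F) {p : ℝ}
    (hp : 1 ≤ p) (hdiff : ∀ᵐ g ∂(stdGaussian E), DifferentiableAt ℝ F g) :
    ∫ q : E × E, |F q.1 - F q.2| ^ p ∂((stdGaussian E).prod (stdGaussian E)) ≤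
      (Real.pi / 2) ^ p * ((K:ℝ) ^ p * gaussMoment p) := by
  set γ := stdGaussian E
  have hp0 : 0 < p := by linarith
  let h : ℕ → ℝ := fun m => Real.pi / (2 * ((m + 1 : ℕ) : ℝ))
  have hpos : ∀ m, 0 < h m := fun m => by simp only [h]; positivity
  have hto : Tendsto h atTop (𝓝 0) := by
    have := (tendsto_one_div_add_atTop_nhds_zero_nat (𝕜 := ℝ)).const_mul (Real.pi / 2)
    rw [mul_zero] at this
    refine this.congr (fun m => ?_)
    simp only [h]
    push_cast
    field_simp
  let Φ : ℕ → E × E → ℝ := fun m q => (|F (rot (h m) q).1 - F q.1| / h m) ^ p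
  let G : E × E → ℝ := fun q => |fderiv ℝ F q.1 q.2| ^ p
  have hbound : ∀ m q, ‖Φ m q‖ ≤ ((K:ℝ) * (‖q.1‖ + ‖q.2‖)) ^ p := by
    intro m q
    have := hpos m
    rw [Real.norm_eq_abs, abs_of_nonneg (by positivity)]
    refine Real.rpow_le_rpow (by positivity) ?_ hp0.le
    rw [div_le_iff₀ this]
    refine (hF.dist_le_mul _ _).trans ?_
    rw [dist_eq_norm, mul_assoc]
    refine mul_le_mul_of_nonneg_left ?_ K.2
    have e : (rot (h m) q).1 - q.1 = (Real.cos (h m) - 1) • q.1 + Real.sin (h m) • q.2 := by
      simp only [rot]; module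
    rw [e]
    refine (norm_add_le _ _).trans ?_
    rw [norm_smul, norm_smul, Real.norm_eq_abs, Real.norm_eq_abs]
    have hc : |Real.cos (h m) - 1| ≤ h m := by
      have := Real.abs_cos_sub_cos_le (h m) 0
      simpa [abs_of_pos (hpos m)] using this
    have hs : |Real.sin (h m)| ≤ h m := by
      have := Real.abs_sin_le_abs (x := h m)
      rwa [abs_of_pos (hpos m)] at this
    have h1 := mul_le_mul_of_nonneg_right hc (norm_nonneg q.1)
    have h2 := mul_le_mul_of_nonneg_right hs (norm_nonneg q.2)
    linarith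
  have hlim : ∀ᵐ q ∂(γ.prod γ), Tendsto (fun m => Φ m q) atTop (𝓝 (G q)) := by
    filter_upwards [Measure.quasiMeasurePreserving_fst.ae hdiff] with q hq
    have hφ : HasDerivAt (fun t : ℝ => F ((Real.cos t) • q.1 + (Real.sin t) • q.2))
        (fderiv ℝ F q.1 q.2) 0 := by
      have hin : HasDerivAt (fun t : ℝ => (Real.cos t) • q.1 + (Real.sin t) • q.2) q.2 0 := by
        simpa using ((Real.hasDerivAt_cos 0).smul_const q.1).fun_add
          ((Real.hasDerivAt_sin 0).smul_const q.2)
      exact (hq.hasFDerivAt).comp_hasDerivAt_of_eq 0 hin (by simp)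
    have hs := hφ.tendsto_slope_zero.comp (tendsto_nhdsWithin_iff.2
      ⟨hto, Eventually.of_forall fun m => (hpos m).ne'⟩)
    have := (hs.abs).rpow_const (Or.inr hp0.le : _ ∨ 0 ≤ p)
    refine this.congr (fun m => ?_)
    simp only [Φ, Function.comp_apply, zero_add, Real.cos_zero, Real.sin_zero, one_smul, zero_smul,
      add_zero, smul_eq_mul, abs_mul, abs_inv, abs_of_pos (hpos m), rot]
    congr 1
    ring
  have hmeas : ∀ m, AEStronglyMeasurable (Φ m) (γ.prod γ) := fun m =>
    ((((hF.continuous.comp (continuous_fst.comp (continuous_rot (h m)))).sub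
      (hF.continuous.comp continuous_fst)).abs.div_const _).rpow_const
        (fun _ => Or.inr hp0.le)).aestronglyMeasurable
  have hbI := integrable_norm_pair_rpow (E := E) (K:ℝ) K.2 hp0
  have hGI : Integrable G (γ.prod γ) := by
    refine hbI.mono' (aestronglyMeasurable_of_tendsto_ae atTop hmeas hlim) ?_
    filter_upwards [hlim] with q hq
    exact le_of_tendsto hq.norm (Eventually.of_forall fun m => hbound m q)
  have hconv := tendsto_integral_of_dominated_convergence _ hmeas hbI
    (fun m => Eventually.of_forall (hbound m)) hlim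
  have hG : ∫ q, G q ∂(γ.prod γ) ≤ (K:ℝ) ^ p * gaussMoment p := by
    rw [integral_prod _ hGI]
    calc ∫ g, ∫ y, G (g, y) ∂γ ∂γ = ∫ g, ‖fderiv ℝ F g‖ ^ p * gaussMoment p ∂γ :=
          integral_congr_ae (Eventually.of_forall fun g =>
            (integral_abs_apply_rpow (fderiv ℝ F g) hp0).2)
      _ ≤ ∫ _g, (K:ℝ) ^ p * gaussMoment p ∂γ := by
          refine integral_mono_of_nonneg (Eventually.of_forall fun g =>
            mul_nonneg (by positivity) (gaussMoment_nonneg p)) (integrable_const _)
            (Eventually.of_forall fun g => ?_)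
          exact mul_le_mul_of_nonneg_right (Real.rpow_le_rpow (norm_nonneg _)
            (norm_fderiv_le_of_lipschitz ℝ hF) hp0.le) (gaussMoment_nonneg p)
      _ = _ := by simp
  refine le_trans ?_ (mul_le_mul_of_nonneg_left hG (by positivity))
  exact ge_of_tendsto (hconv.const_mul _) (Eventually.of_forall fun m =>
    oscillation_le_step hF hp (m + 1) (Nat.succ_pos m))

/-- Gaussian oscillation bound for an arbitrary Lipschitz function. -/
theorem oscillation_le {F : E → ℝ} {K : ℝ≥0} (hF : LipschitzWith K F) {p : ℝ} (hp : 1 ≤ p) :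
    ∫ q : E × E, |F q.1 - F q.2| ^ p ∂((stdGaussian E).prod (stdGaussian E)) ≤
      (Real.pi / 2) ^ p * ((K:ℝ) ^ p * gaussMoment p) := by
  set γ := stdGaussian E
  have hp0 : 0 < p := by linarith
  set ν := γ.prod γ
  let J : E → ℝ := fun a => ∫ q : E × E, |F (q.1 + a) - F (q.2 + a)| ^ p ∂ν
  have hJc : Continuous J := by
    refine continuous_of_dominated (fun a => ?_) (fun a => Eventually.of_forall fun q => ?_)
      (integrable_norm_pair_rpow (E := E) (K:ℝ) K.2 hp0) (Eventually.of_forall fun q => ?_)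
    · exact (((hF.continuous.comp (continuous_fst.add continuous_const)).sub
        (hF.continuous.comp (continuous_snd.add continuous_const))).abs.rpow_const
          (fun _ => Or.inr hp0.le)).aestronglyMeasurable
    · rw [Real.norm_eq_abs, abs_of_nonneg (by positivity)]
      refine Real.rpow_le_rpow (abs_nonneg _) ((hF.dist_le_mul _ _).trans ?_) hp0.le
      rw [dist_eq_norm, add_sub_add_right_eq_sub]
      exact mul_le_mul_of_nonneg_left (norm_sub_le _ _) K.2
    · exact (((hF.continuous.comp (continuous_const.add continuous_id)).sub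
        (hF.continuous.comp (continuous_const.add continuous_id))).abs.rpow_const
          (fun _ => Or.inr hp0.le))
  -- almost every shift makes `F` differentiable Gaussian-almost everywhere
  have hS : MeasurableSet {x : E | DifferentiableAt ℝ F x} :=
    measurableSet_of_differentiableAt ℝ F
  have hnull : Measure.addHaar {x : E | DifferentiableAt ℝ F x}ᶜ = 0 :=
    ae_iff.1 (hF.ae_differentiableAt (μ := (Measure.addHaar : Measure E)))
  have hgood : ∀ᵐ a ∂(Measure.addHaar : Measure E), ∀ᵐ g ∂γ, DifferentiableAt ℝ F (g + a) := by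
    have hm : MeasurableSet {q : E × E | DifferentiableAt ℝ F (q.2 + q.1)} :=
      (measurable_snd.add measurable_fst) hS
    refine Measure.ae_ae_comm ?_ |>.1 ?_
    · exact (measurable_snd.add measurable_fst).comp measurable_swap hS
    refine Eventually.of_forall fun g => ?_
    have := (measurePreserving_add_left (Measure.addHaar : Measure E) g)
    exact this.quasiMeasurePreserving.ae
      (hF.ae_differentiableAt (μ := (Measure.addHaar : Measure E)))
  have hdense := Measure.dense_of_ae hgood
  have hJ : ∀ a ∈ {a | ∀ᵐ g ∂γ, DifferentiableAt ℝ F (g + a)},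
      J a ≤ (Real.pi / 2) ^ p * ((K:ℝ) ^ p * gaussMoment p) := by
    intro a ha
    refine oscillation_le_of_ae_diff (F := fun x => F (x + a)) ?_ hp ?_
    · exact LipschitzWith.of_dist_le_mul (fun x y => by
        simpa [dist_eq_norm] using hF.dist_le_mul (x + a) (y + a))
    · filter_upwards [ha] with g hg
      exact hg.comp g (differentiableAt_id.add_const a)
  have hcl : {a : E | J a ≤ (Real.pi / 2) ^ p * ((K:ℝ) ^ p * gaussMoment p)} = Set.univ :=
    (isClosed_le hJc continuous_const).closure_eq ▸ ((hdense.mono hJ).closure_eq)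
  have h0 : (0:E) ∈ {a : E | J a ≤ (Real.pi / 2) ^ p * ((K:ℝ) ^ p * gaussMoment p)} := by
    rw [hcl]; exact Set.mem_univ _
  simpa [J] using h0

end Vale.Agent.P249
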