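import Mathlib

/-!
Gluing of scale-localised maps of a finite metric space by ball averaging: the Lipschitz
constants telescope through the growth of balls.
-/

namespace Vale.Agent.P249

open MeasureTheory Finset

variable {X : Type*} [PseudoMetricSpace X] [Fintype X]
variable {E : Type*} [NormedAddCommGroup E] [NormedSpace ℝ E]

/-- The closed ball as a finset. -/
noncomputable def fball (x : X) (t : ℝ) : Finset X := by
  classical exact Finset.univ.filter (fun y => dist x y ≤ t)

theorem mem_fball {x y : X} {t : ℝ} : y ∈ fball x t ↔ dist x y ≤ t := by simp [fball]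

theorem fball_mono (x : X) {s t : ℝ} (h : s ≤ t) : fball x s ⊆ fball x t :=
  fun _ hy => mem_fball.2 ((mem_fball.1 hy).trans h)

theorem self_mem_fball (x : X) {t : ℝ} (h : 0 ≤ t) : x ∈ fball x t :=
  mem_fball.2 (by simpa using h)

/-- Logarithm of the ball size. -/
noncomputable def logBall (x : X) (t : ℝ) : ℝ := Real.log ((fball x t).card)

theorem logBall_nonneg (x : X) (t : ℝ) : 0 ≤ logBall x t := Real.log_natCast_nonneg _

theorem logBall_mono (x : X) : Monotone (logBall x) := by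
  intro s t h
  rcases Nat.eq_zero_or_pos (fball x s).card with h0 | h0
  · simp only [logBall, h0, Nat.cast_zero, Real.log_zero]
    exact Real.log_natCast_nonneg _
  · exact Real.log_le_log (by exact_mod_cast h0)
      (by exact_mod_cast Finset.card_le_card (fball_mono x h))

theorem logBall_le (x : X) (t : ℝ) : logBall x t ≤ Real.log (Fintype.card X) := by
  rcases Nat.eq_zero_or_pos (fball x t).card with h0 | h0
  · simp only [logBall, h0, Nat.cast_zero, Real.log_zero]
    exact Real.log_natCast_nonneg _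
  · exact Real.log_le_log (by exact_mod_cast h0) (by exact_mod_cast Finset.card_le_univ _)

/-- Difference of two averages over overlapping finsets. -/
theorem norm_mean_sub_mean_le [DecidableEq X] {A B : Finset X} (Φ : X → E) {w : ℝ}
    (hI : (A ∩ B).Nonempty) (hab : B.card ≤ A.card)
    (hw : ∀ y ∈ A ∪ B, ∀ z ∈ A ∩ B, ‖Φ y - Φ z‖ ≤ w) :
    ‖(A.card : ℝ)⁻¹ • ∑ y ∈ A, Φ y - (B.card : ℝ)⁻¹ • ∑ y ∈ B, Φ y‖ ≤
      2 * (1 - (A ∩ B).card / A.card) * w := by
  obtain ⟨c, hc⟩ := hI
  have hcA := (Finset.mem_inter.1 hc).1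
  have hcB := (Finset.mem_inter.1 hc).2
  have ha : (0:ℝ) < A.card := by exact_mod_cast Finset.card_pos.2 ⟨c, hcA⟩
  have hb : (0:ℝ) < B.card := by exact_mod_cast Finset.card_pos.2 ⟨c, hcB⟩
  set u : X → E := fun y => Φ y - Φ c with hu
  have hA : (A.card : ℝ)⁻¹ • ∑ y ∈ A, Φ y = Φ c + (A.card : ℝ)⁻¹ • ∑ y ∈ A, u y := by
    simp only [hu, Finset.sum_sub_distrib, Finset.sum_const, smul_sub,
      ← Nat.cast_smul_eq_nsmul ℝ, inv_smul_smul₀ ha.ne']
    abel
  have hB : (B.card : ℝ)⁻¹ • ∑ y ∈ B, Φ y = Φ c + (B.card : ℝ)⁻¹ • ∑ y ∈ B, u y := by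
    simp only [hu, Finset.sum_sub_distrib, Finset.sum_const, smul_sub,
      ← Nat.cast_smul_eq_nsmul ℝ, inv_smul_smul₀ hb.ne']
    abel
  have hsA := (Finset.sum_sdiff (Finset.inter_subset_left : A ∩ B ⊆ A) (f := u)).symm
  have hsB := (Finset.sum_sdiff (Finset.inter_subset_right : A ∩ B ⊆ B) (f := u)).symm
  have hnorm : ∀ S : Finset X, S ⊆ A ∪ B → ‖∑ y ∈ S, u y‖ ≤ S.card * w := by
    intro S hS
    refine (norm_sum_le_of_le S (fun y hy => hw y (hS hy) c hc)).trans (le_of_eq ?_)
    simp [nsmul_eq_mul]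
  set a : ℝ := (A.card : ℝ) with had
  set b : ℝ := (B.card : ℝ) with hbd
  set i : ℝ := ((A ∩ B).card : ℝ) with hid
  have hba : b ≤ a := by simp only [had, hbd]; exact_mod_cast hab
  have hAdiff : (((A \ (A ∩ B)).card : ℕ) : ℝ) = a - i := by
    rw [Finset.card_sdiff_of_subset Finset.inter_subset_left,
      Nat.cast_sub (Finset.card_le_card Finset.inter_subset_left)]
  have hBdiff : (((B \ (A ∩ B)).card : ℕ) : ℝ) = b - i := by
    rw [Finset.card_sdiff_of_subset Finset.inter_subset_right,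
      Nat.cast_sub (Finset.card_le_card Finset.inter_subset_right)]
  rw [hA, hB, add_sub_add_left_eq_sub, hsA, hsB]
  have e : a⁻¹ • (∑ y ∈ A \ (A ∩ B), u y + ∑ y ∈ A ∩ B, u y) -
      b⁻¹ • (∑ y ∈ B \ (A ∩ B), u y + ∑ y ∈ A ∩ B, u y) =
      (a⁻¹ • ∑ y ∈ A \ (A ∩ B), u y - b⁻¹ • ∑ y ∈ B \ (A ∩ B), u y) +
        (a⁻¹ - b⁻¹) • ∑ y ∈ A ∩ B, u y := by
    simp only [smul_add, sub_smul]; abel
  rw [e]
  have hinv : a⁻¹ ≤ b⁻¹ := inv_anti₀ hb hba
  refine (norm_add_le _ _).trans ((add_le_add (norm_sub_le _ _) le_rfl).trans ?_)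
  simp only [norm_smul, Real.norm_eq_abs, abs_inv, abs_of_pos ha, abs_of_pos hb,
    abs_of_nonpos (sub_nonpos.2 hinv)]
  have h1 := hnorm (A \ (A ∩ B)) (Finset.sdiff_subset.trans Finset.subset_union_left)
  have h2 := hnorm (B \ (A ∩ B)) (Finset.sdiff_subset.trans Finset.subset_union_right)
  have h3 := hnorm (A ∩ B) (Finset.inter_subset_union)
  rw [hAdiff] at h1
  rw [hBdiff] at h2
  calc a⁻¹ * ‖∑ y ∈ A \ (A ∩ B), u y‖ + b⁻¹ * ‖∑ y ∈ B \ (A ∩ B), u y‖ +
        -(a⁻¹ - b⁻¹) * ‖∑ y ∈ A ∩ B, u y‖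
      ≤ a⁻¹ * ((a - i) * w) + b⁻¹ * ((b - i) * w) + -(a⁻¹ - b⁻¹) * (i * w) := by
        refine add_le_add (add_le_add (mul_le_mul_of_nonneg_left h1 (by positivity))
          (mul_le_mul_of_nonneg_left h2 (by positivity))) (mul_le_mul_of_nonneg_left h3 ?_)
        linarith
    _ = _ := by field_simp; ring

/-- Average of `Φ` over the ball of radius `t`. -/
noncomputable def ballMean (Φ : X → E) (x : X) (t : ℝ) : E :=
  ((fball x t).card : ℝ)⁻¹ • ∑ y ∈ fball x t, Φ y

/-- Average of the ball means over radii in `[ρ, 2ρ]`. -/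
noncomputable def smoothMap (Φ : X → E) (ρ : ℝ) (x : X) : E :=
  ρ⁻¹ • ∫ t in ρ..(2 * ρ), ballMean Φ x t

theorem ballMean_intervalIntegrable (Φ : X → E) (x : X) (a b : ℝ) :
    IntervalIntegrable (ballMean Φ x) volume a b := by
  classical
  let φ : X → ℝ → ℝ := fun y t => if dist x y ≤ t then ((fball x t).card : ℝ)⁻¹ else 0
  have he : ballMean Φ x = fun t => ∑ y : X, φ y t • Φ y := by
    funext t
    simp only [ballMean, φ, fball, Finset.sum_filter, Finset.smul_sum, smul_ite, ite_smul,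
      smul_zero, zero_smul]
  rw [he]
  rw [← Finset.sum_fn]
  refine IntervalIntegrable.sum _ (fun y _ => ?_)
  have hm : Measurable (φ y) := by
    refine Measurable.ite measurableSet_Ici ?_ measurable_const
    have hmono : Monotone (fun t => ((fball x t).card : ℝ)) := fun s t h => by
      show ((fball x s).card : ℝ) ≤ ((fball x t).card : ℝ)
      exact_mod_cast Finset.card_le_card (fball_mono x h)
    exact hmono.measurable.inv
  have hb : ∀ t, ‖φ y t‖ ≤ 1 := by
    intro t
    simp only [φ]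
    split_ifs
    · rw [Real.norm_eq_abs, abs_inv, Nat.abs_cast]
      exact Nat.cast_inv_le_one _
    · simp
  refine (intervalIntegrable_const (c := ‖Φ y‖)).mono_fun
    ((hm.stronglyMeasurable.smul_const (Φ y)).aestronglyMeasurable.restrict)
    (Filter.Eventually.of_forall fun t => ?_)
  simp only [norm_smul, norm_norm]
  exact mul_le_of_le_one_left (norm_nonneg _) (hb t)

/-- For nearby points the difference is controlled by the growth of balls. -/
theorem norm_smoothMap_sub_le_near (Φ : X → E) {ρ w : ℝ} (hρ : 0 < ρ) (x x' : X)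
    (hr : dist x x' ≤ ρ / 2)
    (hw : ∀ y z, dist x y ≤ 5 / 2 * ρ → dist x z ≤ 5 / 2 * ρ → ‖Φ y - Φ z‖ ≤ w) :
    ‖smoothMap Φ ρ x - smoothMap Φ ρ x'‖ ≤
      4 * w * dist x x' / ρ * (logBall x (4 * ρ) - logBall x (ρ / 2)) := by
  classical
  set r := dist x x' with hrd
  have hr0 : 0 ≤ r := dist_nonneg
  have hw0 : 0 ≤ w := le_trans (norm_nonneg _)
    (hw x x (by simp; positivity) (by simp; positivity))
  set F := logBall x
  have hpt : ∀ t ∈ Set.Icc ρ (2 * ρ), ‖ballMean Φ x t - ballMean Φ x' t‖ ≤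
      2 * w * (F (t + r) - F (t - r)) := by
    rintro t ⟨ht1, ht2⟩
    set A := fball x t
    set B := fball x' t
    have hxi : x ∈ A ∩ B := Finset.mem_inter.2
      ⟨self_mem_fball x (by linarith), mem_fball.2 (by rw [dist_comm]; linarith)⟩
    have hAsub : A ⊆ fball x (t + r) := fball_mono x (by linarith)
    have hBsub : B ⊆ fball x (t + r) := fun y hy => mem_fball.2 (by
      have := dist_triangle x x' y
      have := mem_fball.1 hy
      linarith)
    have hIsup : fball x (t - r) ⊆ A ∩ B := fun y hy => by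
      have h1 := mem_fball.1 hy
      refine Finset.mem_inter.2 ⟨mem_fball.2 (by linarith), mem_fball.2 ?_⟩
      have := dist_triangle_left x' y x
      linarith
    have hwU : ∀ y ∈ A ∪ B, ∀ z ∈ A ∩ B, ‖Φ y - Φ z‖ ≤ w := fun y hy z hz => by
      refine hw y z ?_ ?_
      · have := mem_fball.1 (Finset.union_subset hAsub hBsub hy); linarith
      · have := mem_fball.1 (hAsub (Finset.mem_inter.1 hz).1); linarith
    have hlow : 0 < ((fball x (t - r)).card : ℝ) := by
      exact_mod_cast Finset.card_pos.2 ⟨x, self_mem_fball x (by linarith)⟩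
    have hlog : ∀ S : Finset X, A ∩ B ⊆ S → S ⊆ fball x (t + r) →
        1 - ((A ∩ B).card : ℝ) / S.card ≤ F (t + r) - F (t - r) := by
      intro S hS1 hS2
      have hI : ((fball x (t - r)).card : ℝ) ≤ (A ∩ B).card := by
        exact_mod_cast Finset.card_le_card hIsup
      have hSI : ((A ∩ B).card : ℝ) ≤ S.card := by exact_mod_cast Finset.card_le_card hS1
      have hS : (S.card : ℝ) ≤ (fball x (t + r)).card := by exact_mod_cast Finset.card_le_card hS2
      have hIpos : (0:ℝ) < (A ∩ B).card := lt_of_lt_of_le hlow hI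
      have hSpos : (0:ℝ) < S.card := lt_of_lt_of_le hIpos hSI
      have h1 := Real.log_le_sub_one_of_pos (div_pos hIpos hSpos)
      rw [Real.log_div hIpos.ne' hSpos.ne'] at h1
      have h2 := Real.log_le_log hlow hI
      have h3 := Real.log_le_log hSpos hS
      simp only [F, logBall]
      linarith
    rcases le_total B.card A.card with hle | hle
    · refine (norm_mean_sub_mean_le Φ ⟨x, hxi⟩ hle hwU).trans ?_
      have := mul_le_mul_of_nonneg_left (hlog A Finset.inter_subset_left hAsub) hw0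
      linarith
    · rw [norm_sub_rev]
      have hwU' : ∀ y ∈ B ∪ A, ∀ z ∈ B ∩ A, ‖Φ y - Φ z‖ ≤ w := by
        intro y hy z hz
        rw [Finset.union_comm] at hy
        rw [Finset.inter_comm] at hz
        exact hwU y hy z hz
      refine (norm_mean_sub_mean_le Φ ⟨x, by rwa [Finset.inter_comm]⟩ hle hwU').trans ?_
      rw [Finset.inter_comm B A]
      have := mul_le_mul_of_nonneg_left (hlog B Finset.inter_subset_right hBsub) hw0
      linarith
  have hmono : Monotone F := logBall_mono x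
  have hFi : ∀ a b, IntervalIntegrable F volume a b := fun a b =>
    hmono.monotoneOn _ |>.intervalIntegrable
  have hFp : IntervalIntegrable (fun t => F (t + r)) volume ρ (2 * ρ) :=
    Monotone.intervalIntegrable (fun s t h => hmono (by linarith))
  have hFm : IntervalIntegrable (fun t => F (t - r)) volume ρ (2 * ρ) :=
    Monotone.intervalIntegrable (fun s t h => hmono (by linarith))
  have hint : ‖∫ t in ρ..(2 * ρ), (ballMean Φ x t - ballMean Φ x' t)‖ ≤
      2 * w * (2 * r * (F (4 * ρ) - F (ρ / 2))) := by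
    refine (intervalIntegral.norm_integral_le_of_norm_le (by linarith)
      (Filter.Eventually.of_forall fun t ht => hpt t (Set.Ioc_subset_Icc_self ht))
      ((hFp.sub hFm).const_mul _)).trans ?_
    rw [intervalIntegral.integral_const_mul]
    refine mul_le_mul_of_nonneg_left ?_ (by linarith)
    rw [intervalIntegral.integral_sub hFp hFm, intervalIntegral.integral_comp_add_right,
      intervalIntegral.integral_comp_sub_right]
    have s1 := intervalIntegral.integral_add_adjacent_intervals (hFi (ρ - r) (ρ + r))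
      (hFi (ρ + r) (2 * ρ + r))
    have s2 := intervalIntegral.integral_add_adjacent_intervals (hFi (ρ - r) (2 * ρ - r))
      (hFi (2 * ρ - r) (2 * ρ + r))
    have u1 : ∫ t in (2 * ρ - r)..(2 * ρ + r), F t ≤
        ∫ _t in (2 * ρ - r)..(2 * ρ + r), F (4 * ρ) :=
      intervalIntegral.integral_mono_on (by linarith) (hFi _ _) intervalIntegrable_const
        (fun t ht => hmono (by linarith [ht.2]))
    have u2 : ∫ _t in (ρ - r)..(ρ + r), F (ρ / 2) ≤ ∫ t in (ρ - r)..(ρ + r), F t :=
      intervalIntegral.integral_mono_on (by linarith) intervalIntegrable_const (hFi _ _)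
        (fun t ht => hmono (by linarith [ht.1]))
    rw [intervalIntegral.integral_const, smul_eq_mul] at u1 u2
    linarith
  rw [smoothMap, smoothMap, ← smul_sub, ← intervalIntegral.integral_sub
    (ballMean_intervalIntegrable Φ x _ _) (ballMean_intervalIntegrable Φ x' _ _), norm_smul,
    Real.norm_eq_abs, abs_inv, abs_of_pos hρ]
  refine (mul_le_mul_of_nonneg_left hint (inv_nonneg.2 hρ.le)).trans (le_of_eq ?_)
  field_simp
  ring

theorem norm_sum_smul_sub_le {S : Finset X} (hS : S.Nonempty) (Φ : X → E) (v : E) {w : ℝ}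
    (hw : ∀ y ∈ S, ‖Φ y - v‖ ≤ w) : ‖(S.card : ℝ)⁻¹ • ∑ y ∈ S, Φ y - v‖ ≤ w := by
  have hc : (0:ℝ) < S.card := by exact_mod_cast Finset.card_pos.2 hS
  have e : (S.card : ℝ)⁻¹ • ∑ y ∈ S, Φ y - v = (S.card : ℝ)⁻¹ • ∑ y ∈ S, (Φ y - v) := by
    rw [Finset.sum_sub_distrib, Finset.sum_const, smul_sub, ← Nat.cast_smul_eq_nsmul ℝ,
      inv_smul_smul₀ hc.ne']
  rw [e, norm_smul, Real.norm_eq_abs, abs_inv, abs_of_pos hc, inv_mul_le_iff₀ hc]
  refine (norm_sum_le_of_le S hw).trans (le_of_eq ?_)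
  simp [nsmul_eq_mul]

theorem norm_ballMean_sub_le (Φ : X → E) (x : X) {t w : ℝ} (ht : 0 ≤ t) (v : E)
    (hw : ∀ y, dist x y ≤ t → ‖Φ y - v‖ ≤ w) : ‖ballMean Φ x t - v‖ ≤ w :=
  norm_sum_smul_sub_le ⟨x, self_mem_fball x ht⟩ Φ v (fun y hy => hw y (mem_fball.1 hy))

/-- Crude bound for arbitrary pairs. -/
theorem norm_smoothMap_sub_le_far (Φ : X → E) {ρ w : ℝ} (hρ : 0 < ρ) (x x' : X)
    (hw : ∀ y z, dist x y ≤ 2 * ρ → dist x' z ≤ 2 * ρ → ‖Φ y - Φ z‖ ≤ w) :
    ‖smoothMap Φ ρ x - smoothMap Φ ρ x'‖ ≤ w := by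
  rw [smoothMap, smoothMap, ← smul_sub, ← intervalIntegral.integral_sub
    (ballMean_intervalIntegrable Φ x _ _) (ballMean_intervalIntegrable Φ x' _ _), norm_smul,
    Real.norm_eq_abs, abs_inv, abs_of_pos hρ, inv_mul_le_iff₀ hρ]
  refine (intervalIntegral.norm_integral_le_of_norm_le_const (C := w) (fun t ht => ?_)).trans
    (le_of_eq ?_)
  · rw [Set.uIoc_of_le (by linarith)] at ht
    refine norm_ballMean_sub_le Φ x (by linarith [ht.1]) _ (fun y hy => ?_)
    rw [norm_sub_rev]
    refine norm_ballMean_sub_le Φ x' (by linarith [ht.1]) _ (fun z hz => ?_)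
    rw [norm_sub_rev]
    exact hw y z (hy.trans ht.2) (hz.trans ht.2)
  · rw [show 2 * ρ - ρ = ρ by ring, abs_of_pos hρ, mul_comm]

theorem norm_smoothMap_sub_self_le [CompleteSpace E] (Φ : X → E) {ρ w : ℝ} (hρ : 0 < ρ) (x : X)
    (hw : ∀ y, dist x y ≤ 2 * ρ → ‖Φ y - Φ x‖ ≤ w) : ‖smoothMap Φ ρ x - Φ x‖ ≤ w := by
  have e : Φ x = ρ⁻¹ • ∫ _t in ρ..(2 * ρ), Φ x := by
    rw [intervalIntegral.integral_const, show 2 * ρ - ρ = ρ by ring, inv_smul_smul₀ hρ.ne']
  conv_lhs => rw [e]
  rw [smoothMap, ← smul_sub, ← intervalIntegral.integral_sub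
    (ballMean_intervalIntegrable Φ x _ _) intervalIntegrable_const, norm_smul,
    Real.norm_eq_abs, abs_inv, abs_of_pos hρ, inv_mul_le_iff₀ hρ]
  refine (intervalIntegral.norm_integral_le_of_norm_le_const (C := w) (fun t ht => ?_)).trans
    (le_of_eq ?_)
  · rw [Set.uIoc_of_le (by linarith)] at ht
    exact norm_ballMean_sub_le Φ x (by linarith [ht.1]) _ (fun y hy => hw y (hy.trans ht.2))
  · rw [show 2 * ρ - ρ = ρ by ring, abs_of_pos hρ, mul_comm]

end Vale.Agent.P249
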