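import Vale.Agent.P249.Main
import Vale.Agent.P249.Gaussian

/-!
A fine grid in `ℓ₂^k` needs dimension of order `k^{p/2}` in `ℓ_p`.
-/

namespace Vale.Agent.P249

open MeasureTheory ProbabilityTheory Filter
open scoped NNReal

variable {k : ℕ}

/-- Grid index of a real number: `t ↦ ⌊t k⌋` clamped to `[-k², k²]`. -/
noncomputable def gridInt (k : ℕ) (t : ℝ) : ℤ :=
  max (-((k : ℤ) ^ 2)) (min ((k : ℤ) ^ 2) ⌊t * k⌋)

theorem gridInt_mem (k : ℕ) (t : ℝ) :
    -((k : ℤ) ^ 2) ≤ gridInt k t ∧ gridInt k t ≤ (k : ℤ) ^ 2 := by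
  unfold gridInt
  have : (0:ℤ) ≤ (k:ℤ) ^ 2 := sq_nonneg _
  omega

theorem gridInt_error (hk : 1 ≤ k) (t : ℝ) :
    |(gridInt k t : ℝ) / k - t| ≤ 1 / k + t ^ 2 / k := by
  have hk0 : (0:ℝ) < k := by exact_mod_cast hk
  have hfl := Int.floor_le (t * k)
  have hfu := Int.lt_floor_add_one (t * k)
  set z := ⌊t * k⌋
  rw [abs_le]
  have ht2 : 0 ≤ t ^ 2 / k := by positivity
  have h1k : (0:ℝ) ≤ 1 / k := by positivity
  rcases le_or_gt z ((k:ℤ) ^ 2) with h1 | h1
  · rcases le_or_gt (-((k:ℤ) ^ 2)) z with h2 | h2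
    · have e : gridInt k t = z := by unfold gridInt; omega
      rw [e]
      have a : (z:ℝ) / k ≤ t := by rw [div_le_iff₀ hk0]; exact hfl
      have b : t - 1 / k ≤ (z:ℝ) / k := by
        rw [le_div_iff₀ hk0, sub_mul, one_div, inv_mul_cancel₀ hk0.ne']; linarith
      constructor <;> linarith
    · have hsq : (0:ℤ) ≤ (k:ℤ) ^ 2 := sq_nonneg _
      have e : gridInt k t = -((k:ℤ) ^ 2) := by
        show max (-((k:ℤ) ^ 2)) (min ((k:ℤ) ^ 2) z) = _
        omega
      rw [e]
      have h2' : (z:ℝ) + 1 ≤ -((k:ℝ) ^ 2) := by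
        exact_mod_cast (by omega : z + 1 ≤ -((k:ℤ) ^ 2))
      have htk : t ≤ -(k:ℝ) := by nlinarith
      have : -t ≤ t ^ 2 / k := by rw [le_div_iff₀ hk0]; nlinarith
      have e2 : ((-((k:ℤ) ^ 2) : ℤ) : ℝ) / k = -(k:ℝ) := by push_cast; field_simp
      rw [e2]
      constructor <;> linarith
  · have hsq : (0:ℤ) ≤ (k:ℤ) ^ 2 := sq_nonneg _
    have e : gridInt k t = (k:ℤ) ^ 2 := by
      show max (-((k:ℤ) ^ 2)) (min ((k:ℤ) ^ 2) z) = _
      omega
    rw [e]
    have h1' : ((k:ℝ) ^ 2) + 1 ≤ (z:ℝ) := by exact_mod_cast (by omega : (k:ℤ) ^ 2 + 1 ≤ z)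
    have htk : (k:ℝ) ≤ t := by nlinarith
    have : t ≤ t ^ 2 / k := by rw [le_div_iff₀ hk0]; nlinarith
    have e2 : (((k:ℤ) ^ 2 : ℤ) : ℝ) / k = (k:ℝ) := by push_cast; field_simp
    rw [e2]
    constructor <;> linarith

/-- The grid map on `ℓ₂^k`. -/
noncomputable def gridRound (k : ℕ) (g : EuclideanSpace ℝ (Fin k)) : EuclideanSpace ℝ (Fin k) :=
  WithLp.toLp 2 (fun i => (gridInt k (g i) : ℝ) / k)

theorem measurable_gridRound (k : ℕ) : Measurable (gridRound k) := by
  refine (WithLp.measurable_toLp 2 _).comp (measurable_pi_lambda _ (fun i => ?_))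
  unfold gridInt
  fun_prop

theorem gridRound_error (hk : 1 ≤ k) (g : EuclideanSpace ℝ (Fin k)) :
    ‖gridRound k g - g‖ ≤ 1 + (∑ i, g i ^ 2) / k := by
  have hk0 : (0:ℝ) < k := by exact_mod_cast hk
  have h1 : ‖gridRound k g - g‖ ≤ ∑ i, |(gridRound k g - g) i| := by
    rw [EuclideanSpace.norm_eq, Real.sqrt_le_left (Finset.sum_nonneg fun i _ => abs_nonneg _)]
    simp only [Real.norm_eq_abs]
    exact Finset.sum_sq_le_sq_sum_of_nonneg (fun i _ => abs_nonneg _)
  refine h1.trans ?_
  calc ∑ i, |(gridRound k g - g) i| ≤ ∑ i : Fin k, (1 / (k:ℝ) + g i ^ 2 / k) :=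
        Finset.sum_le_sum (fun i _ => gridInt_error hk (g i))
    _ = _ := by
      rw [Finset.sum_add_distrib, Finset.sum_const, Finset.card_univ, Fintype.card_fin,
        nsmul_eq_mul, ← Finset.sum_div]
      field_simp

theorem norm_gridRound_le (hk : 1 ≤ k) (g : EuclideanSpace ℝ (Fin k)) :
    ‖gridRound k g‖ ≤ (k:ℝ) * k := by
  have hk0 : (0:ℝ) < k := by exact_mod_cast hk
  rw [EuclideanSpace.norm_eq, Real.sqrt_le_left (by positivity)]
  calc ∑ i, ‖gridRound k g i‖ ^ 2 ≤ ∑ _i : Fin k, (k:ℝ) ^ 2 := by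
        refine Finset.sum_le_sum (fun i _ => ?_)
        refine pow_le_pow_left₀ (norm_nonneg _) ?_ 2
        show ‖(gridInt k (g i) : ℝ) / k‖ ≤ k
        have h := gridInt_mem k (g i)
        have h1 : -((k:ℝ) ^ 2) ≤ (gridInt k (g i) : ℝ) := by exact_mod_cast h.1
        have h2 : (gridInt k (g i) : ℝ) ≤ (k:ℝ) ^ 2 := by exact_mod_cast h.2
        rw [Real.norm_eq_abs, abs_div, Nat.abs_cast, div_le_iff₀ hk0, abs_le]
        constructor <;> nlinarith
    _ ≤ _ := by
        rw [Finset.sum_const, Finset.card_univ, Fintype.card_fin, nsmul_eq_mul]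
        have : (1:ℝ) ≤ k := by exact_mod_cast hk
        nlinarith [mul_le_mul_of_nonneg_left this (by positivity : (0:ℝ) ≤ (k:ℝ) * k * k)]

theorem integral_coord (i : Fin k) {r : ℝ} (hr : 0 < r) :
    Integrable (fun g : EuclideanSpace ℝ (Fin k) => |g i| ^ r) (stdGaussian _) ∧
      ∫ g, |g i| ^ r ∂(stdGaussian (EuclideanSpace ℝ (Fin k))) = gaussMoment r := by
  have h := integral_abs_apply_rpow (innerSL ℝ (EuclideanSpace.single i (1:ℝ))) hr
  have hn : ‖innerSL ℝ (EuclideanSpace.single i (1:ℝ))‖ = 1 := by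
    rw [innerSL_apply_norm, PiLp.norm_single, norm_one]
  simpa [hn, EuclideanSpace.inner_single_left] using h

/-- Moments of the rounding error. -/
theorem gridRound_moment (hk : 1 ≤ k) {p : ℝ} (hp : 1 ≤ p) :
    Integrable (fun g => ‖gridRound k g - g‖ ^ p) (stdGaussian _) ∧
      ∫ g, ‖gridRound k g - g‖ ^ p ∂(stdGaussian (EuclideanSpace ℝ (Fin k))) ≤
        (2:ℝ) ^ (p - 1) * (1 + gaussMoment (2 * p)) := by
  have hp0 : 0 < p := by linarith
  have hk0 : (0:ℝ) < k := by exact_mod_cast hk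
  let B : EuclideanSpace ℝ (Fin k) → ℝ := fun g =>
    (2:ℝ) ^ (p - 1) * (1 + (∑ i, |g i| ^ (2 * p)) / k)
  have hsum : Integrable (fun g : EuclideanSpace ℝ (Fin k) => ∑ i, |g i| ^ (2 * p))
      (stdGaussian _) := integrable_finsetSum _ (fun i _ => (integral_coord i (by linarith)).1)
  have hB : Integrable B (stdGaussian _) :=
    (((integrable_const (1:ℝ)).add (hsum.div_const _))).const_mul _
  have hle : ∀ g, ‖gridRound k g - g‖ ^ p ≤ B g := by
    intro g
    have hq : 0 ≤ (∑ i, g i ^ 2) / k := by positivity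
    refine (Real.rpow_le_rpow (norm_nonneg _) (gridRound_error hk g) hp0.le).trans ?_
    have h2p := Real.rpow_sum_le_const_mul_sum_rpow Finset.univ ![1, (∑ i, g i ^ 2) / (k:ℝ)] hp
    simp only [Fin.sum_univ_two, Matrix.cons_val_zero, Matrix.cons_val_one, Finset.card_univ,
      Fintype.card_fin, abs_one, abs_of_nonneg hq, Nat.cast_ofNat] at h2p
    refine h2p.trans ?_
    refine mul_le_mul_of_nonneg_left (add_le_add (le_of_eq (Real.one_rpow p)) ?_) (by positivity)
    rw [Real.div_rpow (Finset.sum_nonneg fun i _ => sq_nonneg _) hk0.le, div_le_div_iff₀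
      (by positivity) hk0]
    have h := Real.rpow_sum_le_const_mul_sum_rpow Finset.univ (fun i => g i ^ 2) hp
    simp only [abs_pow, sq_abs, Finset.card_univ, Fintype.card_fin] at h
    have e : ∀ i : Fin k, (g i ^ 2) ^ p = |g i| ^ (2 * p) := by
      intro i
      rw [← sq_abs, ← Real.rpow_natCast, ← Real.rpow_mul (abs_nonneg _)]
      norm_num
    simp only [e] at h
    refine (mul_le_mul_of_nonneg_right h hk0.le).trans (le_of_eq ?_)
    rw [mul_comm ((k:ℝ) ^ (p - 1)), mul_assoc, ← Real.rpow_add_one hk0.ne', sub_add_cancel]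
  constructor
  · refine hB.mono' ?_ (Eventually.of_forall fun g => ?_)
    · exact (((measurable_gridRound k).sub measurable_id).norm.pow_const p).aestronglyMeasurable
    · rw [Real.norm_eq_abs, abs_of_nonneg (by positivity)]; exact hle g
  · refine (integral_mono_of_nonneg (Eventually.of_forall fun g => by positivity) hB
      (Eventually.of_forall hle)).trans (le_of_eq ?_)
    simp only [B]
    rw [integral_const_mul, integral_add (integrable_const _) (hsum.div_const _), integral_div,
      integral_finsetSum _ (fun i _ => (integral_coord i (by linarith)).1)]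
    simp only [(integral_coord _ (show 0 < 2 * p by linarith)).2]
    simp [hk0.ne']

/-- Two independent rounded Gaussian vectors are `√k` apart on average. -/
theorem gridRound_separation (hk : 1 ≤ k) :
    Integrable (fun q => ‖gridRound k q.1 - gridRound k q.2‖)
        ((stdGaussian (EuclideanSpace ℝ (Fin k))).prod (stdGaussian _)) ∧
      Real.sqrt k * gaussMoment 1 - 2 * (1 + gaussMoment 2) ≤
        ∫ q, ‖gridRound k q.1 - gridRound k q.2‖
          ∂((stdGaussian (EuclideanSpace ℝ (Fin k))).prod (stdGaussian _)) := by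
  set γ := stdGaussian (EuclideanSpace ℝ (Fin k))
  have hk0 : (0:ℝ) < k := by exact_mod_cast hk
  obtain ⟨hei, he⟩ := gridRound_moment hk (le_refl (1:ℝ))
  simp only [Real.rpow_one, sub_self, Real.rpow_zero, one_mul, mul_one] at hei he
  have hid : Integrable (fun g : EuclideanSpace ℝ (Fin k) => g) γ := IsGaussian.integrable_id
  have hX : Integrable (fun q => ‖gridRound k q.1 - gridRound k q.2‖) (γ.prod γ) := by
    refine (integrable_const (2 * ((k:ℝ) * k))).mono' ?_ (Eventually.of_forall fun q => ?_)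
    · exact ((((measurable_gridRound k).comp measurable_fst).sub
        ((measurable_gridRound k).comp measurable_snd)).norm).aestronglyMeasurable
    · rw [norm_norm]
      linarith [norm_sub_le (gridRound k q.1) (gridRound k q.2), norm_gridRound_le hk q.1,
        norm_gridRound_le hk q.2]
  refine ⟨hX, ?_⟩
  have hd : Integrable (fun q => ‖q.1 - q.2‖) (γ.prod γ) :=
    ((hid.comp_fst γ).sub (hid.comp_snd γ)).norm
  have he1 : Integrable (fun q => ‖gridRound k q.1 - q.1‖) (γ.prod γ) := hei.comp_fst γ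
  have he2 : Integrable (fun q => ‖gridRound k q.2 - q.2‖) (γ.prod γ) := hei.comp_snd γ
  have hlow : ∫ q, ‖q.1 - q.2‖ ∂(γ.prod γ) ≤ ∫ q, (‖gridRound k q.1 - gridRound k q.2‖ +
      (‖gridRound k q.1 - q.1‖ + ‖gridRound k q.2 - q.2‖)) ∂(γ.prod γ) := by
    refine integral_mono hd (hX.add (he1.add he2)) (fun q => ?_)
    have e : q.1 - q.2 = (gridRound k q.1 - gridRound k q.2) +
        (-(gridRound k q.1 - q.1) + (gridRound k q.2 - q.2)) := by abel
    rw [e]
    refine (norm_add_le _ _).trans (add_le_add le_rfl ((norm_add_le _ _).trans ?_))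
    rw [norm_neg]
  have h12 : Integrable (fun q : EuclideanSpace ℝ (Fin k) × EuclideanSpace ℝ (Fin k) =>
      ‖gridRound k q.1 - q.1‖ + ‖gridRound k q.2 - q.2‖) (γ.prod γ) := he1.add he2
  rw [integral_add hX h12, integral_add he1 he2] at hlow
  have e1 : ∫ q, ‖gridRound k q.1 - q.1‖ ∂(γ.prod γ) = ∫ g, ‖gridRound k g - g‖ ∂γ := by
    rw [integral_fun_fst (fun g => ‖gridRound k g - g‖)]; simp
  have e2 : ∫ q, ‖gridRound k q.2 - q.2‖ ∂(γ.prod γ) = ∫ g, ‖gridRound k g - g‖ ∂γ := by
    rw [integral_fun_snd (fun g => ‖gridRound k g - g‖)]; simp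
  rw [e1, e2] at hlow
  have hnorm : Real.sqrt k * gaussMoment 1 ≤ ∫ g, ‖g‖ ∂γ := by
    have hsum : Integrable (fun g : EuclideanSpace ℝ (Fin k) => ∑ i, |g i| ^ (1:ℝ)) γ :=
      integrable_finsetSum _ (fun i _ => (integral_coord i one_pos).1)
    calc Real.sqrt k * gaussMoment 1
        = ∫ g, (∑ i, |g i| ^ (1:ℝ)) / Real.sqrt k ∂γ := by
          rw [integral_div, integral_finsetSum _ (fun i _ => (integral_coord i one_pos).1)]
          simp only [(integral_coord _ one_pos).2, γ]
          rw [Finset.sum_const, Finset.card_univ, Fintype.card_fin, nsmul_eq_mul,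
            mul_div_right_comm, Real.div_sqrt]
      _ ≤ ∫ g, ‖g‖ ∂γ := by
          refine integral_mono (hsum.div_const _) hid.norm (fun g => ?_)
          simp only [Real.rpow_one]
          rw [div_le_iff₀ (Real.sqrt_pos.2 hk0), EuclideanSpace.norm_eq,
            ← Real.sqrt_mul (by positivity)]
          refine Real.le_sqrt_of_sq_le ?_
          have h := sq_sum_le_card_mul_sum_sq (s := (Finset.univ : Finset (Fin k)))
            (f := fun i => |g i|)
          simpa [mul_comm] using h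
  have hjen : ∫ g, ‖g‖ ∂γ ≤ ∫ q, ‖q.1 - q.2‖ ∂(γ.prod γ) := by
    rw [integral_prod _ hd]
    refine integral_mono hid.norm hd.integral_prod_left (fun g => ?_)
    calc ‖g‖ = ‖∫ g', (g - g') ∂γ‖ := by
          rw [integral_sub (integrable_const g) hid, integral_const]
          simp [γ]
      _ ≤ _ := norm_integral_le_integral_norm _
  linarith

/-- The constant in the grid lower bound. -/
noncomputable def gridConst (p : ℝ) : ℝ :=
  (3:ℝ) ^ (p - 1) * ((Real.pi / 2) ^ p * gaussMoment p +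
    2 * ((2:ℝ) ^ (p - 1) * (1 + gaussMoment (2 * p))))

theorem gridConst_pos {p : ℝ} (hp : 0 < p) : 0 < gridConst p := by
  have h1 := gaussMoment_nonneg p
  have h2 := gaussMoment_nonneg (2 * p)
  unfold gridConst
  positivity

/-- One scalar coordinate of an embedding contributes `O(D^p)`. -/
theorem coord_bound (hk : 1 ≤ k) {p : ℝ} (hp : 1 ≤ p) {φ : EuclideanSpace ℝ (Fin k) → ℝ}
    {K : ℝ≥0} (hφ : LipschitzWith K φ) :
    ∫ q, |φ (gridRound k q.1) - φ (gridRound k q.2)| ^ p
      ∂((stdGaussian (EuclideanSpace ℝ (Fin k))).prod (stdGaussian _)) ≤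
      gridConst p * (K:ℝ) ^ p := by
  set γ := stdGaussian (EuclideanSpace ℝ (Fin k))
  have hp0 : 0 < p := by linarith
  obtain ⟨hei, he⟩ := gridRound_moment hk hp
  have h0 := integrable_lipschitz_comp hφ hp0
  have h1 : Integrable (fun q => (K:ℝ) ^ p * ‖gridRound k q.1 - q.1‖ ^ p) (γ.prod γ) :=
    (hei.comp_fst γ).const_mul _
  have h2 : Integrable (fun q => (K:ℝ) ^ p * ‖gridRound k q.2 - q.2‖ ^ p) (γ.prod γ) :=
    (hei.comp_snd γ).const_mul _
  refine (integral_mono_of_nonneg (Eventually.of_forall fun q => by positivity)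
    ((h0.add (h1.add h2)).const_mul ((3:ℝ) ^ (p - 1))) (Eventually.of_forall fun q => ?_)).trans ?_
  · show |φ (gridRound k q.1) - φ (gridRound k q.2)| ^ p ≤ _
    set a := φ q.1 - φ q.2
    set b := φ (gridRound k q.1) - φ q.1
    set c := φ q.2 - φ (gridRound k q.2)
    have hb : |b| ≤ (K:ℝ) * ‖gridRound k q.1 - q.1‖ := by
      simpa [b, Real.dist_eq, dist_eq_norm] using hφ.dist_le_mul (gridRound k q.1) q.1
    have hc : |c| ≤ (K:ℝ) * ‖gridRound k q.2 - q.2‖ := by
      simpa [c, Real.dist_eq, dist_eq_norm, norm_sub_rev] using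
        hφ.dist_le_mul q.2 (gridRound k q.2)
    have e : φ (gridRound k q.1) - φ (gridRound k q.2) = a + b + c := by simp only [a, b, c]; ring
    have h3 := Real.rpow_sum_le_const_mul_sum_rpow Finset.univ ![a, b, c] hp
    simp [Fin.sum_univ_three] at h3
    rw [e]
    refine (Real.rpow_le_rpow (abs_nonneg _) (abs_add_three a b c) hp0.le).trans (h3.trans ?_)
    refine mul_le_mul_of_nonneg_left ?_ (by positivity)
    show _ ≤ |a| ^ p + ((K:ℝ) ^ p * _ + (K:ℝ) ^ p * _)
    rw [← add_assoc]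
    refine add_le_add (add_le_add le_rfl ?_) ?_
    · exact (Real.rpow_le_rpow (abs_nonneg _) hb hp0.le).trans_eq
        (Real.mul_rpow K.2 (norm_nonneg _))
    · exact (Real.rpow_le_rpow (abs_nonneg _) hc hp0.le).trans_eq
        (Real.mul_rpow K.2 (norm_nonneg _))
  · rw [integral_const_mul, integral_add' h0 (h1.add h2), integral_add' h1 h2]
    simp only [integral_const_mul]
    rw [integral_fun_fst (fun g => ‖gridRound k g - g‖ ^ p),
      integral_fun_snd (fun g => ‖gridRound k g - g‖ ^ p)]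
    simp only [probReal_univ, one_smul]
    have hosc := oscillation_le hφ hp
    unfold gridConst
    rw [mul_assoc]
    refine mul_le_mul_of_nonneg_left ?_ (by positivity)
    have hK : (0:ℝ) ≤ (K:ℝ) ^ p := Real.rpow_nonneg K.2 p
    have := mul_le_mul_of_nonneg_left he hK
    simp only [γ] at *
    linarith

/-- The grid cannot be embedded in `ℓ_p^d` unless `d` is of order `k^{p/2}`. -/
theorem grid_lower (hk : 1 ≤ k) {p : ℝ} (hp : 1 ≤ p)
    (hbig : 4 * (1 + gaussMoment 2) ≤ Real.sqrt k * gaussMoment 1)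
    (d : ℕ) (φ : Fin d → EuclideanSpace ℝ (Fin k) → ℝ) (K : ℝ≥0)
    (hφ : ∀ s, LipschitzWith K (φ s))
    (hlow : ∀ g g', ‖gridRound k g - gridRound k g'‖ ^ p ≤
      ∑ s, |φ s (gridRound k g) - φ s (gridRound k g')| ^ p) :
    (Real.sqrt k * (gaussMoment 1 / 4)) ^ p ≤ d * (gridConst p * (K:ℝ) ^ p) := by
  set γ := stdGaussian (EuclideanSpace ℝ (Fin k))
  have hp0 : 0 < p := by linarith
  obtain ⟨hX, hsep⟩ := gridRound_separation hk
  set A := Real.sqrt k * (gaussMoment 1 / 4) with hA
  have hm2 := gaussMoment_nonneg 2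
  have hA0 : 0 < A := by rw [hA]; linarith
  have hint : ∀ s, Integrable (fun q => |φ s (gridRound k q.1) - φ s (gridRound k q.2)| ^ p)
      (γ.prod γ) := by
    intro s
    refine (integrable_const (((K:ℝ) * (2 * ((k:ℝ) * k))) ^ p)).mono' ?_
      (Eventually.of_forall fun q => ?_)
    · exact (((((hφ s).continuous.measurable.comp ((measurable_gridRound k).comp measurable_fst)).sub
        ((hφ s).continuous.measurable.comp ((measurable_gridRound k).comp measurable_snd))).abs
        ).pow_const p).aestronglyMeasurable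
    · rw [Real.norm_eq_abs, abs_of_nonneg (by positivity)]
      refine Real.rpow_le_rpow (abs_nonneg _) ?_ hp0.le
      refine ((hφ s).dist_le_mul _ _).trans (mul_le_mul_of_nonneg_left ?_ K.2)
      rw [dist_eq_norm]
      linarith [norm_sub_le (gridRound k q.1) (gridRound k q.2), norm_gridRound_le hk q.1,
        norm_gridRound_le hk q.2]
  have key : A ^ (p - 1) * ∫ q, ‖gridRound k q.1 - gridRound k q.2‖ ∂(γ.prod γ) - A ^ p ≤
      ∫ q, (∑ s, |φ s (gridRound k q.1) - φ s (gridRound k q.2)| ^ p) ∂(γ.prod γ) := by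
    calc _ = ∫ q, (A ^ (p - 1) * ‖gridRound k q.1 - gridRound k q.2‖ - A ^ p) ∂(γ.prod γ) := by
          rw [integral_sub (hX.const_mul _) (integrable_const _), integral_const_mul]
          simp [γ]
      _ ≤ _ := by
          refine integral_mono ((hX.const_mul _).sub (integrable_const _))
            (integrable_finsetSum _ (fun s _ => hint s)) (fun q => ?_)
          refine le_trans ?_ (hlow q.1 q.2)
          set X := ‖gridRound k q.1 - gridRound k q.2‖
          have hX0 : 0 ≤ X := norm_nonneg _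
          have hAp : A ^ (p - 1) * A = A ^ p := by
            rw [← Real.rpow_add_one hA0.ne', sub_add_cancel]
          rcases le_or_gt X A with h | h
          · have := mul_le_mul_of_nonneg_left h (Real.rpow_nonneg hA0.le (p - 1))
            linarith [Real.rpow_nonneg hX0 p]
          · have hXp : X ^ (p - 1) * X = X ^ p := by
              rw [← Real.rpow_add_one (hA0.trans h).ne', sub_add_cancel]
            have := mul_le_mul_of_nonneg_right
              (Real.rpow_le_rpow hA0.le h.le (by linarith : (0:ℝ) ≤ p - 1)) hX0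
            linarith [Real.rpow_nonneg hA0.le p]
  rw [integral_finsetSum _ (fun s _ => hint s)] at key
  have hsum := key.trans (Finset.sum_le_sum (fun s _ => coord_bound hk hp (hφ s)))
  rw [Finset.sum_const, Finset.card_univ, Fintype.card_fin, nsmul_eq_mul] at hsum
  refine le_trans ?_ hsum
  have hAp : A ^ (p - 1) * A = A ^ p := by rw [← Real.rpow_add_one hA0.ne', sub_add_cancel]
  have h2A : 2 * A ≤ ∫ q, ‖gridRound k q.1 - gridRound k q.2‖ ∂(γ.prod γ) := by
    rw [hA]; linarith
  have := mul_le_mul_of_nonneg_left h2A (Real.rpow_nonneg hA0.le (p - 1))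
  linarith

end Vale.Agent.P249
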