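import Vale.Agent.P249.Spanner
import Vale.Agent.P249.Sampling

/-!
Near-linear dimension reduction for finite subsets of `L_p`.
-/

namespace Vale.Agent.P249

open MeasureTheory Real

variable {α : Type*} [MeasurableSpace α] {μ : Measure α}

theorem Lp_norm_nonneg' {p : ENNReal} (f : Lp ℝ p μ) : 0 ≤ ‖f‖ := ENNReal.toReal_nonneg

theorem Lp_norm_sub_comm' {p : ENNReal} (f g : Lp ℝ p μ) : ‖f - g‖ = ‖g - f‖ := by
  rw [← Lp.norm_neg, neg_sub]

theorem Lp_sub_integral {p : ℝ} (hp : 1 ≤ p) (f g : Lp ℝ (ENNReal.ofReal p) μ) :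
    Integrable (fun z => |f z - g z| ^ p) μ ∧ ∫ z, |f z - g z| ^ p ∂μ = ‖f - g‖ ^ p := by
  have hp0 : 0 < p := lt_of_lt_of_le one_pos hp
  have hne : ENNReal.ofReal p ≠ 0 := (ENNReal.ofReal_pos.2 hp0).ne'
  have hm := Lp.memLp (f - g)
  have hto : (ENNReal.ofReal p).toReal = p := ENNReal.toReal_ofReal hp0.le
  have hae : (fun z => ‖(f - g : Lp ℝ (ENNReal.ofReal p) μ) z‖ ^ p) =ᵐ[μ]
      fun z => |f z - g z| ^ p := by
    filter_upwards [Lp.coeFn_sub f g] with z hz
    rw [Real.norm_eq_abs, hz, Pi.sub_apply]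
  have hi := hm.integrable_norm_rpow hne ENNReal.ofReal_ne_top
  rw [hto] at hi
  refine ⟨hi.congr hae, ?_⟩
  rw [← integral_congr_ae hae, Lp.norm_def,
    hm.eLpNorm_eq_integral_rpow_norm hne ENNReal.ofReal_ne_top, hto,
    ENNReal.toReal_ofReal (rpow_nonneg (integral_nonneg (fun _ => rpow_nonneg (norm_nonneg _) _)) _),
    ← rpow_mul (integral_nonneg (fun _ => rpow_nonneg (norm_nonneg _) _)),
    inv_mul_cancel₀ hp0.ne', rpow_one]

/-- A density of total mass `3 n t^p` dominating all normalised pair integrands. -/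
theorem exists_density {p : ℝ} (hp : 1 ≤ p) {n k : ℕ} (hk : n < 3 ^ k) (hk1 : 1 ≤ k)
    (x : Fin n → Lp ℝ (ENNReal.ofReal p) μ) :
    ∃ h : α → ℝ, Integrable h μ ∧ (∀ z, 0 ≤ h z) ∧
      ∫ z, h z ∂μ ≤ ((2 * k : ℕ) : ℝ) ^ p * (3 * n) ∧
      ∀ᵐ z ∂μ, ∀ i j, |x i z - x j z| ^ p ≤ ‖x i - x j‖ ^ p * h z := by
  have hp0 : 0 < p := lt_of_lt_of_le one_pos hp
  set P : Finset (Fin n × Fin n) := Finset.univ.filter (fun e => e.1 < e.2) with hP
  obtain ⟨E, hEP, hG, hcov⟩ :=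
    exists_greedy (2 * k - 1) (by omega) (fun e => ‖x e.1 - x e.2‖) P
  have hcard : E.card ≤ 3 * n :=
    hG.card_le hk (fun e he => (Finset.mem_filter.1 (hEP he)).2)
  let r : Fin n × Fin n → α → ℝ := fun e z =>
    |x e.1 z - x e.2 z| ^ p / ‖x e.1 - x e.2‖ ^ p
  have hr0 : ∀ e z, 0 ≤ r e z := fun e z =>
    div_nonneg (rpow_nonneg (abs_nonneg _) _) (rpow_nonneg (Lp_norm_nonneg' _) _)
  have hri : ∀ e, Integrable (r e) μ := fun e => (Lp_sub_integral hp _ _).1.div_const _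
  refine ⟨fun z => ((2 * k : ℕ) : ℝ) ^ p * ∑ e ∈ E, r e z,
    (integrable_finsetSum _ (fun e _ => hri e)).const_mul _, fun z => ?_, ?_, ?_⟩
  · exact mul_nonneg (rpow_nonneg (Nat.cast_nonneg _) _) (Finset.sum_nonneg (fun e _ => hr0 e z))
  · rw [integral_const_mul, integral_finsetSum _ (fun e _ => hri e)]
    refine mul_le_mul_of_nonneg_left ?_ (rpow_nonneg (Nat.cast_nonneg _) _)
    calc ∑ e ∈ E, ∫ z, r e z ∂μ ≤ ∑ e ∈ E, (1 : ℝ) := by
          refine Finset.sum_le_sum (fun e _ => ?_)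
          simp only [r, integral_div, (Lp_sub_integral hp _ _).2]
          exact div_self_le_one _
      _ ≤ 3 * n := by simpa using (by exact_mod_cast hcard : (E.card : ℝ) ≤ ((3 * n : ℕ) : ℝ))
  · have hz0 : ∀ᵐ z ∂μ, ∀ e : Fin n × Fin n, ‖x e.1 - x e.2‖ ^ p = 0 →
        |x e.1 z - x e.2 z| ^ p = 0 := by
      rw [ae_all_iff]
      intro e
      by_cases h0 : ‖x e.1 - x e.2‖ ^ p = 0
      · have h := (integral_eq_zero_iff_of_nonneg
          (f := fun z => |x e.1 z - x e.2 z| ^ p)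
          (fun z => rpow_nonneg (abs_nonneg _) _) (Lp_sub_integral hp _ _).1).1
          (by rw [(Lp_sub_integral hp _ _).2]; exact h0)
        filter_upwards [h] with z hz _
        exact hz
      · exact Filter.Eventually.of_forall (fun z h => absurd h h0)
    filter_upwards [hz0] with z hz
    set R := ∑ e ∈ E, r e z with hR
    have hR0 : 0 ≤ R := Finset.sum_nonneg (fun e _ => hr0 e z)
    have hcore : ∀ i j, i < j → |x i z - x j z| ^ p ≤
        ‖x i - x j‖ ^ p * (((2 * k : ℕ) : ℝ) ^ p * R) := by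
      intro i j hij
      obtain ⟨m, hm, hw⟩ := hcov (i, j) (by simp [hP, hij])
      set dd := ‖x i - x j‖ with hdd
      have hdd0 : 0 ≤ dd := Lp_norm_nonneg' _
      set G := R ^ p⁻¹ with hGdef
      have hedge : ∀ a b, PairAdj (E.filter (fun f => ‖x f.1 - x f.2‖ ≤ dd)) a b →
          |x a z - x b z| ≤ dd * G := by
        have hone : ∀ a b, (a, b) ∈ E.filter (fun f => ‖x f.1 - x f.2‖ ≤ dd) →
            |x a z - x b z| ≤ dd * G := by
          intro a b hab
          obtain ⟨habE, hle⟩ := Finset.mem_filter.1 hab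
          simp only at hle
          rw [← rpow_le_rpow_iff (abs_nonneg _) (mul_nonneg hdd0 (rpow_nonneg hR0 _)) hp0,
            mul_rpow hdd0 (rpow_nonneg hR0 _), ← rpow_mul hR0, inv_mul_cancel₀ hp0.ne', rpow_one]
          by_cases h0 : ‖x a - x b‖ ^ p = 0
          · rw [hz (a, b) h0]
            exact mul_nonneg (rpow_nonneg hdd0 _) hR0
          calc |x a z - x b z| ^ p = ‖x a - x b‖ ^ p * r (a, b) z := by
                simp only [r]; field_simp
            _ ≤ dd ^ p * R := mul_le_mul (rpow_le_rpow (Lp_norm_nonneg' _) hle hp0.le)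
                (Finset.single_le_sum (fun e _ => hr0 e z) habE) (hr0 _ _) (rpow_nonneg hdd0 _)
        intro a b hab
        rcases hab with h | h
        · exact hone a b h
        · rw [abs_sub_comm]; exact hone b a h
      have htel := hw.abs_sub_le (fun a => x a z) (dd * G) hedge
      have hm' : (m : ℝ) ≤ ((2 * k : ℕ) : ℝ) := by exact_mod_cast (by omega : m ≤ 2 * k)
      have hGd : 0 ≤ dd * G := mul_nonneg hdd0 (rpow_nonneg hR0 _)
      calc |x i z - x j z| ^ p ≤ (((2 * k : ℕ) : ℝ) * (dd * G)) ^ p :=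
            rpow_le_rpow (abs_nonneg _) (htel.trans (mul_le_mul_of_nonneg_right hm' hGd)) hp0.le
        _ = _ := by
            rw [mul_rpow (Nat.cast_nonneg _) hGd, mul_rpow hdd0 (rpow_nonneg hR0 _),
              ← rpow_mul hR0, inv_mul_cancel₀ hp0.ne', rpow_one]
            ring
    intro i j
    rcases lt_trichotomy i j with hij | rfl | hij
    · exact hcore i j hij
    · simp [zero_rpow hp0.ne']
    · have := hcore j i hij
      rwa [abs_sub_comm, Lp_norm_sub_comm'] at this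

/-- Sampling from the density. -/
theorem exists_map_of_density {p : ℝ} (hp : 1 ≤ p) {n : ℕ}
    (x : Fin n → Lp ℝ (ENNReal.ofReal p) μ) (h : α → ℝ) (hhi : Integrable h μ)
    (hh0 : ∀ z, 0 ≤ h z) (hdom : ∀ᵐ z ∂μ, ∀ i j, |x i z - x j z| ^ p ≤ ‖x i - x j‖ ^ p * h z)
    {η : ℝ} (hη0 : 0 < η) (hη1 : η < 1) (d : ℕ)
    (hd : 4 * (∫ z, h z ∂μ) * Real.log (2 * ((n : ℝ) * n + 1)) ≤ d * η ^ 2) :
    ∃ f : Fin n → Fin d → ℝ, ∀ i j,
      ‖x i - x j‖ ^ p ≤ ∑ s, |f i s - f j s| ^ p ∧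
        ∑ s, |f i s - f j s| ^ p ≤ (1 + η) / (1 - η) * ‖x i - x j‖ ^ p := by
  classical
  have hp0 : 0 < p := lt_of_lt_of_le one_pos hp
  set S := ∫ z, h z ∂μ with hSdef
  rcases (integral_nonneg hh0 : (0:ℝ) ≤ S).eq_or_lt with hS | hS
  · refine ⟨fun _ _ => 0, fun i j => ?_⟩
    have hh : h =ᵐ[μ] 0 := (integral_eq_zero_iff_of_nonneg hh0 hhi).1 hS.symm
    have hz : ‖x i - x j‖ ^ p = 0 := by
      rw [← (Lp_sub_integral hp (x i) (x j)).2]
      refine integral_eq_zero_of_ae ?_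
      filter_upwards [hdom, hh] with z hz h0
      simp only [Pi.zero_apply] at h0 ⊢
      have := hz i j
      rw [h0, mul_zero] at this
      exact le_antisymm this (rpow_nonneg (abs_nonneg _) _)
    simp [hz, zero_rpow hp0.ne']
  let κ := {e : Fin n × Fin n // ‖x e.1 - x e.2‖ ^ p ≠ 0}
  let u : κ → α → ℝ := fun a z => |x a.1.1 z - x a.1.2 z| ^ p / ‖x a.1.1 - x a.1.2‖ ^ p
  have hcard : (Fintype.card κ : ℝ) ≤ (n : ℝ) * n := by
    have := Fintype.card_subtype_le (fun e : Fin n × Fin n => ‖x e.1 - x e.2‖ ^ p ≠ 0)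
    simp only [Fintype.card_prod, Fintype.card_fin] at this
    exact_mod_cast this
  have hd' : 4 * S * Real.log (2 * (Fintype.card κ + 1)) ≤ d * η ^ 2 := by
    refine le_trans ?_ hd
    gcongr
  obtain ⟨z, hz, hsum⟩ := exists_samples h hhi hh0 hS
    (fun z => ∀ i j, |x i z - x j z| ^ p ≤ ‖x i - x j‖ ^ p * h z) hdom u
    (fun a => (Lp_sub_integral hp _ _).1.div_const _)
    (fun a => by simp only [u, integral_div, (Lp_sub_integral hp _ _).2, div_self a.2])
    (fun z hz a => ⟨div_nonneg (rpow_nonneg (abs_nonneg _) _) (rpow_nonneg (Lp_norm_nonneg' _) _), by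
      simp only [u]; rw [div_le_iff₀ (lt_of_le_of_ne (rpow_nonneg (Lp_norm_nonneg' _) _) (Ne.symm a.2)), mul_comm]
      exact hz _ _⟩)
    hη0 hη1.le d hd'
  set q := (d : ℝ) / S with hq
  set c := ((1 - η) * q)⁻¹ with hc
  have hc0 : 0 ≤ c := inv_nonneg.2 (mul_nonneg (by linarith) (div_nonneg (Nat.cast_nonneg d) hS.le))
  refine ⟨fun i s => x i (z s) * (c / h (z s)) ^ p⁻¹, fun i j => ?_⟩
  have hterm : ∀ s, |x i (z s) * (c / h (z s)) ^ p⁻¹ - x j (z s) * (c / h (z s)) ^ p⁻¹| ^ p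
      = c * (|x i (z s) - x j (z s)| ^ p / h (z s)) := by
    intro s
    have h0 : 0 ≤ c / h (z s) := div_nonneg hc0 (hz s).2.le
    rw [← sub_mul, abs_mul, abs_of_nonneg (rpow_nonneg h0 _),
      mul_rpow (abs_nonneg _) (rpow_nonneg h0 _), ← rpow_mul h0, inv_mul_cancel₀ hp0.ne', rpow_one]
    ring
  simp only [hterm, ← Finset.mul_sum]
  by_cases h0 : ‖x i - x j‖ ^ p = 0
  · have : ∀ s, |x i (z s) - x j (z s)| ^ p = 0 := fun s => le_antisymm
      (by simpa [h0] using (hz s).1 i j) (rpow_nonneg (abs_nonneg _) _)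
    simp [this, h0]
  have hd0 : 0 < q := by
    refine div_pos ?_ hS
    rcases (Nat.cast_nonneg d : (0:ℝ) ≤ d).eq_or_lt with hd0 | hd0
    · exfalso
      rw [← hd0, zero_mul] at hd
      have hlog : 0 < Real.log (2 * ((n : ℝ) * n + 1)) := by
        refine Real.log_pos ?_
        have : (0:ℝ) ≤ (n : ℝ) * n := by positivity
        linarith
      nlinarith [mul_pos hS hlog]
    · exact hd0
  have hY := abs_le.1 (hsum ⟨(i, j), h0⟩)
  set D := ‖x i - x j‖ ^ p with hD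
  have hD0 : 0 < D := lt_of_le_of_ne (rpow_nonneg (Lp_norm_nonneg' _) _) (Ne.symm h0)
  have e : ∑ s, |x i (z s) - x j (z s)| ^ p / h (z s)
      = D * ∑ s, u ⟨(i, j), h0⟩ (z s) / h (z s) := by
    rw [Finset.mul_sum]
    refine Finset.sum_congr rfl (fun s _ => ?_)
    simp only [u, ← hD]
    field_simp
  rw [e]
  set Y := ∑ s, u ⟨(i, j), h0⟩ (z s) / h (z s)
  have hcq : c * ((1 - η) * q) = 1 := inv_mul_cancel₀ (mul_pos (by linarith) hd0).ne'
  constructor
  · calc D = (c * ((1 - η) * q)) * D := by rw [hcq, one_mul]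
      _ ≤ (c * Y) * D := by gcongr; nlinarith [hY.1]
      _ = _ := by ring
  · calc c * (D * Y) ≤ c * (D * ((1 + η) * q)) := by gcongr; nlinarith [hY.2]
      _ = _ := by rw [hc]; field_simp

end Vale.Agent.P249
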