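import Vale.Agent.P249.Gluing

/-!
Random nearest-in-a-random-order centres, and padding by growth of balls.
-/

namespace Vale.Agent.P249

open Finset

theorem card_perm_min_mem {n : ℕ} (S T : Finset (Fin n)) (hTS : T ⊆ S) (hS : S.Nonempty)
    (f : Equiv.Perm (Fin n) → Fin n) (hf : ∀ π, f π ∈ S ∧ ∀ w ∈ S, π (f π) ≤ π w) :
    (Finset.univ.filter (fun π => f π ∈ T)).card * S.card =
      Fintype.card (Equiv.Perm (Fin n)) * T.card := by
  classical
  let c : Fin n → ℕ := fun z => (Finset.univ.filter (fun π => f π = z)).card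
  have heq : ∀ z ∈ S, ∀ z' ∈ S, c z = c z' := by
    intro z hz z' hz'
    refine Finset.card_bij' (fun π _ => π * Equiv.swap z z') (fun π _ => π * Equiv.swap z z')
      ?_ ?_ ?_ ?_
    · intro π hπ
      simp only [Finset.mem_filter, Finset.mem_univ, true_and] at hπ ⊢
      obtain ⟨h1, h2⟩ := hf (π * Equiv.swap z z')
      by_contra hne
      have h3 := h2 z' hz'
      have h4 := (hf π).2 (Equiv.swap z z' (f (π * Equiv.swap z z')))
      have hmem : Equiv.swap z z' (f (π * Equiv.swap z z')) ∈ S := by
        rw [Equiv.swap_apply_def]; split_ifs <;> assumption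
      have h5 := h4 hmem
      rw [hπ] at h5
      simp only [Equiv.Perm.mul_apply, Equiv.swap_apply_right] at h3
      have h6 : π (Equiv.swap z z' (f (π * Equiv.swap z z'))) = π z := le_antisymm h3 h5
      have h7 := π.injective h6
      apply hne
      have := congrArg (Equiv.swap z z') h7
      simpa using this
    · intro π hπ
      simp only [Finset.mem_filter, Finset.mem_univ, true_and] at hπ ⊢
      obtain ⟨h1, h2⟩ := hf (π * Equiv.swap z z')
      by_contra hne
      have h3 := h2 z hz
      have h4 := (hf π).2 (Equiv.swap z z' (f (π * Equiv.swap z z')))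
      have hmem : Equiv.swap z z' (f (π * Equiv.swap z z')) ∈ S := by
        rw [Equiv.swap_apply_def]; split_ifs <;> assumption
      have h5 := h4 hmem
      rw [hπ] at h5
      simp only [Equiv.Perm.mul_apply, Equiv.swap_apply_left] at h3
      have h6 : π (Equiv.swap z z' (f (π * Equiv.swap z z'))) = π z' := le_antisymm h3 h5
      have h7 := π.injective h6
      apply hne
      have := congrArg (Equiv.swap z z') h7
      simpa using this
    · intro π _; simp [mul_assoc]
    · intro π _; simp [mul_assoc]
  obtain ⟨z₀, hz₀⟩ := hS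
  have hT : (Finset.univ.filter (fun π => f π ∈ T)).card = T.card * c z₀ := by
    rw [Finset.card_eq_sum_card_fiberwise (s := Finset.univ.filter (fun π => f π ∈ T)) (f := f)
      (t := T) (fun π hπ => (Finset.mem_filter.1 hπ).2)]
    rw [Finset.sum_congr rfl (fun z hz => ?_), Finset.sum_const, smul_eq_mul]
    rw [← heq z (hTS hz) z₀ hz₀]
    simp only [c, Finset.filter_filter]
    congr 1
    ext π
    simp only [Finset.mem_filter, Finset.mem_univ, true_and]
    exact ⟨fun h => h.2, fun h => ⟨h ▸ hz, h⟩⟩
  have hall : Fintype.card (Equiv.Perm (Fin n)) = S.card * c z₀ := by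
    rw [← Finset.card_univ, Finset.card_eq_sum_card_fiberwise (f := f) (t := S)
      (fun π _ => (hf π).1), Finset.sum_congr rfl (fun z hz => heq z hz z₀ hz₀), Finset.sum_const,
      smul_eq_mul]
  rw [hT, hall]; ring

variable {n : ℕ} [PseudoMetricSpace (Fin n)]

theorem exists_centre (π : Equiv.Perm (Fin n)) {t : ℝ} (ht : 0 ≤ t) (x : Fin n) :
    ∃ z, z ∈ fball x t ∧ ∀ w ∈ fball x t, π z ≤ π w :=
  (fball x t).exists_min_image π ⟨x, self_mem_fball x ht⟩

/-- The centre of `x`: the first point of the ball in the order `π`. -/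
noncomputable def centre (π : Equiv.Perm (Fin n)) (t : ℝ) (x : Fin n) : Fin n :=
  if ht : 0 ≤ t then (exists_centre π ht x).choose else x

theorem centre_spec (π : Equiv.Perm (Fin n)) {t : ℝ} (ht : 0 ≤ t) (x : Fin n) :
    centre π t x ∈ fball x t ∧ ∀ w ∈ fball x t, π (centre π t x) ≤ π w := by
  rw [centre, dif_pos ht]
  exact (exists_centre π ht x).choose_spec

theorem dist_centre_le (π : Equiv.Perm (Fin n)) {t : ℝ} (ht : 0 ≤ t) (x : Fin n) :
    dist x (centre π t x) ≤ t := mem_fball.1 (centre_spec π ht x).1

/-- The ball of radius `η t` around `x` is not cut. -/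
def Padded (π : Equiv.Perm (Fin n)) (η t : ℝ) (x : Fin n) : Prop :=
  ∀ y, dist x y ≤ η * t → centre π t y = centre π t x

theorem card_padded_ge {η : ℝ} (hη : 0 ≤ η) (hη1 : η ≤ 1) (t : ℝ) (ht : 0 < t) (x : Fin n)
    [DecidablePred fun π => Padded π η t x] :
    ((fball x ((1 - η) * t)).card : ℝ) / (fball x ((1 + η) * t)).card *
        Fintype.card (Equiv.Perm (Fin n)) ≤
      ((Finset.univ.filter (fun π => Padded π η t x)).card : ℝ) := by
  classical
  set S := fball x ((1 + η) * t)
  set T := fball x ((1 - η) * t)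
  have hηt : 0 ≤ η * t := mul_nonneg hη ht.le
  have hηt1 : η * t ≤ t := mul_le_of_le_one_left ht.le hη1
  have hS : S.Nonempty := ⟨x, self_mem_fball x (by linarith)⟩
  have hex : ∀ π : Equiv.Perm (Fin n), ∃ z, z ∈ S ∧ ∀ w ∈ S, π z ≤ π w :=
    fun π => S.exists_min_image π hS
  choose f hf using hex
  have hcount := card_perm_min_mem S T (fball_mono x (by linarith)) hS f hf
  have hsub : Finset.univ.filter (fun π => f π ∈ T) ⊆
      Finset.univ.filter (fun π => Padded π η t x) := by
    intro π hπ
    simp only [Finset.mem_filter, Finset.mem_univ, true_and] at hπ ⊢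
    have hfx := mem_fball.1 hπ
    have key : ∀ y, dist x y ≤ η * t → centre π t y = f π := by
      intro y hy
      obtain ⟨h1, h2⟩ := centre_spec π ht.le y
      have hin : centre π t y ∈ S := by
        refine mem_fball.2 ?_
        have := mem_fball.1 h1
        linarith [dist_triangle x y (centre π t y)]
      have hfy : f π ∈ fball y t := by
        refine mem_fball.2 ?_
        linarith [dist_triangle_left y (f π) x]
      exact π.injective (le_antisymm (h2 _ hfy) ((hf π).2 _ hin))
    intro y hy
    rw [key y hy, key x (by simp; linarith)]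
  have hle := Finset.card_le_card hsub
  have hSpos : (0:ℝ) < S.card := by exact_mod_cast hS.card_pos
  rw [div_mul_eq_mul_div, div_le_iff₀ hSpos]
  calc (T.card : ℝ) * Fintype.card (Equiv.Perm (Fin n))
      = ((Finset.univ.filter (fun π => f π ∈ T)).card : ℝ) * S.card := by
        exact_mod_cast (by rw [mul_comm]; exact hcount.symm :
          T.card * Fintype.card (Equiv.Perm (Fin n)) =
            (Finset.univ.filter (fun π => f π ∈ T)).card * S.card)
    _ ≤ _ := by gcongr

/-- Cut-off: `1` away from the boundary of the cluster of `x`, `0` at it. -/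
noncomputable def cutoff (π : Equiv.Perm (Fin n)) (η t : ℝ) (x : Fin n) : ℝ := by
  classical
  exact Finset.univ.inf' ⟨x, Finset.mem_univ x⟩
    (fun y => if centre π t y = centre π t x then 1 else min 1 (2 * dist x y / (η * t)))

theorem cutoff_le_one (π : Equiv.Perm (Fin n)) (η t : ℝ) (x : Fin n) : cutoff π η t x ≤ 1 := by
  classical
  refine (Finset.inf'_le _ (Finset.mem_univ x)).trans ?_
  simp

theorem cutoff_nonneg (π : Equiv.Perm (Fin n)) {η t : ℝ} (hη : 0 ≤ η) (ht : 0 ≤ t) (x : Fin n) :
    0 ≤ cutoff π η t x := by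
  classical
  refine Finset.le_inf' _ _ (fun y _ => ?_)
  split_ifs
  · exact zero_le_one
  · exact le_min zero_le_one (div_nonneg (mul_nonneg (by norm_num) dist_nonneg) (mul_nonneg hη ht))

theorem cutoff_le_of_ne (π : Equiv.Perm (Fin n)) (η t : ℝ) {x y : Fin n}
    (h : centre π t y ≠ centre π t x) : cutoff π η t x ≤ 2 * dist x y / (η * t) := by
  classical
  refine (Finset.inf'_le _ (Finset.mem_univ y)).trans ?_
  rw [if_neg h]
  exact min_le_right _ _

theorem cutoff_sub_le (π : Equiv.Perm (Fin n)) {η t : ℝ} (hη : 0 < η) (ht : 0 < t) {x y : Fin n}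
    (h : centre π t y = centre π t x) : cutoff π η t x ≤ cutoff π η t y + 2 * dist x y / (η * t) := by
  classical
  rw [← sub_le_iff_le_add]
  refine Finset.le_inf' _ _ (fun w _ => ?_)
  rw [sub_le_iff_le_add]
  refine (Finset.inf'_le _ (Finset.mem_univ w)).trans ?_
  have hd : 0 ≤ 2 * dist x y / (η * t) := by positivity
  rw [h]
  split_ifs
  · linarith
  · have h3 : 2 * dist x w / (η * t) ≤ 2 * dist y w / (η * t) + 2 * dist x y / (η * t) := by
      rw [← add_div]
      exact div_le_div_of_nonneg_right (by linarith [dist_triangle x y w]) (mul_nonneg hη.le ht.le)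
    rcases le_total 1 (2 * dist y w / (η * t)) with h1 | h1
    · rw [min_eq_left h1]; exact (min_le_left _ _).trans (by linarith)
    · rw [min_eq_right h1]; exact (min_le_right _ _).trans h3

theorem Padded.cutoff_eq_one {π : Equiv.Perm (Fin n)} {η t : ℝ} (hη : 0 < η) (ht : 0 < t)
    {x : Fin n} (h : Padded π η t x) {y : Fin n} (hy : dist x y ≤ η * t / 2) :
    centre π t y = centre π t x ∧ cutoff π η t y = 1 := by
  classical
  have hpos : 0 < η * t := mul_pos hη ht
  refine ⟨h y (by linarith), le_antisymm (cutoff_le_one π η t y) ?_⟩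
  refine Finset.le_inf' _ _ (fun w _ => ?_)
  split_ifs with hw
  · exact le_rfl
  · refine le_min le_rfl ?_
    rw [one_le_div hpos]
    by_contra hlt
    push Not at hlt
    apply hw
    rw [h w (by linarith [dist_triangle x y w]), h y (by linarith)]

end Vale.Agent.P249
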