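import Mathlib

/-!
Sparse spanners for an arbitrary symmetric weight on a finite set (greedy construction),
with the linear edge count coming from the elementary Moore bound.
-/

namespace Vale.Agent.P249

variable {n : ℕ}

/-- Adjacency relation of a finite set of pairs, symmetrised. -/
def PairAdj (E : Finset (Fin n × Fin n)) (a b : Fin n) : Prop :=
  (a, b) ∈ E ∨ (b, a) ∈ E

/-- `Hop A i j m` : there is a walk of exactly `m` steps along `A` from `i` to `j`. -/
inductive Hop (A : Fin n → Fin n → Prop) : Fin n → Fin n → ℕ → Prop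
  | refl (i : Fin n) : Hop A i i 0
  | cons {i l j : Fin n} {m : ℕ} : A i l → Hop A l j m → Hop A i j (m + 1)

namespace Hop

variable {A B : Fin n → Fin n → Prop} {i j l : Fin n} {m m' : ℕ}

theorem mono (hAB : ∀ a b, A a b → B a b) (h : Hop A i j m) : Hop B i j m := by
  induction h with
  | refl i => exact .refl i
  | cons ha _ ih => exact .cons (hAB _ _ ha) ih

theorem append (h : Hop A i l m) (h' : Hop A l j m') : Hop A i j (m + m') := by
  induction h with
  | refl i => simpa using h'
  | @cons a b c k ha _ ih =>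
    have h2 := Hop.cons ha (ih h')
    rw [show k + 1 + m' = k + m' + 1 by omega]
    exact h2

theorem single (h : A i j) : Hop A i j 1 := .cons h (.refl j)

theorem reverse (hA : ∀ a b, A a b → A b a) (h : Hop A i j m) : Hop A j i m := by
  induction h with
  | refl i => exact .refl i
  | cons ha _ ih => exact ih.append (single (hA _ _ ha))

/-- A walk in `A ∪ {edge ab}` either avoids the edge or decomposes at first and last use. -/
theorem split {a b : Fin n}
    (hB : ∀ x y, B x y → A x y ∨ (x = a ∧ y = b) ∨ (x = b ∧ y = a))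
    (h : Hop B i j m) :
    (∃ m' ≤ m, Hop A i j m') ∨ ∃ m₁ m₂, m₁ + m₂ + 1 ≤ m ∧
      ((Hop A i a m₁ ∧ Hop A b j m₂) ∨ (Hop A i b m₁ ∧ Hop A a j m₂)) := by
  induction h with
  | refl i => exact Or.inl ⟨0, le_rfl, .refl i⟩
  | @cons x y z k hxy _ ih =>
    rcases hB x y hxy with hA | ⟨rfl, rfl⟩ | ⟨rfl, rfl⟩
    · rcases ih with ⟨k', hk', hw⟩ | ⟨k₁, k₂, hk, hw⟩
      · exact Or.inl ⟨k' + 1, by omega, .cons hA hw⟩
      · refine Or.inr ⟨k₁ + 1, k₂, by omega, ?_⟩
        rcases hw with ⟨h1, h2⟩ | ⟨h1, h2⟩
        · exact Or.inl ⟨.cons hA h1, h2⟩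
        · exact Or.inr ⟨.cons hA h1, h2⟩
    · rcases ih with ⟨k', hk', hw⟩ | ⟨k₁, k₂, hk, hw⟩
      · exact Or.inr ⟨0, k', by omega, Or.inl ⟨.refl _, hw⟩⟩
      · rcases hw with ⟨_, h2⟩ | ⟨_, h2⟩
        · exact Or.inr ⟨0, k₂, by omega, Or.inl ⟨.refl _, h2⟩⟩
        · exact Or.inl ⟨k₂, by omega, h2⟩
    · rcases ih with ⟨k', hk', hw⟩ | ⟨k₁, k₂, hk, hw⟩
      · exact Or.inr ⟨0, k', by omega, Or.inr ⟨.refl _, hw⟩⟩
      · rcases hw with ⟨_, h2⟩ | ⟨_, h2⟩
        · exact Or.inl ⟨k₂, by omega, h2⟩
        · exact Or.inr ⟨0, k₂, by omega, Or.inr ⟨.refl _, h2⟩⟩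

/-- The telescoping bound along a walk. -/
theorem abs_sub_le (F : Fin n → ℝ) (M : ℝ) (hA : ∀ a b, A a b → |F a - F b| ≤ M)
    (h : Hop A i j m) : |F i - F j| ≤ m * M := by
  induction h with
  | refl i => simp
  | @cons x y z k hxy _ ih =>
    push_cast
    have h1 := _root_.abs_sub_le (F x) (F y) (F z)
    have h2 := hA x y hxy
    nlinarith [h1, h2, ih]

end Hop

/-- No edge of `E` can be replaced by a walk of at most `t` other edges. -/
def Girthy (t : ℕ) (E : Finset (Fin n × Fin n)) : Prop :=
  ∀ e ∈ E, ∀ m ≤ t, ¬ Hop (PairAdj (E.erase e)) e.1 e.2 m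

theorem Girthy.insert_edge {t : ℕ} {E : Finset (Fin n × Fin n)} (hE : Girthy t E)
    {e₀ : Fin n × Fin n} (h0 : ∀ m ≤ t, ¬ Hop (PairAdj E) e₀.1 e₀.2 m) :
    Girthy t (insert e₀ E) := by
  intro e he m hm hw
  by_cases hee : e = e₀
  · subst hee
    refine h0 m hm (hw.mono ?_)
    intro a b hab
    simp only [PairAdj, Finset.mem_erase, Finset.mem_insert] at hab ⊢
    tauto
  have heE : e ∈ E := by
    rcases Finset.mem_insert.1 he with h | h
    · exact absurd h hee
    · exact h
  have hB : ∀ x y, PairAdj ((insert e₀ E).erase e) x y →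
      PairAdj (E.erase e) x y ∨ (x = e₀.1 ∧ y = e₀.2) ∨ (x = e₀.2 ∧ y = e₀.1) := by
    intro x y hxy
    simp only [PairAdj, Finset.mem_erase, Finset.mem_insert] at hxy ⊢
    rcases hxy with ⟨hne, h | h⟩ | ⟨hne, h | h⟩
    · exact Or.inr (Or.inl ⟨by rw [← h], by rw [← h]⟩)
    · exact Or.inl (Or.inl ⟨hne, h⟩)
    · exact Or.inr (Or.inr ⟨by rw [← h], by rw [← h]⟩)
    · exact Or.inl (Or.inr ⟨hne, h⟩)
  have hsym : ∀ x y, PairAdj E x y → PairAdj E y x := fun x y h => Or.symm h
  have hsub : ∀ x y, PairAdj (E.erase e) x y → PairAdj E x y := by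
    intro x y h
    simp only [PairAdj, Finset.mem_erase] at h ⊢
    tauto
  have hedge : PairAdj E e.1 e.2 := Or.inl heE
  rcases Hop.split hB hw with ⟨m', hm', hw'⟩ | ⟨m₁, m₂, hle, hw'⟩
  · exact hE e heE m' (hm'.trans hm) hw'
  · rcases hw' with ⟨h1, h2⟩ | ⟨h1, h2⟩
    · have hA := ((h1.mono hsub).reverse hsym).append
        ((Hop.single hedge).append ((h2.mono hsub).reverse hsym))
      exact h0 _ (by omega) hA
    · have hA := (h2.mono hsub).append
        ((Hop.single (hsym _ _ hedge)).append (h1.mono hsub))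
      exact h0 _ (by omega) hA

/-- Greedy spanner: every pair is joined by a walk of at most `t` kept pairs none of which
is heavier, and no kept pair can be replaced by `t` other kept pairs. -/
theorem exists_greedy (t : ℕ) (ht : 1 ≤ t) (w : Fin n × Fin n → ℝ)
    (P : Finset (Fin n × Fin n)) :
    ∃ E ⊆ P, Girthy t E ∧ ∀ e ∈ P, ∃ m ≤ t,
      Hop (fun a b => PairAdj (E.filter (fun f => w f ≤ w e)) a b) e.1 e.2 m := by
  classical
  induction P using Finset.induction_on_max_value w with
  | empty => exact ⟨∅, le_refl _, by simp [Girthy], by simp⟩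
  | insert e₀ P _ hmax ih =>
    obtain ⟨E, hEP, hG, hcov⟩ := ih
    have hEle : ∀ f ∈ E, w f ≤ w e₀ := fun f hf => hmax f (hEP hf)
    by_cases h : ∃ m ≤ t, Hop (PairAdj E) e₀.1 e₀.2 m
    · refine ⟨E, hEP.trans (Finset.subset_insert _ _), hG, ?_⟩
      intro e he
      rcases Finset.mem_insert.1 he with rfl | he
      · obtain ⟨m, hm, hw⟩ := h
        refine ⟨m, hm, hw.mono ?_⟩
        intro a b hab
        simp only [PairAdj, Finset.mem_filter] at hab ⊢
        rcases hab with h1 | h1
        · exact Or.inl ⟨h1, hEle _ h1⟩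
        · exact Or.inr ⟨h1, hEle _ h1⟩
      · exact hcov e he
    · push Not at h
      refine ⟨insert e₀ E, Finset.insert_subset_insert _ hEP, hG.insert_edge h, ?_⟩
      intro e he
      rcases Finset.mem_insert.1 he with rfl | he
      · exact ⟨1, ht, Hop.single (Or.inl (by simp))⟩
      · obtain ⟨m, hm, hw⟩ := hcov e he
        refine ⟨m, hm, hw.mono ?_⟩
        intro a b hab
        simp only [PairAdj, Finset.mem_filter, Finset.mem_insert] at hab ⊢
        tauto

/-- Vertices reachable from `v` by at most `i` steps inside `V`. -/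
noncomputable def reach (A : Fin n → Fin n → Prop) (V : Finset (Fin n)) (v : Fin n) :
    ℕ → Finset (Fin n)
  | 0 => {v}
  | i + 1 => by
    classical
    exact reach A V v i ∪ V.filter (fun w => ∃ u ∈ reach A V v i, A u w)

theorem reach_subset_succ (A : Fin n → Fin n → Prop) (V : Finset (Fin n)) (v : Fin n) (i : ℕ) :
    reach A V v i ⊆ reach A V v (i + 1) := by
  intro w hw; simp only [reach]; exact Finset.mem_union_left _ hw

theorem reach_subset (A : Fin n → Fin n → Prop) {V : Finset (Fin n)} {v : Fin n} (hv : v ∈ V)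
    (i : ℕ) : reach A V v i ⊆ V := by
  induction i with
  | zero => simpa [reach] using hv
  | succ i ih =>
    intro w hw
    simp only [reach, Finset.mem_union, Finset.mem_filter] at hw
    rcases hw with hw | hw
    · exact ih hw
    · exact hw.1

theorem mem_reach_succ {A : Fin n → Fin n → Prop} {V : Finset (Fin n)} {v u w : Fin n} {i : ℕ}
    (hu : u ∈ reach A V v i) (hw : w ∈ V) (ha : A u w) : w ∈ reach A V v (i + 1) := by
  simp only [reach, Finset.mem_union, Finset.mem_filter]
  exact Or.inr ⟨hw, u, hu, ha⟩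

/-- A vertex reached within `j` steps is reached by a walk avoiding every vertex outside
`reach (j-1)` other than itself. -/
theorem exists_hop_of_mem_reach (A : Fin n → Fin n → Prop) (V : Finset (Fin n)) (v : Fin n)
    (j : ℕ) : ∀ u, (∀ i < j, u ∉ reach A V v i) → ∀ w ∈ reach A V v j, w ≠ u →
      ∃ m ≤ j, Hop (fun a b => A a b ∧ a ≠ u ∧ b ≠ u) v w m := by
  induction j with
  | zero =>
    intro u _ w hw _
    simp only [reach, Finset.mem_singleton] at hw
    subst hw
    exact ⟨0, le_rfl, .refl _⟩
  | succ j ih =>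
    intro u hu w hw hwu
    simp only [reach, Finset.mem_union, Finset.mem_filter] at hw
    rcases hw with hw | ⟨_, x, hx, hxw⟩
    · obtain ⟨m, hm, h⟩ := ih u (fun i hi => hu i (by omega)) w hw hwu
      exact ⟨m, by omega, h⟩
    · have hxu : x ≠ u := by
        rintro rfl
        exact hu j (by omega) hx
      obtain ⟨m, hm, h⟩ := ih u (fun i hi => hu i (by omega)) x hx hxu
      exact ⟨m + 1, by omega, h.append (Hop.single ⟨hxw, hxu, hwu⟩)⟩

theorem Girthy.unique_back {k : ℕ} {E : Finset (Fin n × Fin n)} (hG : Girthy (2 * k - 1) E)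
    (hirr : ∀ a, (a, a) ∉ E)
    {V : Finset (Fin n)} {v u w₁ w₂ : Fin n} {i : ℕ} (hi : i < k)
    (hu : ∀ l < i, u ∉ reach (PairAdj E) V v l)
    (h1 : w₁ ∈ reach (PairAdj E) V v i) (h2 : w₂ ∈ reach (PairAdj E) V v i)
    (ha1 : PairAdj E u w₁) (ha2 : PairAdj E u w₂) : w₁ = w₂ := by
  by_contra hne
  have hne1 : w₁ ≠ u := by
    rintro rfl
    rcases ha1 with h | h <;> exact hirr _ h
  have hne2 : w₂ ≠ u := by
    rintro rfl
    rcases ha2 with h | h <;> exact hirr _ h
  obtain ⟨m₁, hm₁, hp1⟩ := exists_hop_of_mem_reach _ V v i u hu w₁ h1 hne1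
  obtain ⟨m₂, hm₂, hp2⟩ := exists_hop_of_mem_reach _ V v i u hu w₂ h2 hne2
  have key : ∀ e ∈ E, (e = (u, w₁) ∨ e = (w₁, u)) → False := by
    intro e he hor
    have hlift : ∀ a b, (PairAdj E a b ∧ a ≠ u ∧ b ≠ u) → PairAdj (E.erase e) a b := by
      rintro a b ⟨hab, hau, hbu⟩
      simp only [PairAdj, Finset.mem_erase] at hab ⊢
      rcases hab with h | h
      · refine Or.inl ⟨?_, h⟩
        rintro rfl
        rcases hor with heq | heq
        · exact hau (Prod.ext_iff.1 heq).1
        · exact hbu (Prod.ext_iff.1 heq).2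
      · refine Or.inr ⟨?_, h⟩
        rintro rfl
        rcases hor with heq | heq
        · exact hbu (Prod.ext_iff.1 heq).1
        · exact hau (Prod.ext_iff.1 heq).2
    have hsym : ∀ x y, PairAdj (E.erase e) x y → PairAdj (E.erase e) y x :=
      fun x y h => Or.symm h
    have huw2 : PairAdj (E.erase e) u w₂ := by
      simp only [PairAdj, Finset.mem_erase] at ha2 ⊢
      rcases ha2 with h | h
      · refine Or.inl ⟨?_, h⟩
        rintro rfl
        rcases hor with heq | heq
        · exact hne (Prod.ext_iff.1 heq).2.symm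
        · exact hne2 (Prod.ext_iff.1 heq).2
      · refine Or.inr ⟨?_, h⟩
        rintro rfl
        rcases hor with heq | heq
        · exact hne2 (Prod.ext_iff.1 heq).1
        · exact hne (Prod.ext_iff.1 heq).1.symm
    have hwalk := (Hop.single huw2).append
      (((hp2.mono hlift).reverse hsym).append (hp1.mono hlift))
    rcases hor with rfl | rfl
    · exact hG _ he _ (by omega) hwalk
    · exact hG _ he _ (by omega) (hwalk.reverse hsym)
  rcases ha1 with h | h
  · exact key _ h (Or.inl rfl)
  · exact key _ h (Or.inr rfl)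

/-- In a nonempty vertex set, some vertex has at most three kept neighbours. -/
theorem Girthy.exists_deg_le {k : ℕ} {E : Finset (Fin n × Fin n)} (hG : Girthy (2 * k - 1) E)
    (hk : n < 3 ^ k) (hirr : ∀ a, (a, a) ∉ E) {V : Finset (Fin n)} (hV : V.Nonempty) :
    ∃ v ∈ V, ∀ S ⊆ V, (∀ w ∈ S, PairAdj E v w) → S.card ≤ 3 := by
  classical
  by_contra hcon
  push Not at hcon
  obtain ⟨v, hv⟩ := hV
  set A := PairAdj E with hA
  have hsym : ∀ x y, A x y → A y x := fun x y h => Or.symm h
  have hdeg : ∀ u ∈ V, 4 ≤ (V.filter (fun w => A u w)).card := by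
    intro u hu
    obtain ⟨S, hSV, hSA, hS⟩ := hcon u hu
    have : S ⊆ V.filter (fun w => A u w) := fun w hw => Finset.mem_filter.2 ⟨hSV hw, hSA w hw⟩
    have := Finset.card_le_card this
    omega
  let L : ℕ → Finset (Fin n) := fun i =>
    (reach A V v i).filter (fun w => ∀ l < i, w ∉ reach A V v l)
  have hgrow : ∀ i, i < k → 3 * (L i).card ≤ (L (i + 1)).card := by
    intro i hik
    let child : Fin n → Finset (Fin n) := fun u =>
      V.filter (fun w => A u w ∧ w ∉ reach A V v i)
    have hchild : ∀ u ∈ L i, 3 ≤ (child u).card := by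
      intro u hu
      simp only [L, Finset.mem_filter] at hu
      have huV := reach_subset A hv i hu.1
      have hback : ((V.filter (fun w => A u w)).filter (fun w => w ∈ reach A V v i)).card ≤ 1 := by
        rw [Finset.card_le_one]
        intro a ha b hb
        simp only [Finset.mem_filter] at ha hb
        exact hG.unique_back hirr hik hu.2 ha.2 hb.2 ha.1.2 hb.1.2
      have hsplit := Finset.card_filter_add_card_filter_not (s := V.filter (fun w => A u w))
        (p := fun w => w ∈ reach A V v i)
      have heq : (V.filter (fun w => A u w)).filter (fun w => ¬ w ∈ reach A V v i) = child u := by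
        simp only [child, Finset.filter_filter]
      rw [heq] at hsplit
      have := hdeg u huV
      omega
    have hsub : ∀ u ∈ L i, child u ⊆ L (i + 1) := by
      intro u hu w hw
      simp only [L, child, Finset.mem_filter] at hu hw ⊢
      refine ⟨mem_reach_succ hu.1 hw.1 hw.2.1, ?_⟩
      intro l hl hmem
      have hmono : Monotone (fun j => reach A V v j) :=
        monotone_nat_of_le_succ (fun j => reach_subset_succ A V v j)
      exact hw.2.2 (hmono (show l ≤ i by omega) hmem)
    have hdisj : Set.PairwiseDisjoint (↑(L i)) child := by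
      intro a ha b hb hab
      simp only [Function.onFun]
      rw [Finset.disjoint_left]
      intro w hwa hwb
      simp only [child, Finset.mem_filter] at hwa hwb
      simp only [L, Finset.coe_filter, Set.mem_ofPred_eq] at ha hb
      refine hab (hG.unique_back hirr hik (u := w) ?_ ha.1 hb.1 (hsym _ _ hwa.2.1)
        (hsym _ _ hwb.2.1))
      intro l hl hmem
      have hmono : Monotone (fun j => reach A V v j) :=
        monotone_nat_of_le_succ (fun j => reach_subset_succ A V v j)
      exact hwa.2.2 (hmono (show l ≤ i by omega) hmem)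
    calc 3 * (L i).card = ∑ u ∈ L i, 3 := by simp [mul_comm]
      _ ≤ ∑ u ∈ L i, (child u).card := Finset.sum_le_sum hchild
      _ = ((L i).biUnion child).card := (Finset.card_biUnion hdisj).symm
      _ ≤ (L (i + 1)).card := Finset.card_le_card (Finset.biUnion_subset.2 hsub)
  have hpow : ∀ i, i ≤ k → 3 ^ i ≤ (L i).card := by
    intro i
    induction i with
    | zero => intro _; simp [L, reach]
    | succ i ih =>
      intro hi
      calc 3 ^ (i + 1) = 3 * 3 ^ i := by ring
        _ ≤ 3 * (L i).card := Nat.mul_le_mul_left _ (ih (by omega))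
        _ ≤ _ := hgrow i (by omega)
  have h1 := hpow k le_rfl
  have h2 : (L k).card ≤ n := by simpa using Finset.card_le_univ (L k)
  omega

/-- The Moore bound in the form needed: linearly many edges. -/
theorem Girthy.card_le {k : ℕ} {E : Finset (Fin n × Fin n)} (hG : Girthy (2 * k - 1) E)
    (hk : n < 3 ^ k) (hlt : ∀ e ∈ E, e.1 < e.2) : E.card ≤ 3 * n := by
  classical
  have hirr : ∀ a, (a, a) ∉ E := fun a h => lt_irrefl _ (hlt _ h)
  suffices ∀ N, ∀ V : Finset (Fin n), V.card = N →
      (E.filter (fun e => e.1 ∈ V ∧ e.2 ∈ V)).card ≤ 3 * N by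
    simpa using this n Finset.univ (by simp)
  intro N
  induction N with
  | zero =>
    intro V hV
    rw [Finset.card_eq_zero] at hV
    simp [hV]
  | succ N ih =>
    intro V hV
    obtain ⟨v, hv, hdeg⟩ := hG.exists_deg_le hk hirr (V := V) (Finset.card_pos.1 (by omega))
    have hin := ih (V.erase v) (by rw [Finset.card_erase_of_mem hv]; omega)
    let F := E.filter (fun e => (e.1 = v ∧ e.2 ∈ V) ∨ (e.2 = v ∧ e.1 ∈ V))
    let g : Fin n × Fin n → Fin n := fun e => if e.1 = v then e.2 else e.1
    have hF : F.card ≤ 3 := by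
      have hinj : Set.InjOn g ↑F := by
        intro a ha b hb hab
        simp only [F, Finset.coe_filter, Set.mem_ofPred_eq] at ha hb
        have la := hlt a ha.1
        have lb := hlt b hb.1
        obtain ⟨a1, a2⟩ := a
        obtain ⟨b1, b2⟩ := b
        simp only [g] at hab
        simp only at la lb ha hb
        rcases ha.2 with ⟨p, -⟩ | ⟨p, -⟩ <;> rcases hb.2 with ⟨q, -⟩ | ⟨q, -⟩ <;>
          subst p <;> split_ifs at hab with c1 c2 <;> simp only [Prod.mk.injEq] <;>
          simp only [Fin.ext_iff, Fin.lt_def] at * <;> omega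
      rw [← Finset.card_image_of_injOn hinj]
      apply hdeg
      · intro w hw
        simp only [Finset.mem_image, F, Finset.mem_filter] at hw
        obtain ⟨a, ⟨ha, hh⟩, rfl⟩ := hw
        have la := hlt a ha
        simp only [g]
        rcases hh with ⟨p, q⟩ | ⟨p, q⟩
        · simp [p, q]
        · have : a.1 ≠ v := by rw [← p]; exact la.ne
          simp [this, q]
      · intro w hw
        simp only [Finset.mem_image, F, Finset.mem_filter] at hw
        obtain ⟨a, ⟨ha, hh⟩, rfl⟩ := hw
        have la := hlt a ha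
        simp only [g]
        rcases hh with ⟨p, q⟩ | ⟨p, q⟩
        · rw [if_pos p]
          left
          rw [← p]; exact ha
        · have : a.1 ≠ v := by rw [← p]; exact la.ne
          rw [if_neg this]
          right
          rw [← p]; exact ha
    have hsub : E.filter (fun e => e.1 ∈ V ∧ e.2 ∈ V) ⊆
        E.filter (fun e => e.1 ∈ V.erase v ∧ e.2 ∈ V.erase v) ∪ F := by
      intro e he
      simp only [F, Finset.mem_filter, Finset.mem_union, Finset.mem_erase] at he ⊢
      tauto
    have h := (Finset.card_le_card hsub).trans (Finset.card_union_le _ _)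
    omega

end Vale.Agent.P249
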